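import Mathlib

/-!
A smooth function `W` with `W = 0` on `(-∞, 0]`, `W x = x - 1/2` on `[1, ∞)` and
`W' x = W (2 x) - W (2 x - 1)`.
-/

open Set MeasureTheory intervalIntegral Filter Topology
open scoped BoundedContinuousFunction

namespace Vale.Agent.P113

/-- averaging operator -/
noncomputable def avg (g : ℝ → ℝ) (x : ℝ) : ℝ := (1/2) * ∫ s in (2*x-1)..(2*x), g s

noncomputable def f0 (x : ℝ) : ℝ := max (x - 1/2) 0

lemma f0_cont : Continuous f0 := by unfold f0; fun_prop

lemma avg_cont {g : ℝ → ℝ} (hg : Continuous g) : Continuous (avg g) := by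
  unfold avg
  have : (fun x : ℝ => (1/2) * ∫ s in (2*x-1)..(2*x), g s) =
      fun x => (1/2) * ((∫ s in (0:ℝ)..(2*x), g s) - ∫ s in (0:ℝ)..(2*x-1), g s) := by
    funext x
    rw [intervalIntegral.integral_interval_sub_left]
    · exact hg.intervalIntegrable _ _
    · exact hg.intervalIntegrable _ _
  rw [this]
  have h1 : Continuous fun b => ∫ s in (0:ℝ)..b, g s :=
    intervalIntegral.continuous_primitive (fun a b => hg.intervalIntegrable a b) 0
  have h2 : Continuous fun x : ℝ => ∫ s in (0:ℝ)..(2*x), g s := h1.comp (by fun_prop)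
  have h3 : Continuous fun x : ℝ => ∫ s in (0:ℝ)..(2*x-1), g s := h1.comp (by fun_prop)
  exact continuous_const.mul (h2.sub h3)

structure Good (V : ℝ → ℝ) : Prop where
  cont : Continuous V
  zero : ∀ x ≤ 0, V x = 0
  lin : ∀ x ≥ 1, V x = x - 1/2
  mono : ∀ x y, x ≤ y → V x ≤ V y
  lip : ∀ x y, x ≤ y → V y - V x ≤ y - x

lemma good_f0 : Good f0 where
  cont := f0_cont
  zero x hx := by unfold f0; exact max_eq_right (by linarith)
  lin x hx := by unfold f0; exact max_eq_left (by linarith)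
  mono x y h := by unfold f0; exact max_le_max (by linarith) le_rfl
  lip x y h := by
    unfold f0
    rcases le_total (x - 1/2) 0 with h1 | h1 <;> rcases le_total (y - 1/2) 0 with h2 | h2 <;>
      simp only [h1, h2, max_eq_left, max_eq_right] <;> linarith

lemma avg_shift (V : ℝ → ℝ) (x : ℝ) :
    avg V x = (1/2) * ∫ s in (0:ℝ)..1, V (s + (2*x-1)) := by
  unfold avg
  rw [intervalIntegral.integral_comp_add_right]
  congr 2 <;> ring

lemma good_avg {V : ℝ → ℝ} (h : Good V) : Good (avg V) where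
  cont := avg_cont h.cont
  zero x hx := by
    unfold avg
    have : ∫ s in (2*x-1)..(2*x), V s = ∫ s in (2*x-1)..(2*x), (0:ℝ) := by
      apply intervalIntegral.integral_congr
      intro s hs
      rw [uIcc_of_le (by linarith)] at hs
      exact h.zero s (by linarith [hs.2])
    rw [this]; simp
  lin x hx := by
    unfold avg
    have : ∫ s in (2*x-1)..(2*x), V s = ∫ s in (2*x-1)..(2*x), (s - 1/2) := by
      apply intervalIntegral.integral_congr
      intro s hs
      rw [uIcc_of_le (by linarith)] at hs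
      exact h.lin s (by linarith [hs.1])
    rw [this]
    rw [intervalIntegral.integral_sub (by simp) (by simp)]
    simp
    ring
  mono x y hxy := by
    rw [avg_shift, avg_shift]
    apply mul_le_mul_of_nonneg_left _ (by norm_num)
    apply intervalIntegral.integral_mono_on (by norm_num)
    · exact (h.cont.comp (by fun_prop)).intervalIntegrable _ _
    · exact (h.cont.comp (by fun_prop)).intervalIntegrable _ _
    · intro s _
      exact h.mono _ _ (by linarith)
  lip x y hxy := by
    rw [avg_shift, avg_shift, ← mul_sub, ← intervalIntegral.integral_sub]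
    · have : ∫ s in (0:ℝ)..1, (V (s + (2*y-1)) - V (s + (2*x-1))) ≤ ∫ s in (0:ℝ)..1, (2*(y-x)) := by
        apply intervalIntegral.integral_mono_on (by norm_num)
        · exact ((h.cont.comp (by fun_prop)).sub (h.cont.comp (by fun_prop))).intervalIntegrable _ _
        · simp
        · intro s _
          have := h.lip (s + (2*x-1)) (s + (2*y-1)) (by linarith)
          linarith
      rw [intervalIntegral.integral_const] at this
      simp at this
      linarith
    · exact (h.cont.comp (by fun_prop)).intervalIntegrable _ _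
    · exact (h.cont.comp (by fun_prop)).intervalIntegrable _ _

lemma f0_bound (s x : ℝ) (h1 : 2*x-1 ≤ s) (h2 : s ≤ 2*x) : |f0 s - 2 * f0 x| ≤ 1/2 := by
  unfold f0
  rcases le_total (x - 1/2) 0 with h3 | h3 <;> rcases le_total (s - 1/2) 0 with h4 | h4 <;>
      simp only [h3, h4, max_eq_left, max_eq_right] <;> rw [abs_le] <;> constructor <;> linarith

lemma avg_f0_bound (x : ℝ) : |avg f0 x - f0 x| ≤ 1/4 := by
  have h : avg f0 x - f0 x = (1/2) * ∫ s in (2*x-1)..(2*x), (f0 s - 2 * f0 x) := by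
    unfold avg
    rw [intervalIntegral.integral_sub (f0_cont.intervalIntegrable _ _) (by simp)]
    simp
    ring
  rw [h, abs_mul]
  have := intervalIntegral.norm_integral_le_of_norm_le_const (a := 2*x-1) (b := 2*x) (C := 1/2)
    (f := fun s => f0 s - 2 * f0 x) (by
      intro s hs
      rw [uIoc_of_le (by linarith)] at hs
      exact f0_bound s x hs.1.le hs.2)
  rw [Real.norm_eq_abs] at this
  have h2 : |(2*x) - (2*x-1)| = 1 := by norm_num
  rw [h2] at this
  have h3 : |(1/2 : ℝ)| = 1/2 := by norm_num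
  rw [h3]
  linarith

lemma avg_add {g1 g2 : ℝ → ℝ} (h1 : Continuous g1) (h2 : Continuous g2) (x : ℝ) :
    avg (fun s => g1 s + g2 s) x = avg g1 x + avg g2 x := by
  unfold avg
  rw [intervalIntegral.integral_add (h1.intervalIntegrable _ _) (h2.intervalIntegrable _ _)]
  ring

lemma avg_sub {g1 g2 : ℝ → ℝ} (h1 : Continuous g1) (h2 : Continuous g2) (x : ℝ) :
    avg (fun s => g1 s - g2 s) x = avg g1 x - avg g2 x := by
  unfold avg
  rw [intervalIntegral.integral_sub (h1.intervalIntegrable _ _) (h2.intervalIntegrable _ _)]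
  ring

lemma avg_bound {g : ℝ → ℝ} {C : ℝ} (h : ∀ s, |g s| ≤ C) (x : ℝ) : |avg g x| ≤ C/2 := by
  unfold avg
  rw [abs_mul]
  have := intervalIntegral.norm_integral_le_of_norm_le_const (a := 2*x-1) (b := 2*x) (C := C)
    (f := g) (by intro s _; exact h s)
  rw [Real.norm_eq_abs] at this
  have h2 : |(2*x) - (2*x-1)| = 1 := by norm_num
  rw [h2] at this
  have h3 : |(1/2 : ℝ)| = 1/2 := by norm_num
  rw [h3]
  linarith

/-- the contraction on bounded continuous functions -/
noncomputable def TT (g : ℝ →ᵇ ℝ) : ℝ →ᵇ ℝ :=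
  BoundedContinuousFunction.ofNormedAddCommGroup (fun x => avg (fun s => f0 s + g s) x - f0 x)
    ((avg_cont (f0_cont.add g.continuous)).sub f0_cont) (1/4 + ‖g‖/2) (by
      intro x
      rw [avg_add f0_cont g.continuous, Real.norm_eq_abs]
      have h1 := avg_f0_bound x
      have h2 := avg_bound (g := g) (C := ‖g‖) (fun s => g.norm_coe_le_norm s) x
      have : avg f0 x + avg (fun s => g s) x - f0 x = (avg f0 x - f0 x) + avg (fun s => g s) x := by
        ring
      rw [this]
      exact (abs_add_le _ _).trans (add_le_add h1 h2))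

lemma TT_apply (g : ℝ →ᵇ ℝ) (x : ℝ) : TT g x = avg (fun s => f0 s + g s) x - f0 x := rfl

lemma TT_contracting : ContractingWith (1/2) TT := by
  refine ⟨by norm_num, ?_⟩
  apply LipschitzWith.of_dist_le_mul
  intro g1 g2
  have hK : ((1/2 : NNReal) : ℝ) = 1/2 := by norm_num
  rw [hK, BoundedContinuousFunction.dist_le (by positivity)]
  intro x
  rw [TT_apply, TT_apply, Real.dist_eq]
  rw [avg_add f0_cont g1.continuous, avg_add f0_cont g2.continuous]
  have : avg f0 x + avg (fun s => g1 s) x - f0 x - (avg f0 x + avg (fun s => g2 s) x - f0 x)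
      = avg (fun s => g1 s - g2 s) x := by
    rw [avg_sub g1.continuous g2.continuous]; ring
  rw [this]
  have h2 := avg_bound (g := fun s => g1 s - g2 s) (C := dist g1 g2) (by
    intro s
    rw [← Real.dist_eq]
    exact BoundedContinuousFunction.dist_coe_le_dist s) x
  linarith

noncomputable def gfix : ℝ →ᵇ ℝ := TT_contracting.fixedPoint TT

/-- the smooth function `W` -/
noncomputable def W (x : ℝ) : ℝ := f0 x + gfix x

lemma good_iter (n : ℕ) : Good (fun x => f0 x + (TT^[n] 0 : ℝ →ᵇ ℝ) x) := by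
  induction n with
  | zero => simpa using good_f0
  | succ n ih =>
    rw [Function.iterate_succ_apply']
    have : (fun x => f0 x + TT (TT^[n] 0) x) = avg (fun x => f0 x + (TT^[n] 0 : ℝ →ᵇ ℝ) x) := by
      funext x
      rw [TT_apply]
      ring
    rw [this]
    exact good_avg ih

lemma W_lim (x : ℝ) : Tendsto (fun n => f0 x + (TT^[n] 0 : ℝ →ᵇ ℝ) x) atTop (𝓝 (W x)) := by
  have h := TT_contracting.tendsto_iterate_fixedPoint 0
  have h2 : Tendsto (fun n => (TT^[n] 0 : ℝ →ᵇ ℝ) x) atTop (𝓝 (gfix x)) := by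
    have hc : Continuous (fun g : ℝ →ᵇ ℝ => g x) :=
      (continuous_eval_const (F := ℝ →ᵇ ℝ) x)
    exact (hc.tendsto _).comp h
  exact tendsto_const_nhds.add h2

lemma W_cont : Continuous W := f0_cont.add gfix.continuous

lemma W_avg (x : ℝ) : W x = avg W x := by
  have h : TT gfix = gfix := TT_contracting.fixedPoint_isFixedPt
  have h2 : TT gfix x = gfix x := by rw [h]
  rw [TT_apply] at h2
  unfold W
  linarith

lemma good_W : Good W where
  cont := W_cont
  zero x hx := by
    refine tendsto_nhds_unique (W_lim x) ?_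
    refine tendsto_const_nhds.congr ?_
    intro n
    exact ((good_iter n).zero x hx).symm
  lin x hx := by
    refine tendsto_nhds_unique (W_lim x) ?_
    refine tendsto_const_nhds.congr ?_
    intro n
    exact ((good_iter n).lin x hx).symm
  mono x y hxy := le_of_tendsto_of_tendsto' (W_lim x) (W_lim y) (fun n => (good_iter n).mono x y hxy)
  lip x y hxy := by
    refine le_of_tendsto' ((W_lim y).sub (W_lim x)) (fun n => (good_iter n).lip x y hxy)

lemma W_hasDerivAt (x : ℝ) : HasDerivAt W (W (2*x) - W (2*x-1)) x := by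
  have hI : ∀ b, HasDerivAt (fun b => ∫ s in (0:ℝ)..b, W s) (W b) b := fun b =>
    intervalIntegral.integral_hasDerivAt_right (W_cont.intervalIntegrable _ _)
      (W_cont.stronglyMeasurableAtFilter _ _) W_cont.continuousAt
  have h1 : W = fun x => (1/2) * ((∫ s in (0:ℝ)..(2*x), W s) - ∫ s in (0:ℝ)..(2*x-1), W s) := by
    funext x
    conv_lhs => rw [W_avg x]
    unfold avg
    rw [intervalIntegral.integral_interval_sub_left]
    · exact W_cont.intervalIntegrable _ _
    · exact W_cont.intervalIntegrable _ _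
  have hd1 : HasDerivAt (fun x : ℝ => 2*x) 2 x := by
    simpa using (hasDerivAt_id x).const_mul (2:ℝ)
  have hd2 : HasDerivAt (fun x : ℝ => 2*x-1) 2 x := hd1.sub_const 1
  have h2 := (hI (2*x)).comp x hd1
  have h3 := (hI (2*x-1)).comp x hd2
  have h4 := (h2.sub h3).const_mul (1/2 : ℝ)
  refine (h4.congr_of_eventuallyEq (Filter.Eventually.of_forall fun y => congrFun h1 y)).congr_deriv
    (by ring)

/-- iterated derivatives of `W` -/
noncomputable def WD : ℕ → ℝ → ℝ
  | 0 => W
  | (k+1) => fun x => 2^k * (WD k (2*x) - WD k (2*x-1))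

lemma WD_zero_apply (x : ℝ) : WD 0 x = W x := rfl

lemma WD_succ_apply (k : ℕ) (x : ℝ) : WD (k+1) x = 2^k * (WD k (2*x) - WD k (2*x-1)) := rfl

lemma WD_hasDerivAt (k : ℕ) (x : ℝ) : HasDerivAt (WD k) (WD (k+1) x) x := by
  induction k generalizing x with
  | zero =>
    refine (W_hasDerivAt x).congr_deriv ?_
    rw [WD_succ_apply, WD_zero_apply, WD_zero_apply]; ring
  | succ k ih =>
    rw [WD_succ_apply]
    have hd1 : HasDerivAt (fun x : ℝ => 2*x) 2 x := by
      simpa using (hasDerivAt_id x).const_mul (2:ℝ)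
    have hd2 : HasDerivAt (fun x : ℝ => 2*x-1) 2 x := hd1.sub_const 1
    have h2 := (ih (2*x)).comp x hd1
    have h3 := (ih (2*x-1)).comp x hd2
    have h4 := (h2.sub h3).const_mul ((2:ℝ)^k)
    refine h4.congr_deriv ?_
    rw [pow_succ]; ring

lemma WD_nonpos (k : ℕ) {x : ℝ} (hx : x ≤ 0) : WD k x = 0 := by
  induction k generalizing x with
  | zero => exact good_W.zero x hx
  | succ k ih => rw [WD_succ_apply, ih (by linarith), ih (by linarith)]; ring

lemma WD_zero_ge {x : ℝ} (hx : 1 ≤ x) : WD 0 x = x - 1/2 := good_W.lin x hx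

lemma WD_one_ge {x : ℝ} (hx : 1 ≤ x) : WD 1 x = 1 := by
  rw [WD_succ_apply, WD_zero_ge (by linarith), WD_zero_ge (by linarith)]; ring

lemma WD_ge (k : ℕ) {x : ℝ} (hx : 1 ≤ x) : WD (k+2) x = 0 := by
  induction k generalizing x with
  | zero => rw [WD_succ_apply, WD_one_ge (by linarith), WD_one_ge (by linarith)]; ring
  | succ k ih => rw [WD_succ_apply, ih (by linarith), ih (by linarith)]; ring

lemma WD_one_nonneg (x : ℝ) : 0 ≤ WD 1 x := by
  rw [WD_succ_apply, WD_zero_apply, WD_zero_apply]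
  have := good_W.mono (2*x-1) (2*x) (by linarith)
  simp; linarith

lemma WD_one_le (x : ℝ) : WD 1 x ≤ 1 := by
  rw [WD_succ_apply, WD_zero_apply, WD_zero_apply]
  have := good_W.lip (2*x-1) (2*x) (by linarith)
  simp; linarith

lemma W_abs_sub (x y : ℝ) : |W x - W y| ≤ |x - y| := by
  rcases le_total x y with h | h
  · have h1 := good_W.mono x y h
    have h2 := good_W.lip x y h
    rw [abs_sub_comm, abs_sub_comm x y, abs_of_nonneg (by linarith), abs_of_nonneg (by linarith)]
    exact h2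
  · have h1 := good_W.mono y x h
    have h2 := good_W.lip y x h
    rw [abs_of_nonneg (by linarith), abs_of_nonneg (by linarith)]
    exact h2

lemma W_base (x : ℝ) (hx : 0 ≤ x) : |W x - x| ≤ 1/2 := by
  have h0 : W 0 = 0 := good_W.zero 0 le_rfl
  rw [abs_le]
  constructor
  · rcases le_total x 1 with h | h
    · have h1 := good_W.lip x 1 h
      have h2 := good_W.lin 1 le_rfl
      linarith
    · rw [good_W.lin x h]; linarith
  · have := good_W.lip 0 x hx
    linarith

/-- Riemann sum error -/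
lemma W_quad (N : ℕ) (hN : 0 < N) (y : ℝ) :
    |(∫ s in (y-1)..y, W s) - (1/(N:ℝ)) * ∑ j ∈ Finset.range N, W (y - j/N)| ≤ 1/N := by
  have hN' : (0:ℝ) < N := by exact_mod_cast hN
  have hI : ∀ a b, IntervalIntegrable W volume a b := fun a b => W_cont.intervalIntegrable a b
  have h1 : ∑ j ∈ Finset.range N, ((∫ s in (0:ℝ)..(y - (j:ℕ)/N), W s) -
      ∫ s in (0:ℝ)..(y - ((j+1:ℕ):ℝ)/N), W s) = ∫ s in (y-1)..y, W s := by
    rw [Finset.sum_range_sub' (fun j : ℕ => ∫ s in (0:ℝ)..(y - (j:ℝ)/N), W s)]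
    rw [intervalIntegral.integral_interval_sub_left (hI _ _) (hI _ _)]
    simp [hN'.ne']
  rw [← h1, Finset.mul_sum, ← Finset.sum_sub_distrib]
  have h2 : ∀ j ∈ Finset.range N, |((∫ s in (0:ℝ)..(y - (j:ℕ)/N), W s) -
      ∫ s in (0:ℝ)..(y - ((j+1:ℕ):ℝ)/N), W s) - 1/(N:ℝ) * W (y - j/N)| ≤ 1/N * (1/N) := by
    intro j _
    rw [intervalIntegral.integral_interval_sub_left (hI _ _) (hI _ _)]
    have h3 : 1/(N:ℝ) * W (y - j/N) = ∫ s in (y - ((j+1:ℕ):ℝ)/N)..(y - (j:ℕ)/N), W (y - j/N) := by
      rw [intervalIntegral.integral_const]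
      simp only [smul_eq_mul]
      congr 1
      push_cast
      field_simp
      ring
    rw [h3, ← intervalIntegral.integral_sub (hI _ _) (by simp)]
    have hle : (y - ((j+1:ℕ):ℝ)/N) ≤ (y - (j:ℕ)/N) := by
      have : (j:ℝ)/N ≤ ((j+1:ℕ):ℝ)/N := by
        apply div_le_div_of_nonneg_right _ hN'.le
        push_cast; linarith
      linarith
    have h4 := intervalIntegral.norm_integral_le_of_norm_le_const
      (a := (y - ((j+1:ℕ):ℝ)/N)) (b := (y - (j:ℕ)/N)) (C := 1/N)
      (f := fun s => W s - W (y - j/N)) (by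
        intro s hs
        rw [uIoc_of_le hle] at hs
        rw [Real.norm_eq_abs]
        refine (W_abs_sub _ _).trans ?_
        have h5 : ((j+1:ℕ):ℝ)/N = j/N + 1/N := by push_cast; field_simp
        have h6 := hs.1
        rw [h5] at h6
        rw [abs_le]
        constructor <;> linarith [hs.2])
    rw [Real.norm_eq_abs] at h4
    refine h4.trans (le_of_eq ?_)
    have h5 : (y - (j:ℕ)/N) - (y - ((j+1:ℕ):ℝ)/N) = 1/(N:ℝ) := by
      push_cast; field_simp; ring
    rw [h5, abs_of_pos (by positivity)]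
  refine (Finset.abs_sum_le_sum_abs _ _).trans ((Finset.sum_le_sum h2).trans (le_of_eq ?_))
  rw [Finset.sum_const, Finset.card_range, nsmul_eq_mul]
  field_simp

/-- integer tables approximating `W` -/
def tab (N : ℕ) : ℕ → ℕ → ℕ
  | 0 => fun i => i
  | (k+1) => fun i => ∑ j ∈ Finset.range N, tab N k (2*i - j)

lemma tab_approx (N : ℕ) (hN : 0 < N) (k i : ℕ) :
    |W ((i:ℝ)/N) - (tab N k i : ℝ) / ((2*N)^k * N)| ≤ (1/2)^k/2 + 1/N := by
  have hN' : (0:ℝ) < N := by exact_mod_cast hN
  induction k generalizing i with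
  | zero =>
    have := W_base ((i:ℝ)/N) (by positivity)
    simp only [tab, pow_zero, one_mul]
    have h1 : (0:ℝ) ≤ 1/N := by positivity
    linarith
  | succ k ih =>
    have h1 : W ((i:ℝ)/N) = (1/2) * ∫ s in (2*((i:ℝ)/N)-1)..(2*((i:ℝ)/N)), W s := by
      conv_lhs => rw [W_avg]
      rfl
    have h2 := W_quad N hN (2*((i:ℝ)/N))
    have h3 : ∀ j : ℕ, W (2*((i:ℝ)/N) - j/N) = W (((2*i - j : ℕ):ℝ)/N) := by
      intro j
      rcases le_total j (2*i) with h | h
      · congr 1
        rw [Nat.cast_sub h]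
        push_cast
        ring
      · rw [Nat.sub_eq_zero_of_le h]
        rw [good_W.zero, good_W.zero]
        · simp
        · have : (2*i:ℝ) ≤ j := by exact_mod_cast h
          rw [← mul_div_assoc, ← sub_div]
          apply div_nonpos_of_nonpos_of_nonneg _ hN'.le
          linarith
    simp only [h3] at h2
    have h4 : (tab N (k+1) i : ℝ) / ((2*N)^(k+1) * N)
        = (1/2) * ((1/(N:ℝ)) * ∑ j ∈ Finset.range N, (tab N k (2*i-j) : ℝ) / ((2*N)^k*N)) := by
      simp only [tab]
      push_cast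
      rw [← Finset.sum_div]
      field_simp
      ring
    have h5 : |(1/(N:ℝ)) * ∑ j ∈ Finset.range N, W (((2*i - j : ℕ):ℝ)/N) -
        (1/(N:ℝ)) * ∑ j ∈ Finset.range N, (tab N k (2*i-j) : ℝ) / ((2*N)^k*N)|
          ≤ (1/2)^k/2 + 1/N := by
      rw [← mul_sub, ← Finset.sum_sub_distrib, abs_mul, abs_of_pos (by positivity : (0:ℝ) < 1/N)]
      have h6 : |∑ j ∈ Finset.range N, (W (((2*i - j : ℕ):ℝ)/N) -
          (tab N k (2*i-j) : ℝ) / ((2*N)^k*N))| ≤ ∑ j ∈ Finset.range N, ((1/2:ℝ)^k/2 + 1/N) :=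
        (Finset.abs_sum_le_sum_abs _ _).trans (Finset.sum_le_sum (fun j _ => ih (2*i-j)))
      rw [Finset.sum_const, Finset.card_range, nsmul_eq_mul] at h6
      calc 1/(N:ℝ) * _ ≤ 1/(N:ℝ) * (N * ((1/2:ℝ)^k/2 + 1/N)) :=
            mul_le_mul_of_nonneg_left h6 (by positivity)
        _ = _ := by field_simp
    rw [h1, h4, ← mul_sub, abs_mul, abs_of_pos (by norm_num : (0:ℝ) < 1/2)]
    have h7 := abs_sub_le (∫ s in (2*((i:ℝ)/N)-1)..(2*((i:ℝ)/N)), W s)
      ((1/(N:ℝ)) * ∑ j ∈ Finset.range N, W (((2*i - j : ℕ):ℝ)/N))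
      ((1/(N:ℝ)) * ∑ j ∈ Finset.range N, (tab N k (2*i-j) : ℝ) / ((2*N)^k*N))
    have h8 : (1/2:ℝ)^(k+1) = (1/2)^k/2 := by rw [pow_succ]; ring
    rw [h8]
    have h9 := h7.trans (add_le_add h2 h5)
    linarith

/-- sign exponents (Thue-Morse) -/
def tmc (k m : ℕ) : ℕ := ∑ i ∈ Finset.range k, (m / 2^i) % 2

lemma tmc_low (k m : ℕ) (hm : m < 2^k) : tmc (k+1) m = tmc k m := by
  unfold tmc
  rw [Finset.sum_range_succ, Nat.div_eq_of_lt hm]
  simp

lemma tmc_high (k m : ℕ) (hm : m < 2^k) : tmc (k+1) (2^k + m) = tmc k m + 1 := by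
  unfold tmc
  rw [Finset.sum_range_succ]
  congr 1
  · apply Finset.sum_congr rfl
    intro i hi
    rw [Finset.mem_range] at hi
    obtain ⟨d, rfl⟩ := Nat.exists_eq_add_of_lt hi
    have h1 : 2^(i+d+1) = 2^i * (2 * 2^d) := by ring
    rw [h1, Nat.mul_add_div (by positivity)]
    rw [Nat.mul_add_mod]
  · rw [Nat.add_div_left _ (by positivity), Nat.div_eq_of_lt hm]

lemma WD_formula (k : ℕ) (x : ℝ) :
    WD k x = 2^(k*(k-1)/2) * ∑ m ∈ Finset.range (2^k), (-1)^(tmc k m) * W (2^k*x - m) := by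
  induction k generalizing x with
  | zero => simp [tmc, WD_zero_apply]
  | succ k ih =>
    rw [WD_succ_apply, ih, ih]
    have h1 : (2:ℕ)^(k+1) = 2^k + 2^k := by ring
    rw [h1, Finset.sum_range_add]
    have h2 : (k+1)*((k+1)-1)/2 = k*(k-1)/2 + k := by
      have : (k+1)*((k+1)-1) = k*(k-1) + k * 2 := by
        cases k with
        | zero => rfl
        | succ n => simp only [Nat.add_sub_cancel]; ring
      rw [this, Nat.add_mul_div_right _ _ (by norm_num)]
    rw [h2, pow_add]
    have h3 : ∑ m ∈ Finset.range (2^k), (-1:ℝ)^(tmc (k+1) m) * W (2^(k+1)*x - m)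
        = ∑ m ∈ Finset.range (2^k), (-1:ℝ)^(tmc k m) * W (2^k*(2*x) - m) := by
      apply Finset.sum_congr rfl
      intro m hm
      rw [tmc_low k m (Finset.mem_range.mp hm)]
      congr 2; ring
    have h4 : ∑ m ∈ Finset.range (2^k), (-1:ℝ)^(tmc (k+1) (2^k + m)) *
          W (2^(k+1)*x - ((2^k + m : ℕ):ℝ))
        = - ∑ m ∈ Finset.range (2^k), (-1:ℝ)^(tmc k m) * W (2^k*(2*x-1) - m) := by
      rw [← Finset.sum_neg_distrib]
      apply Finset.sum_congr rfl
      intro m hm
      rw [tmc_high k m (Finset.mem_range.mp hm), pow_succ]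
      have : (2:ℝ)^(k+1)*x - ((2^k + m : ℕ):ℝ) = 2^k*(2*x-1) - m := by push_cast; ring
      rw [this]; ring
    rw [h3, h4]
    ring

end Vale.Agent.P113
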