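import Vale.Agent.P113.Defs
import Vale.Agent.P113.WFun

/-!
Computable families of real numbers.
-/

namespace Vale.Agent.P113

def qadd (p q : QCode) : QCode :=
  (p.1 * (q.2.2+1) + q.1 * (p.2.2+1), p.2.1 * (q.2.2+1) + q.2.1 * (p.2.2+1),
    (p.2.2+1) * (q.2.2+1) - 1)

def qmul (p q : QCode) : QCode :=
  (p.1 * q.1 + p.2.1 * q.2.1, p.1 * q.2.1 + p.2.1 * q.1, (p.2.2+1) * (q.2.2+1) - 1)

def qneg (p : QCode) : QCode := (p.2.1, p.1, p.2.2)

lemma rat_den_pos (q : QCode) : (0:ℝ) < (q.2.2 : ℝ) + 1 := by positivity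

lemma cast_den (a b : ℕ) : (((a+1)*(b+1) - 1 : ℕ) : ℝ) + 1 = ((a:ℝ)+1)*((b:ℝ)+1) := by
  have h : (a+1)*(b+1) - 1 + 1 = (a+1)*(b+1) := Nat.sub_add_cancel (by nlinarith)
  exact_mod_cast h

lemma rat_qadd (p q : QCode) : rat (qadd p q) = rat p + rat q := by
  have hp := (rat_den_pos p).ne'
  have hq := (rat_den_pos q).ne'
  unfold rat qadd
  simp only []
  rw [cast_den]
  push_cast
  field_simp
  ring

lemma rat_qmul (p q : QCode) : rat (qmul p q) = rat p * rat q := by
  have hp := (rat_den_pos p).ne'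
  have hq := (rat_den_pos q).ne'
  unfold rat qmul
  simp only []
  rw [cast_den]
  push_cast
  field_simp
  ring

lemma rat_qneg (p : QCode) : rat (qneg p) = - rat p := by
  unfold rat qneg
  simp only []
  rw [← neg_div]; congr 1; ring

lemma abs_rat_le (q : QCode) : |rat q| ≤ q.1 + q.2.1 := by
  unfold rat
  rw [abs_div, abs_of_pos (rat_den_pos q), div_le_iff₀ (rat_den_pos q)]
  have h1 : |(q.1:ℝ) - q.2.1| ≤ q.1 + q.2.1 := by
    rw [abs_le]; constructor <;> linarith [(Nat.cast_nonneg q.1 : (0:ℝ) ≤ q.1),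
      (Nat.cast_nonneg q.2.1 : (0:ℝ) ≤ q.2.1)]
  have h2 : (0:ℝ) ≤ q.1 + q.2.1 := by positivity
  have h3 : (0:ℝ) ≤ q.2.2 := by positivity
  nlinarith

section comp
variable {α : Type} [Primcodable α]

lemma cadd {f g : α → ℕ} (hf : Computable f) (hg : Computable g) :
    Computable (fun a => f a + g a) := (Primrec.nat_add.to_comp).comp hf hg
lemma cmul {f g : α → ℕ} (hf : Computable f) (hg : Computable g) :
    Computable (fun a => f a * g a) := (Primrec.nat_mul.to_comp).comp hf hg
lemma csub {f g : α → ℕ} (hf : Computable f) (hg : Computable g) :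
    Computable (fun a => f a - g a) := (Primrec.nat_sub.to_comp).comp hf hg
lemma cdiv {f g : α → ℕ} (hf : Computable f) (hg : Computable g) :
    Computable (fun a => f a / g a) := (Primrec.nat_div.to_comp).comp hf hg
lemma cmod {f g : α → ℕ} (hf : Computable f) (hg : Computable g) :
    Computable (fun a => f a % g a) := (Primrec.nat_mod.to_comp).comp hf hg

lemma ppow {f g : α → ℕ} (hf : Primrec f) (hg : Primrec g) :
    Primrec (fun a => f a ^ g a) := by
  have h := Primrec.nat_rec' (f := g) (g := fun _ : α => 1) (h := fun a p => p.2 * f a) hg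
    (Primrec.const 1) (Primrec.nat_mul.comp (Primrec.snd.comp Primrec.snd) (hf.comp Primrec.fst))
  refine h.of_eq ?_
  intro a
  induction g a with
  | zero => simp
  | succ n ih => simp only [pow_succ, ← ih]

lemma cpow {f g : α → ℕ} (hf : Computable f) (hg : Computable g) :
    Computable (fun a => f a ^ g a) := by
  have h : Primrec (fun p : ℕ × ℕ => p.1 ^ p.2) := ppow Primrec.fst Primrec.snd
  exact h.to_comp.comp (hf.pair hg)

lemma psum {f : α → ℕ → ℕ} {h : α → ℕ} (hf : Primrec₂ f) (hh : Primrec h) :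
    Primrec (fun a => ∑ j ∈ Finset.range (h a), f a j) := by
  have := Primrec.nat_rec' (f := h) (g := fun _ : α => 0) (h := fun a p => p.2 + f a p.1) hh
    (Primrec.const 0) (Primrec.nat_add.comp (Primrec.snd.comp Primrec.snd)
      (hf.comp Primrec.fst (Primrec.fst.comp Primrec.snd)))
  refine this.of_eq ?_
  intro a
  induction h a with
  | zero => simp
  | succ n ih => rw [Finset.sum_range_succ, ← ih]

lemma c_fst {f : α → QCode} (hf : Computable f) : Computable (fun a => (f a).1) :=
  Computable.fst.comp hf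
lemma c_snd1 {f : α → QCode} (hf : Computable f) : Computable (fun a => (f a).2.1) :=
  Computable.fst.comp (Computable.snd.comp hf)
lemma c_snd2 {f : α → QCode} (hf : Computable f) : Computable (fun a => (f a).2.2) :=
  Computable.snd.comp (Computable.snd.comp hf)

lemma cqadd {f g : α → QCode} (hf : Computable f) (hg : Computable g) :
    Computable (fun a => qadd (f a) (g a)) := by
  have one : Computable (fun _ : α => 1) := Computable.const 1
  have h1 := cadd (c_snd2 hf) one
  have h2 := cadd (c_snd2 hg) one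
  exact (cadd (cmul (c_fst hf) h2) (cmul (c_fst hg) h1)).pair
    ((cadd (cmul (c_snd1 hf) h2) (cmul (c_snd1 hg) h1)).pair (csub (cmul h1 h2) one))

lemma cqmul {f g : α → QCode} (hf : Computable f) (hg : Computable g) :
    Computable (fun a => qmul (f a) (g a)) := by
  have one : Computable (fun _ : α => 1) := Computable.const 1
  have h1 := cadd (c_snd2 hf) one
  have h2 := cadd (c_snd2 hg) one
  exact (cadd (cmul (c_fst hf) (c_fst hg)) (cmul (c_snd1 hf) (c_snd1 hg))).pair
    ((cadd (cmul (c_fst hf) (c_snd1 hg)) (cmul (c_snd1 hf) (c_fst hg))).pair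
      (csub (cmul h1 h2) one))

lemma cqneg {f : α → QCode} (hf : Computable f) : Computable (fun a => qneg (f a)) :=
  (c_snd1 hf).pair ((c_fst hf).pair (c_snd2 hf))

/-- A family of reals is computable if it is uniformly approximable by rationals. -/
def CR (f : α → ℝ) : Prop :=
  ∃ g : α × ℕ → QCode, Computable g ∧ ∀ a n, |f a - rat (g (a, n))| ≤ 1 / 2 ^ n

lemma CR.of_eq {f g : α → ℝ} (hf : CR f) (h : ∀ a, f a = g a) : CR g := by
  have : f = g := funext h
  exact this ▸ hf

lemma CR.ofQ {h : α → QCode} (hh : Computable h) : CR (fun a => rat (h a)) :=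
  ⟨fun p => h p.1, hh.comp Computable.fst, fun a n => by simp⟩

lemma CR.nat {h : α → ℕ} (hh : Computable h) : CR (fun a => (h a : ℝ)) := by
  refine (CR.ofQ (h := fun a => (h a, 0, 0))
    (hh.pair ((Computable.const 0).pair (Computable.const 0)))).of_eq ?_
  intro a; simp [rat]

lemma CR.const_rat (q : ℚ) : CR (fun _ : α => (q : ℝ)) := by
  refine (CR.ofQ (h := fun _ : α => (q.num.toNat, (-q.num).toNat, q.den - 1))
    (Computable.const _)).of_eq ?_
  intro a
  have hd : ((q.den - 1 : ℕ) : ℝ) + 1 = q.den := by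
    have : q.den - 1 + 1 = q.den := Nat.sub_add_cancel q.den_pos
    exact_mod_cast this
  have hn : ((q.num.toNat : ℕ) : ℝ) - ((-q.num).toNat : ℕ) = q.num := by
    have : ((q.num.toNat : ℕ) : ℤ) - ((-q.num).toNat : ℕ) = q.num := by omega
    exact_mod_cast this
  simp only [rat]
  rw [hd, hn]
  exact_mod_cast Rat.num_div_den q

lemma CR.comp {β : Type} [Primcodable β] {f : α → ℝ} (hf : CR f) {h : β → α}
    (hh : Computable h) : CR (fun b => f (h b)) := by
  obtain ⟨g, hg, hg'⟩ := hf
  exact ⟨fun p => g (h p.1, p.2), hg.comp ((hh.comp Computable.fst).pair Computable.snd),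
    fun b n => hg' (h b) n⟩

lemma CR.neg {f : α → ℝ} (hf : CR f) : CR (fun a => - f a) := by
  obtain ⟨g, hg, hg'⟩ := hf
  refine ⟨fun p => qneg (g p), cqneg hg, fun a n => ?_⟩
  rw [rat_qneg]
  have := hg' a n
  rw [abs_sub_comm] at this
  calc |(-f a) - -(rat (g (a,n)))| = |rat (g (a,n)) - f a| := by congr 1; ring
    _ ≤ _ := this

lemma CR.add {f g : α → ℝ} (hf : CR f) (hg : CR g) : CR (fun a => f a + g a) := by
  obtain ⟨F, hF, hF'⟩ := hf
  obtain ⟨G, hG, hG'⟩ := hg
  have hs : Computable (fun p : α × ℕ => (p.1, p.2 + 1)) :=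
    Computable.fst.pair (cadd Computable.snd (Computable.const 1))
  refine ⟨fun p => qadd (F (p.1, p.2+1)) (G (p.1, p.2+1)), cqadd (hF.comp hs) (hG.comp hs), ?_⟩
  intro a n
  rw [rat_qadd]
  have h1 := hF' a (n+1)
  have h2 := hG' a (n+1)
  have h3 : (1:ℝ)/2^(n+1) + 1/2^(n+1) = 1/2^n := by rw [pow_succ]; field_simp; norm_num
  calc |f a + g a - (rat (F (a, n+1)) + rat (G (a, n+1)))|
      = |(f a - rat (F (a, n+1))) + (g a - rat (G (a, n+1)))| := by congr 1; ring
    _ ≤ _ := abs_add_le _ _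
    _ ≤ 1/2^(n+1) + 1/2^(n+1) := add_le_add h1 h2
    _ = 1/2^n := h3

lemma CR.sub {f g : α → ℝ} (hf : CR f) (hg : CR g) : CR (fun a => f a - g a) :=
  (hf.add hg.neg).of_eq (fun a => by ring)

lemma CR.sum {f : α → ℕ → ℝ} (hf : CR (fun p : α × ℕ => f p.1 p.2)) {h : α → ℕ}
    (hh : Computable h) : CR (fun a => ∑ j ∈ Finset.range (h a), f a j) := by
  obtain ⟨F, hF, hF'⟩ := hf
  let G : α × ℕ → QCode := fun p =>
    Nat.rec (motive := fun _ => QCode) (0, 0, 0)
      (fun j acc => qadd acc (F ((p.1, j), p.2 + h p.1))) (h p.1)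
  refine ⟨G, ?_, ?_⟩
  · refine Computable.nat_rec (f := fun p : α × ℕ => h p.1) (g := fun _ => ((0, 0, 0) : QCode))
      (h := fun p (q : ℕ × QCode) => qadd q.2 (F ((p.1, q.1), p.2 + h p.1)))
      (hh.comp Computable.fst) (Computable.const _) ?_
    apply Computable₂.mk
    refine cqadd (Computable.snd.comp Computable.snd) (hF.comp ?_)
    exact ((Computable.fst.comp Computable.fst).pair (Computable.fst.comp Computable.snd)).pair
      (cadd (Computable.snd.comp Computable.fst) (hh.comp (Computable.fst.comp Computable.fst)))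
  · intro a n
    have key : ∀ m, |∑ j ∈ Finset.range m, f a j - rat
        (Nat.rec (motive := fun _ => QCode) (0, 0, 0)
          (fun j acc => qadd acc (F ((a, j), n + h a))) m : QCode)| ≤ m * (1/2^(n + h a)) := by
      intro m
      induction m with
      | zero => simp [rat]
      | succ m ih =>
        rw [Finset.sum_range_succ]
        have h1 := hF' (a, m) (n + h a)
        simp only at h1
        simp only []
        rw [rat_qadd]
        refine le_trans (le_of_eq ?_) (le_trans (abs_add_le (∑ j ∈ Finset.range m, f a j - rat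
          (Nat.rec (motive := fun _ => QCode) (0, 0, 0)
            (fun j acc => qadd acc (F ((a, j), n + h a))) m : QCode))
            (f a m - rat (F ((a, m), n + h a)))) ?_)
        · congr 1; ring
        · push_cast; linarith
    refine (key (h a)).trans ?_
    rw [pow_add]
    have h2 : (h a : ℝ) ≤ 2^(h a) := by exact_mod_cast Nat.lt_two_pow_self.le
    rw [mul_one_div, div_le_div_iff₀ (by positivity) (by positivity)]
    have h3 : (0:ℝ) < 2^n := by positivity
    nlinarith

lemma nat_le_two_pow_real (k : ℕ) : (k:ℝ) ≤ 2^k := by exact_mod_cast Nat.lt_two_pow_self.le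

lemma CR.mul {f g : α → ℝ} (hf : CR f) (hg : CR g) : CR (fun a => f a * g a) := by
  obtain ⟨F, hF, hF'⟩ := hf
  obtain ⟨G, hG, hG'⟩ := hg
  let K : α → ℕ := fun a => (F (a,0)).1 + (F (a,0)).2.1 + ((G (a,0)).1 + (G (a,0)).2.1) + 3
  have c0 : Computable (fun a : α => (a, 0)) := Computable.id.pair (Computable.const 0)
  have hK : Computable K := by
    refine cadd (cadd (cadd ?_ ?_) (cadd ?_ ?_)) (Computable.const 3)
    · exact c_fst (hF.comp c0)
    · exact c_snd1 (hF.comp c0)
    · exact c_fst (hG.comp c0)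
    · exact c_snd1 (hG.comp c0)
  have hs : Computable (fun p : α × ℕ => (p.1, p.2 + K p.1)) :=
    Computable.fst.pair (cadd Computable.snd (hK.comp Computable.fst))
  refine ⟨fun p => qmul (F (p.1, p.2 + K p.1)) (G (p.1, p.2 + K p.1)),
    cqmul (hF.comp hs) (hG.comp hs), ?_⟩
  intro a n
  simp only []
  rw [rat_qmul]
  set x := rat (F (a, n + K a)) with hx
  set y := rat (G (a, n + K a)) with hy
  have h1 : |f a - x| ≤ 1/2^(n+K a) := hF' a (n + K a)
  have h2 : |g a - y| ≤ 1/2^(n+K a) := hG' a (n + K a)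
  have e1 : |f a| ≤ (F (a,0)).1 + (F (a,0)).2.1 + 1 := by
    have h3 := hF' a 0
    have h4 := abs_rat_le (F (a,0))
    have h5 : |f a| ≤ |f a - rat (F (a,0))| + |rat (F (a,0))| := by
      have := abs_add_le (f a - rat (F (a,0))) (rat (F (a,0)))
      simpa using this
    simp only [pow_zero] at h3
    linarith
  have e2 : |g a| ≤ (G (a,0)).1 + (G (a,0)).2.1 + 1 := by
    have h3 := hG' a 0
    have h4 := abs_rat_le (G (a,0))
    have h5 : |g a| ≤ |g a - rat (G (a,0))| + |rat (G (a,0))| := by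
      have := abs_add_le (g a - rat (G (a,0))) (rat (G (a,0)))
      simpa using this
    simp only [pow_zero] at h3
    linarith
  have e3 : (1:ℝ)/2^(n+K a) ≤ 1 := by
    rw [div_le_one (by positivity)]
    exact one_le_pow₀ (by norm_num)
  have e4 : |y| ≤ |g a| + 1 := by
    have : |y| ≤ |y - g a| + |g a| := by
      have := abs_add_le (y - g a) (g a)
      simpa using this
    rw [abs_sub_comm] at this
    linarith
  have e5 : |f a * g a - x * y| ≤ |f a| * |g a - y| + |y| * |f a - x| := by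
    rw [← abs_mul, ← abs_mul]
    refine le_trans (le_of_eq ?_) (abs_add_le _ _)
    congr 1; ring
  have e6 : |f a| + |y| ≤ K a := by
    have : ((K a : ℕ) : ℝ) = (F (a,0)).1 + (F (a,0)).2.1 + ((G (a,0)).1 + (G (a,0)).2.1) + 3 := by
      simp only [K]; push_cast; ring
    rw [this]; linarith
  have e7 : |f a * g a - x * y| ≤ K a * (1/2^(n+K a)) := by
    refine e5.trans ?_
    have f1 : |f a| * |g a - y| ≤ |f a| * (1/2^(n+K a)) :=
      mul_le_mul_of_nonneg_left h2 (abs_nonneg _)
    have f2 : |y| * |f a - x| ≤ |y| * (1/2^(n+K a)) :=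
      mul_le_mul_of_nonneg_left h1 (abs_nonneg _)
    have f3 : (0:ℝ) ≤ 1/2^(n+K a) := by positivity
    nlinarith
  refine e7.trans ?_
  rw [pow_add, mul_one_div, div_le_div_iff₀ (by positivity) (by positivity)]
  have h3 : (0:ℝ) < 2^n := by positivity
  have h4 := nat_le_two_pow_real (K a)
  nlinarith

lemma CR.const_mul {f : α → ℝ} (q : ℚ) (hf : CR f) : CR (fun a => (q:ℝ) * f a) :=
  (CR.const_rat q).mul hf

lemma CR.ite {f g : α → ℝ} {p : α → Prop} [DecidablePred p]
    (hp : Computable (fun a => decide (p a))) (hf : CR f) (hg : CR g) :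
    CR (fun a => if p a then f a else g a) := by
  obtain ⟨F, hF, hF'⟩ := hf
  obtain ⟨G, hG, hG'⟩ := hg
  refine ⟨fun q => bif decide (p q.1) then F q else G q,
    Computable.cond (hp.comp Computable.fst) hF hG, ?_⟩
  intro a n
  by_cases h : p a
  · simpa [h] using hF' a n
  · simpa [h] using hG' a n

end comp

/-! ### computing `W` -/

/-- tables of values -/
def tabL (N L : ℕ) : ℕ → List ℕ
  | 0 => List.range (L+1)
  | (k+1) => (List.range (L+1)).map
      (fun i => ∑ j ∈ Finset.range N, (tabL N L k).getD (2*i - j) 0)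

lemma tabL_spec (N L k i : ℕ) (h : i * 2^k ≤ L) : (tabL N L k).getD i 0 = tab N k i := by
  induction k generalizing i with
  | zero =>
    simp only [tabL, tab]
    simp only [pow_zero, mul_one] at h
    rw [List.getD_eq_getElem?_getD, List.getElem?_range (by omega)]
    rfl
  | succ k ih =>
    simp only [tabL, tab]
    have hi : i < L + 1 := by
      have h1 : 1 ≤ 2^(k+1) := Nat.one_le_two_pow
      nlinarith
    rw [List.getD_eq_getElem?_getD, List.getElem?_map, List.getElem?_range hi]
    simp only [Option.map_some, Option.getD_some]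
    apply Finset.sum_congr rfl
    intro j _
    apply ih
    refine le_trans (Nat.mul_le_mul_right _ (Nat.sub_le (2*i) j)) ?_
    rw [pow_succ] at h
    calc 2*i*2^k = i * (2^k*2) := by ring
      _ ≤ L := h

lemma tabL_primrec : Primrec (fun p : (ℕ × ℕ) × ℕ => tabL p.1.1 p.1.2 p.2) := by
  have h := Primrec.nat_rec' (f := fun p : (ℕ × ℕ) × ℕ => p.2)
    (g := fun p : (ℕ × ℕ) × ℕ => List.range (p.1.2+1))
    (h := fun p (q : ℕ × List ℕ) => (List.range (p.1.2+1)).map
      (fun i => ∑ j ∈ Finset.range p.1.1, q.2.getD (2*i - j) 0))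
    Primrec.snd
    (Primrec.list_range.comp (Primrec.succ.comp (Primrec.snd.comp Primrec.fst)))
    (by
      apply Primrec₂.mk
      refine Primrec.list_map (Primrec.list_range.comp
        (Primrec.succ.comp (Primrec.snd.comp (Primrec.fst.comp Primrec.fst)))) ?_
      apply Primrec₂.mk
      refine psum ?_ (Primrec.fst.comp (Primrec.fst.comp (Primrec.fst.comp Primrec.fst)))
      apply Primrec₂.mk
      refine (Primrec.list_getD 0).comp
        (Primrec.snd.comp (Primrec.snd.comp (Primrec.fst.comp Primrec.fst))) ?_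
      exact Primrec.nat_sub.comp (Primrec.nat_mul.comp (Primrec.const 2)
        (Primrec.snd.comp Primrec.fst)) Primrec.snd)
  refine h.of_eq ?_
  rintro ⟨⟨N, L⟩, k⟩
  simp only []
  induction k with
  | zero => rfl
  | succ k ih => simp only [tabL, ← ih]

lemma tab_computable : Computable (fun p : ℕ × ℕ × ℕ => tab p.1 p.2.1 p.2.2) := by
  have h : Primrec (fun p : ℕ × ℕ × ℕ => (tabL p.1 (p.2.2 * 2^p.2.1) p.2.1).getD p.2.2 0) := by
    refine (Primrec.list_getD 0).comp (tabL_primrec.comp (Primrec.pair (Primrec.pair Primrec.fst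
      ?_) (Primrec.fst.comp Primrec.snd))) (Primrec.snd.comp Primrec.snd)
    exact Primrec.nat_mul.comp (Primrec.snd.comp Primrec.snd)
      (ppow (Primrec.const 2) (Primrec.fst.comp Primrec.snd))
  refine (h.of_eq ?_).to_comp
  rintro ⟨N, k, i⟩
  exact tabL_spec N _ k i le_rfl

section comp2
variable {α : Type} [Primcodable α]

lemma W_rat (q : QCode) (m : ℕ) :
    W (rat q) = W ((((q.1 - q.2.1) * 2^m : ℕ) : ℝ) / (((q.2.2+1) * 2^m : ℕ) : ℝ)) := by
  unfold rat
  rcases le_total q.2.1 q.1 with h | h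
  · congr 1
    push_cast [Nat.cast_sub h]
    field_simp
  · rw [Nat.sub_eq_zero_of_le h]
    have h1 : ((q.1:ℝ) - q.2.1) / (q.2.2 + 1) ≤ 0 := by
      apply div_nonpos_of_nonpos_of_nonneg _ (rat_den_pos q).le
      have : (q.1:ℝ) ≤ q.2.1 := by exact_mod_cast h
      linarith
    rw [good_W.zero _ h1, good_W.zero _ (by simp)]

lemma CR.compW {f : α → ℝ} (hf : CR f) : CR (fun a => W (f a)) := by
  obtain ⟨F, hF, hF'⟩ := hf
  -- N = (c+1) 2^(n+2), k = n + 2, i = (a-b) 2^(n+2)
  let Q : α × ℕ → QCode := fun p => F (p.1, p.2 + 2)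
  have two : Computable (fun _ : α × ℕ => 2) := Computable.const 2
  have one : Computable (fun _ : α × ℕ => 1) := Computable.const 1
  have hQ : Computable Q := hF.comp (Computable.fst.pair (cadd Computable.snd two))
  let N : α × ℕ → ℕ := fun p => ((Q p).2.2 + 1) * 2^(p.2+2)
  have hN : Computable N := cmul (cadd (c_snd2 hQ) one) (cpow two (cadd Computable.snd two))
  let I : α × ℕ → ℕ := fun p => ((Q p).1 - (Q p).2.1) * 2^(p.2+2)
  have hI : Computable I := cmul (csub (c_fst hQ) (c_snd1 hQ)) (cpow two (cadd Computable.snd two))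
  refine ⟨fun p => (tab (N p) (p.2+2) (I p), 0, (2 * N p)^(p.2+2) * N p - 1), ?_, ?_⟩
  · refine Computable.pair (tab_computable.comp (hN.pair ((cadd Computable.snd two).pair hI)))
      (Computable.pair (Computable.const 0) ?_)
    exact csub (cmul (cpow (cmul two hN) (cadd Computable.snd two)) hN) one
  · intro a n
    have hNpos : 0 < N (a, n) := by simp only [N]; positivity
    have h1 : rat (tab (N (a,n)) (n+2) (I (a,n)), 0, (2 * N (a,n))^(n+2) * N (a,n) - 1)
        = (tab (N (a,n)) (n+2) (I (a,n)) : ℝ) / ((2*(N (a,n) : ℕ))^(n+2) * (N (a,n) : ℕ)) := by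
      have h2 : (((2 * N (a,n))^(n+2) * N (a,n) - 1 : ℕ) : ℝ) + 1
          = (2*(N (a,n) : ℕ))^(n+2) * (N (a,n) : ℕ) := by
        have h3 : (2 * N (a,n))^(n+2) * N (a,n) - 1 + 1 = (2 * N (a,n))^(n+2) * N (a,n) :=
          Nat.sub_add_cancel (Nat.mul_pos (pow_pos (by omega) _) hNpos)
        exact_mod_cast h3
      unfold rat
      simp only []
      rw [h2]
      simp
    simp only []
    rw [h1]
    have h4 := tab_approx (N (a,n)) hNpos (n+2) (I (a,n))
    have h5 : W (rat (Q (a,n))) = W (((I (a,n) : ℕ) : ℝ) / ((N (a,n) : ℕ) : ℝ)) :=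
      W_rat (Q (a,n)) (n+2)
    have h6 := hF' a (n+2)
    have h7 := W_abs_sub (f a) (rat (Q (a,n)))
    have h8 : |f a - rat (Q (a,n))| ≤ 1/2^(n+2) := h6
    rw [← h5] at h4
    have h9 : (1:ℝ)/(N (a,n) : ℕ) ≤ 1/2^(n+2) := by
      apply one_div_le_one_div_of_le (by positivity)
      have : 2^(n+2) ≤ N (a,n) := by
        simp only [N]
        exact Nat.le_mul_of_pos_left _ (by positivity)
      exact_mod_cast this
    have h10 : (1/2:ℝ)^(n+2) = 1/2^(n+2) := by rw [div_pow, one_pow]
    have h11 : (1:ℝ)/2^n = 4 * (1/2^(n+2)) := by rw [pow_add]; field_simp; norm_num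
    have h12 : (0:ℝ) ≤ 1/2^(n+2) := by positivity
    have h13 := abs_sub_le (W (f a)) (W (rat (Q (a,n))))
      ((tab (N (a,n)) (n+2) (I (a,n)) : ℝ) / ((2*(N (a,n) : ℕ))^(n+2) * (N (a,n) : ℕ)))
    rw [h10] at h4
    rw [h11]
    linarith

lemma tmc_computable : Computable (fun p : ℕ × ℕ => tmc p.1 p.2) := by
  apply Primrec.to_comp
  unfold tmc
  refine psum ?_ Primrec.fst
  apply Primrec₂.mk
  refine Primrec.nat_mod.comp (Primrec.nat_div.comp (Primrec.snd.comp Primrec.fst)
    (ppow (Primrec.const 2) Primrec.snd)) (Primrec.const 2)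

lemma CR.sign {h : α → ℕ} (hh : Computable h) : CR (fun a => (-1:ℝ)^(h a)) := by
  have h1 : Computable (fun a => decide (h a % 2 = 0)) := by
    have : Primrec (fun n : ℕ => decide (n % 2 = 0)) :=
      (PrimrecPred.decide (Primrec.eq.comp (Primrec.nat_mod.comp Primrec.id (Primrec.const 2)) (Primrec.const 0)))
    exact this.to_comp.comp hh
  refine (CR.ite h1 (CR.const_rat 1) (CR.const_rat (-1))).of_eq ?_
  intro a
  rcases Nat.even_or_odd (h a) with h2 | h2
  · rw [Even.neg_one_pow h2, if_pos (Nat.even_iff.mp h2)]; simp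
  · rw [Odd.neg_one_pow h2, if_neg]
    · simp
    · rw [Nat.odd_iff.mp h2]; norm_num

lemma CR.compWD {f : α → ℝ} (hf : CR f) {k : α → ℕ} (hk : Computable k) :
    CR (fun a => WD (k a) (f a)) := by
  have two : Computable (fun _ : α => 2) := Computable.const 2
  have c1 : CR (fun a => ((2^(k a*(k a-1)/2) : ℕ) : ℝ)) :=
    CR.nat (h := fun a => 2^(k a*(k a-1)/2))
      (cpow two (cdiv (cmul hk (csub hk (Computable.const 1))) two))
  have hk1 : Computable (fun p : α × ℕ => k p.1) := hk.comp Computable.fst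
  have c20 : Computable (fun p : α × ℕ => tmc (k p.1) p.2) :=
    Computable.comp (f := fun p : ℕ × ℕ => tmc p.1 p.2) (g := fun p : α × ℕ => (k p.1, p.2))
      tmc_computable (hk1.pair Computable.snd)
  have c21 : CR (fun p : α × ℕ => (-1:ℝ)^(tmc (k p.1) p.2)) := CR.sign c20
  have c22 : CR (fun p : α × ℕ => ((2^(k p.1) : ℕ) : ℝ)) :=
    CR.nat (h := fun p : α × ℕ => 2^(k p.1)) (cpow (Computable.const 2) hk1)
  have c23 : CR (fun p : α × ℕ => f p.1) := hf.comp Computable.fst
  have c24 : CR (fun p : α × ℕ => ((p.2 : ℕ) : ℝ)) :=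
    CR.nat (h := fun p : α × ℕ => p.2) Computable.snd
  have c25 : CR (fun p : α × ℕ => W (((2^(k p.1) : ℕ) : ℝ) * f p.1 - p.2)) :=
    CR.compW ((c22.mul c23).sub c24)
  have c2 : CR (fun p : α × ℕ => (-1:ℝ)^(tmc (k p.1) p.2) *
      W (((2^(k p.1) : ℕ) : ℝ) * f p.1 - p.2)) := c21.mul c25
  have c3 := CR.sum (f := fun a m => (-1:ℝ)^(tmc (k a) m) * W (((2^(k a) : ℕ) : ℝ) * f a - m))
    c2 (cpow two hk)
  refine (c1.mul c3).of_eq ?_
  intro a
  rw [WD_formula]
  push_cast
  rfl

end comp2

end Vale.Agent.P113
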