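import Vale.Agent.P113.Old

/-!
Calculus with coordinate derivatives of periodic functions.
-/

open Set MeasureTheory

namespace Vale.Agent.P113

lemma hasDerivAt_line {g : Pt → ℝ} {x : Pt} (hg : DifferentiableAt ℝ g x) (i : Fin 3) :
    HasDerivAt (fun s => g (Function.update x i s)) (fderiv ℝ g x (Pi.single i 1)) (x i) := by
  have h1 : HasDerivAt (fun s : ℝ => Function.update x i s) (Pi.single i (1:ℝ)) (x i) :=
    hasDerivAt_update x i (x i)
  have h2 : HasFDerivAt g (fderiv ℝ g x) (Function.update x i (x i)) := by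
    rw [Function.update_eq_self]; exact hg.hasFDerivAt
  exact h2.comp_hasDerivAt (x i) h1

lemma dx_eq_fderiv {g : Pt → ℝ} {x : Pt} (hg : DifferentiableAt ℝ g x) (i : Fin 3) :
    dx i g x = fderiv ℝ g x (Pi.single i 1) := (hasDerivAt_line hg i).deriv

lemma hasDerivAt_dx {g : Pt → ℝ} {x : Pt} (hg : DifferentiableAt ℝ g x) (i : Fin 3) :
    HasDerivAt (fun s => g (Function.update x i s)) (dx i g x) (x i) := by
  rw [dx_eq_fderiv hg]; exact hasDerivAt_line hg i

lemma dx_add {f g : Pt → ℝ} {x : Pt} (hf : DifferentiableAt ℝ f x) (hg : DifferentiableAt ℝ g x)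
    (i : Fin 3) : dx i (fun y => f y + g y) x = dx i f x + dx i g x :=
  ((hasDerivAt_dx hf i).add (hasDerivAt_dx hg i)).deriv

lemma dx_sub {f g : Pt → ℝ} {x : Pt} (hf : DifferentiableAt ℝ f x) (hg : DifferentiableAt ℝ g x)
    (i : Fin 3) : dx i (fun y => f y - g y) x = dx i f x - dx i g x :=
  ((hasDerivAt_dx hf i).sub (hasDerivAt_dx hg i)).deriv

lemma dx_mul {f g : Pt → ℝ} {x : Pt} (hf : DifferentiableAt ℝ f x) (hg : DifferentiableAt ℝ g x)
    (i : Fin 3) : dx i (fun y => f y * g y) x = dx i f x * g x + f x * dx i g x := by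
  have h := ((hasDerivAt_dx hf i).mul (hasDerivAt_dx hg i)).deriv
  simp only [Function.update_eq_self] at h
  exact h

lemma dx_const_mul {g : Pt → ℝ} {x : Pt} (c : ℝ) (hg : DifferentiableAt ℝ g x)
    (i : Fin 3) : dx i (fun y => c * g y) x = c * dx i g x :=
  ((hasDerivAt_dx hg i).const_mul c).deriv

lemma dx_sum {ι : Type} {s : Finset ι} {g : ι → Pt → ℝ} {x : Pt}
    (hg : ∀ a ∈ s, DifferentiableAt ℝ (g a) x) (i : Fin 3) :
    dx i (fun y => ∑ a ∈ s, g a y) x = ∑ a ∈ s, dx i (g a) x :=
  (HasDerivAt.fun_sum (fun a ha => hasDerivAt_dx (hg a ha) i)).deriv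

lemma contDiff_dx {g : Pt → ℝ} {n : WithTop ℕ∞} (hg : ContDiff ℝ (n+1) g) (i : Fin 3) :
    ContDiff ℝ n (dx i g) := by
  have h1 : dx i g = fun x => fderiv ℝ g x (Pi.single i 1) := by
    funext x
    exact dx_eq_fderiv ((hg.differentiable (by simp)) x) i
  rw [h1]
  exact (hg.fderiv_right le_rfl).clm_apply contDiff_const

lemma periodic_dx {g : Pt → ℝ} (hp : Per3 g) (i : Fin 3) : Per3 (dx i g) := by
  intro x j
  unfold dx
  have h : (fun s => g (Function.update (x + Pi.single j 1) i s)) =
      fun s => g (Function.update x i (s - (Pi.single j (1:ℝ) : Pt) i)) := by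
    funext s
    have h2 : Function.update (x + Pi.single j 1) i s =
      (Function.update x i (s - (Pi.single j (1:ℝ) : Pt) i)) + Pi.single j 1 := by
      funext k
      by_cases hk : k = i
      · subst hk; simp
      · simp [Function.update_of_ne hk]
    rw [h2, hp]
  rw [h]
  have h3 := deriv_comp_sub_const (f := fun s => g (Function.update x i s))
    (a := (Pi.single j (1:ℝ) : Pt) i) ((x + Pi.single j 1 : Pt) i)
  rw [h3]
  simp

lemma periodic_diff {g : Pt → ℝ} (hp : Per3 g) (i : Fin 3) (c : ℝ) (y : Fin 2 → ℝ) :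
    g (i.insertNth (c+1) y) = g (i.insertNth c y) := by
  rw [← hp (i.insertNth c y) i]
  congr 1
  funext k
  by_cases hk : k = i
  · subst hk; simp
  · obtain ⟨l, rfl⟩ := Fin.exists_succAbove_eq hk
    simp

/-- the integral of a divergence over the unit cube vanishes -/
lemma integral_div (F : Fin 3 → Pt → ℝ) (hF : ∀ i, ContDiff ℝ 1 (F i))
    (hp : ∀ i, Per3 (F i)) :
    ∫ x in Icc (0:Pt) 1, ∑ i, dx i (F i) x = 0 := by
  have h1 : ∀ x, ∑ i, dx i (F i) x = ∑ i, fderiv ℝ (F i) x (Pi.single i 1) := by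
    intro x
    apply Finset.sum_congr rfl
    intro i _
    exact dx_eq_fderiv ((hF i).differentiable (by simp) x) i
  simp only [h1]
  have h2 := integral_divergence_of_hasFDerivAt_off_countable' (n := 2) (0 : Pt) (1 : Pt)
    zero_le_one F (fun i x => fderiv ℝ (F i) x) ∅ Set.countable_empty
    (fun i => (hF i).continuous.continuousOn)
    (fun x _ i => ((hF i).differentiable (by simp) x).hasFDerivAt)
    (by
      apply ContinuousOn.integrableOn_compact isCompact_Icc
      apply Continuous.continuousOn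
      apply continuous_finsetSum
      intro i _
      exact ((hF i).continuous_fderiv (by simp)).clm_apply continuous_const)
  rw [h2]
  apply Finset.sum_eq_zero
  intro i _
  rw [sub_eq_zero]
  congr 1
  funext y
  have := periodic_diff (hp i) i 0 y
  simpa using this

lemma continuous_dx {g : Pt → ℝ} (hg : ContDiff ℝ 1 g) (i : Fin 3) : Continuous (dx i g) :=
  (contDiff_dx (n := 0) (by simpa using hg) i).continuous

/-- shift a point by integers to the unit cube -/
lemma periodic_int {β : Type} {g : Pt → β} (hp : Per3 g) (x : Pt) (i : Fin 3) (n : ℤ) :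
    g (x + Pi.single i (n:ℝ)) = g x := by
  have hnat : ∀ (n : ℕ) (x : Pt), g (x + Pi.single i (n:ℝ)) = g x := by
    intro n
    induction n with
    | zero => intro x; simp
    | succ n ih =>
      intro x
      have : x + Pi.single i ((n+1:ℕ):ℝ) = (x + Pi.single i (n:ℝ)) + Pi.single i 1 := by
        rw [add_assoc, ← Pi.single_add]; push_cast; rfl
      rw [this, hp, ih]
  rcases Int.le_total 0 n with h | h
  · obtain ⟨m, rfl⟩ := Int.eq_ofNat_of_zero_le h
    exact_mod_cast hnat m x
  · obtain ⟨m, hm⟩ := Int.eq_ofNat_of_zero_le (Int.neg_nonneg.mpr h)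
    have hn : n = -(m:ℤ) := by omega
    subst hn
    have := hnat m (x + Pi.single i (((-(m:ℤ) : ℤ)):ℝ))
    rw [← this, add_assoc, ← Pi.single_add]
    simp

lemma periodic_fract {β : Type} {g : Pt → β} (hp : Per3 g) (x : Pt) :
    g (fun i => Int.fract (x i)) = g x := by
  have h : x = (((fun i => Int.fract (x i)) + Pi.single 0 ((⌊x 0⌋:ℤ):ℝ)) +
      Pi.single 1 ((⌊x 1⌋:ℤ):ℝ)) + Pi.single 2 ((⌊x 2⌋:ℤ):ℝ) := by
    funext k
    fin_cases k <;> simp [Int.fract_add_floor]
  conv_rhs => rw [h]
  rw [periodic_int hp, periodic_int hp, periodic_int hp]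

end Vale.Agent.P113
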