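import Vale.Agent.P113.Univ

/-!
The input words of the universal machine are computable.
-/

open Turing PartrecToTM2

namespace Vale.Agent.P113

def bl : ℕ → List Bool
  | 0 => []
  | (n+1) => (decide ((n+1) % 2 = 1)) :: bl ((n+1)/2)
decreasing_by omega

lemma bl_succ (n : ℕ) : bl (n+1) = (decide ((n+1) % 2 = 1)) :: bl ((n+1)/2) := by
  rw [bl]

lemma trNum_bit1 (m : Num) : trNum (Num.bit1 m) = Γ'.bit1 :: trNum m := by
  cases m <;> rfl

lemma trNum_bit0 (m : Num) (hm : m ≠ 0) : trNum (Num.bit0 m) = Γ'.bit0 :: trNum m := by
  cases m
  · exact absurd rfl hm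
  · rfl

lemma trNat_eq (n : ℕ) : trNat n = (bl n).map (fun b => cond b Γ'.bit1 Γ'.bit0) := by
  induction n using Nat.strong_induction_on with
  | _ n ih =>
    rcases n with _ | n
    · rw [trNat_zero, bl]; rfl
    · rw [bl_succ, List.map_cons, ← ih ((n+1)/2) (by omega)]
      unfold trNat
      rcases Nat.mod_two_eq_zero_or_one (n+1) with h | h
      · have h1 : n + 1 = Nat.bit false ((n+1)/2) := by rw [Nat.bit_false_apply]; omega
        conv_lhs => rw [h1, ← Num.ofNat'_eq, Num.ofNat'_bit]
        simp only [cond_false, h, zero_ne_one, decide_false]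
        rw [trNum_bit0, Num.ofNat'_eq]
        rw [Num.ofNat'_eq]
        intro h2
        have h3 : (((n+1)/2 : ℕ) : Num) = ((0 : ℕ) : Num) := by rw [h2]; rfl
        have h4 := Num.of_nat_inj.mp h3
        omega
      · have h1 : n + 1 = Nat.bit true ((n+1)/2) := by rw [Nat.bit_true_apply]; omega
        conv_lhs => rw [h1, ← Num.ofNat'_eq, Num.ofNat'_bit]
        simp only [cond_true, h, decide_true]
        rw [trNum_bit1, Num.ofNat'_eq]

lemma bl_primrec : Primrec bl := by
  have h : Primrec₂ (fun (_ : Unit) (n : ℕ) => bl n) := by
    refine Primrec.nat_strong_rec (fun _ n => bl n)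
      (g := fun _ l => some (if l.length = 0 then [] else
        (decide (l.length % 2 = 1)) :: (l.getD (l.length / 2) []))) ?_ ?_
    · apply Primrec₂.mk
      refine Primrec.option_some.comp ?_
      have hl : Primrec (fun p : Unit × List (List Bool) => p.2.length) :=
        Primrec.list_length.comp Primrec.snd
      refine Primrec.ite (Primrec.eq.comp hl (Primrec.const 0)) (Primrec.const []) ?_
      refine Primrec.list_cons.comp ?_ ?_
      · exact PrimrecPred.decide (Primrec.eq.comp (Primrec.nat_mod.comp hl (Primrec.const 2))
          (Primrec.const 1))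
      · exact (Primrec.list_getD []).comp Primrec.snd (Primrec.nat_div.comp hl (Primrec.const 2))
    · intro _ n
      congr 1
      rcases n with _ | n
      · simp [bl]
      · rw [bl_succ]
        simp only [List.length_map, List.length_range]
        rw [if_neg (by omega)]
        congr 1
        rw [List.getD_eq_getElem?_getD, List.getElem?_map, List.getElem?_range (by omega)]
        rfl
  exact h.comp (Primrec.const ()) Primrec.id

def uc (b : Bool) (a : Γ') : UΓ := (b, Function.update (fun _ => none) K'.main (some a))

lemma trInit_eq (L : List Γ') (a : Γ') (r : List Γ') (h : L.reverse = a :: r) :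
    TM2to1.trInit (Γ := fun _ => Γ') K'.main L = uc true a :: r.map (uc false) := by
  unfold TM2to1.trInit
  rw [h]
  rfl

lemma uinput_eq (n : ℕ) : uinput n =
    uc true Γ'.cons :: (bl n).reverse.map (fun b => cond b (uc false Γ'.bit1) (uc false Γ'.bit0)) := by
  unfold uinput
  have h1 : (trList [n]).reverse = Γ'.cons :: (trNat n).reverse := by simp [trList]
  rw [trInit_eq _ _ _ h1, trNat_eq]
  congr 1
  rw [← List.map_reverse, List.map_map]
  apply List.map_congr_left
  intro b _
  cases b <;> rfl

lemma uinput_computable (D : UΓ → ℕ) : Computable (fun n => (uinput n).map D) := by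
  have h : Primrec (fun n : ℕ => (D (uc true Γ'.cons)) ::
      (bl n).reverse.map (fun b => cond b (D (uc false Γ'.bit1)) (D (uc false Γ'.bit0)))) := by
    refine Primrec.list_cons.comp (Primrec.const _) ?_
    refine Primrec.list_map (Primrec.list_reverse.comp bl_primrec) ?_
    apply Primrec₂.mk
    exact Primrec.cond Primrec.snd (Primrec.const _) (Primrec.const _)
  refine (h.of_eq ?_).to_comp
  intro n
  rw [uinput_eq, List.map_cons, List.map_map]
  congr 1
  apply List.map_congr_left
  intro b _
  cases b <;> rfl

end Vale.Agent.P113
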