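import Vale.Agent.P113.Traj
import Vale.Agent.P113.Input

/-!
The force is computable, uniformly in the initial displacement.
-/

namespace Vale.Agent.P113

lemma exists_compiler {A Bq R : Type} [Primcodable A] [Primcodable Bq] [Primcodable R]
    {h : A × Bq → R} (hh : Computable h) :
    ∃ F : A → Nat.Partrec.Code, Computable F ∧
      ∀ a b, Encodable.encode (h (a, b)) ∈ (F a).eval (Encodable.encode b) := by
  have h1 : Nat.Partrec (fun n => Part.bind (Part.ofOption (Encodable.decode (α := A × Bq) n))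
    fun a => (Part.some (h a)).map Encodable.encode) := hh
  obtain ⟨C, hC⟩ := Nat.Partrec.Code.exists_code.mp h1
  refine ⟨fun a => C.curry (Encodable.encode a), ?_, ?_⟩
  · exact (Nat.Partrec.Code.primrec₂_curry.to_comp).comp (Computable.const C) Computable.encode
  · intro a b
    rw [Nat.Partrec.Code.eval_curry, hC]
    have h2 : Nat.pair (Encodable.encode a) (Encodable.encode b) = Encodable.encode (a, b) := rfl
    simp only [h2, Encodable.encodek]
    rw [show Part.ofOption (some (a, b)) = Part.some (a, b) from rfl]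
    rw [Part.bind_some, Part.map_some]
    exact Part.mem_some _

lemma force_mixed {S : Fin 9 → Sh} (hS : ∀ j, (S j).Good) (ν : ℝ) (c : Pt) (i : Fin 3)
    (α : List (Fin 4)) : mixed α (fun s y => force ν S c s y i) = fun t x =>
      sval (U S c i) (cnt α + Pi.single 0 1) t x -
        ν * ((sval (U S c i) (cnt α + Pi.single 1 2) t x +
          sval (U S c i) (cnt α + Pi.single 2 2) t x) +
          sval (U S c i) (cnt α + Pi.single 3 2) t x) := by
  have h0 := sval_MT (U_good hS c i)
  have h1 : MT (fun n t x => sval (U S c i) (n + Pi.single 0 1) t x -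
        ν * ((sval (U S c i) (n + Pi.single 1 2) t x +
          sval (U S c i) (n + Pi.single 2 2) t x) +
          sval (U S c i) (n + Pi.single 3 2) t x)) :=
    (h0.shift _).sub ((((h0.shift _).add (h0.shift _)).add (h0.shift _)).const_mul ν)
  rw [← h1.mixed α]
  congr 1
  funext t x
  unfold force
  rw [Fin.sum_univ_three]
  simp only [zero_add]
  rfl

section
variable {A : Type} [Primcodable A]

lemma sval_cr {L : List Tm} (hL : ∀ τ ∈ L, τ.Comp ∧ τ.c = 1) (m : Fin 4 → ℕ) {q : A → Qry}
    (hq : Computable q) :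
    CR (fun a => sval L (cnt (q a).1 + m) (rat (q a).2.1) (qpt (q a))) := by
  induction L with
  | nil => exact (CR.const_rat 0).of_eq (fun a => by simp [sval])
  | cons τ L ih =>
    obtain ⟨h1, h2⟩ := hL τ (by simp)
    have h3 := h1.val (CR.const_rat (α := A) 1) m hq
    refine (h3.add (ih fun τ hτ => hL τ (by simp [hτ]))).of_eq ?_
    intro a
    rw [sval_cons]
    congr 1
    unfold Tm.val
    simp only [h2, Rat.cast_one]

lemma U_cr {S : Fin 9 → Sh} (hS : ∀ j, (S j).Good) {c : A → Pt} (i : Fin 3)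
    (hc : CR (fun a => c a i)) (m : Fin 4 → ℕ) {q : A → Qry} (hq : Computable q) :
    CR (fun a => sval (U S (c a) i) (cnt (q a).1 + m) (rat (q a).2.1) (qpt (q a))) := by
  have hL : ∀ τ ∈ UL S i, τ.Comp ∧ τ.c = 1 := by
    intro τ hτ
    refine ⟨UL_comp hS i τ hτ, ?_⟩
    unfold UL at hτ
    rw [List.mem_flatMap] at hτ
    obtain ⟨j, -, hj⟩ := hτ
    split at hj
    · rw [List.mem_map] at hj
      obtain ⟨f, hf, rfl⟩ := hj
      rfl
    · simp at hj
  refine (((tc_comp 0).val hc m hq).add (sval_cr hL m hq)).of_eq ?_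
  intro a
  unfold U
  rw [sval_cons]
  rfl

lemma force_cr {S : Fin 9 → Sh} (hS : ∀ j, (S j).Good) {c : A → Pt} (i : Fin 3)
    (hc : CR (fun a => c a i)) {ν : ℝ} (hν : CR (fun _ : A => ν)) {q : A → Qry}
    (hq : Computable q) :
    CR (fun a => mixed (q a).1 (fun s y => force ν S (c a) s y i) (rat (q a).2.1) (qpt (q a))) := by
  have h := (U_cr hS i hc (Pi.single 0 1) hq).sub (hν.mul (((U_cr hS i hc (Pi.single 1 2) hq).add
    (U_cr hS i hc (Pi.single 2 2) hq)).add (U_cr hS i hc (Pi.single 3 2) hq)))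
  refine h.of_eq ?_
  intro a
  rw [force_mixed hS]

/-- code of the value of a digit string -/
def dvc (B : ℕ) (s : List ℕ) : QCode :=
  s.foldr (fun d q => (d * (q.2.2 + 1) + q.1, 0, B * (q.2.2 + 1) - 1)) (0, 0, 0)

lemma rat_dvc {B : ℕ} (hB : 2 ≤ B) (s : List ℕ) : rat (dvc B s) = dv B s := by
  have hB0 : (0:ℝ) < B := by positivity
  have key : (dvc B s).2.1 = 0 ∧ rat (dvc B s) = dv B s := by
    induction s with
    | nil => simp [dvc, dv, rat]
    | cons d s ih =>
      obtain ⟨h1, h2⟩ := ih
      refine ⟨rfl, ?_⟩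
      have h3 : dvc B (d :: s) = (d * ((dvc B s).2.2 + 1) + (dvc B s).1, 0,
        B * ((dvc B s).2.2 + 1) - 1) := rfl
      rw [h3]
      simp only [dv]
      push_cast
      rw [← h2]
      simp only [rat, h1]
      have h4 : ((B * ((dvc B s).2.2 + 1) - 1 : ℕ) : ℝ) + 1 = B * ((dvc B s).2.2 + 1) := by
        have : B * ((dvc B s).2.2 + 1) - 1 + 1 = B * ((dvc B s).2.2 + 1) :=
          Nat.sub_add_cancel (Nat.mul_pos (by omega) (by omega))
        exact_mod_cast this
      rw [h4]
      have h5 : (0:ℝ) < ((dvc B s).2.2 : ℝ) + 1 := by positivity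
      push_cast
      field_simp
      ring
  exact key.2

lemma dvc_computable (B : ℕ) : Computable (dvc B) := by
  apply Primrec.to_comp
  unfold dvc
  refine Primrec.list_foldr (f := fun s : List ℕ => s) (g := fun _ => ((0, 0, 0) : QCode))
    (h := fun _ (p : ℕ × QCode) => ((p.1 * (p.2.2.2 + 1) + p.2.1, 0, B * (p.2.2.2 + 1) - 1) : QCode))
    Primrec.id (Primrec.const _) ?_
  apply Primrec₂.mk
  have h1 : Primrec (fun y : List ℕ × (ℕ × QCode) => y.2.1) := Primrec.fst.comp Primrec.snd
  have h2 : Primrec (fun y : List ℕ × (ℕ × QCode) => y.2.2.1) :=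
    Primrec.fst.comp (Primrec.snd.comp Primrec.snd)
  have h3 : Primrec (fun y : List ℕ × (ℕ × QCode) => y.2.2.2.2 + 1) :=
    Primrec.succ.comp (Primrec.snd.comp (Primrec.snd.comp (Primrec.snd.comp Primrec.snd)))
  exact Primrec.pair (Primrec.nat_add.comp (Primrec.nat_mul.comp h1 h3) h2)
    (Primrec.pair (Primrec.const 0) (Primrec.nat_sub.comp
      (Primrec.nat_mul.comp (Primrec.const B) h3) (Primrec.const 1)))

lemma pt_cr {B : ℕ} (hB : 2 ≤ B) {L : A → List ℕ} (hL : Computable L) :
    CR (fun a => ((pt B (L a) : ℚ) : ℝ)) := by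
  have h1 : CR (fun a => rat (dvc B (L a))) := CR.ofQ ((dvc_computable B).comp hL)
  refine ((CR.const_rat (1/4)).add (h1.const_mul (1/4))).of_eq ?_
  intro a
  rw [rat_dvc hB]
  unfold pt
  push_cast
  ring

end

lemma rat_pos_bound {ε : QCode} (h : 0 < rat ε) : (1:ℝ)/2^ε.2.2 ≤ rat ε := by
  obtain ⟨a, b, c⟩ := ε
  simp only [rat] at h ⊢
  have hc : (0:ℝ) < (c:ℝ) + 1 := by positivity
  have h1 : (0:ℝ) < (a:ℝ) - b := by
    by_contra hn
    push Not at hn
    exact absurd h (not_lt.mpr (div_nonpos_of_nonpos_of_nonneg hn hc.le))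
  have h2 : b < a := by
    have : (b:ℝ) < a := by linarith
    exact_mod_cast this
  have h3 : (b:ℝ) + 1 ≤ a := by exact_mod_cast h2
  have h4 : (c:ℝ) + 1 ≤ 2^c := by exact_mod_cast Nat.lt_two_pow_self
  calc (1:ℝ)/2^c ≤ 1/((c:ℝ)+1) := one_div_le_one_div_of_le hc h4
    _ ≤ ((a:ℝ) - b)/(c+1) := div_le_div_of_nonneg_right (by linarith) hc.le

/-- the type of requests of the statement -/
abbrev Req := Fin 3 × List (Fin 4) × QCode × QCode × QCode × QCode × QCode

def reqQ (r : Req) : Qry := (r.2.1, r.2.2.1, r.2.2.2.1, r.2.2.2.2.1, r.2.2.2.2.2.1)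

lemma req_snd5 : Computable (fun r : Req => r.2.2.2.2) :=
  Computable.snd.comp (Computable.snd.comp (Computable.snd.comp Computable.snd))

lemma reqQ_computable : Computable reqQ := by
  have h1 : Computable (fun r : Req => r.2.1) := Computable.fst.comp Computable.snd
  have h2 : Computable (fun r : Req => r.2.2.1) :=
    Computable.fst.comp (Computable.snd.comp Computable.snd)
  have h3 : Computable (fun r : Req => r.2.2.2.1) :=
    Computable.fst.comp (Computable.snd.comp (Computable.snd.comp Computable.snd))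
  exact h1.pair (h2.pair (h3.pair ((Computable.fst.comp req_snd5).pair
      (Computable.fst.comp (Computable.snd.comp req_snd5)))))

theorem compiler {A : Type} [Primcodable A] {S : Fin 9 → Sh} (hS : ∀ j, (S j).Good) {c : A → Pt}
    (hc : ∀ i, CR (fun a => c a i)) {ν : ℝ} (hν : IsComputableReal ν) :
    ∃ F : A → Nat.Partrec.Code, Computable F ∧ ∀ a,
      Computes (F a) (fun i t x => force ν S (c a) t x i) := by
  let V : A × Req → Fin 3 → ℝ := fun p i =>
    mixed (reqQ p.2).1 (fun s y => force ν S (c p.1) s y i) (rat (reqQ p.2).2.1) (qpt (reqQ p.2))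
  have hν' : CR (fun _ : A × Req => ν) := by
    obtain ⟨g, hg, hg'⟩ := hν
    refine ⟨fun p => g (2 ^ p.2), hg.comp (cpow (Computable.const 2) Computable.snd), fun _ n => ?_⟩
    refine (hg' (2 ^ n)).trans ?_
    simp only [rat]
    push_cast
    have h2 : (0:ℝ) < 2 ^ n := by positivity
    rw [sub_zero]
    exact one_div_le_one_div_of_le h2 (by linarith)
  have hV : ∀ i, CR (fun p => V p i) := fun i =>
    force_cr hS (c := fun p : A × Req => c p.1) i ((hc i).comp Computable.fst) hν'
      (q := fun p : A × Req => reqQ p.2) (reqQ_computable.comp Computable.snd)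
  have hi : Computable (fun p : A × Req => p.2.1) := Computable.fst.comp Computable.snd
  have hd : ∀ k : Fin 3, Computable (fun p : A × Req => decide (p.2.1 = k)) := fun k => by
    have h1 : Primrec (fun i : Fin 3 => decide (i = k)) :=
      PrimrecPred.decide (Primrec.eq.comp Primrec.id (Primrec.const k))
    exact h1.to_comp.comp hi
  have hW : CR (fun p : A × Req => V p p.2.1) := by
    refine (CR.ite (hd 0) (hV 0) (CR.ite (hd 1) (hV 1) (hV 2))).of_eq ?_
    intro p
    by_cases h0 : p.2.1 = 0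
    · rw [if_pos h0, h0]
    · by_cases h1 : p.2.1 = 1
      · rw [if_neg h0, if_pos h1, h1]
      · have h2 : p.2.1 = 2 := by
          have := p.2.1.isLt
          apply Fin.ext
          have h0' : (p.2.1 : ℕ) ≠ 0 := fun h => h0 (Fin.ext h)
          have h1' : (p.2.1 : ℕ) ≠ 1 := fun h => h1 (Fin.ext h)
          show (p.2.1 : ℕ) = 2
          omega
        rw [if_neg h0, if_neg h1, h2]
  obtain ⟨g, hg, hg'⟩ := hW
  have hh : Computable (fun p : A × Req => g (p, p.2.2.2.2.2.2.2.2.2)) := by
    refine hg.comp (Computable.id.pair ?_)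
    have h4 : Computable (fun r : Req => r.2.2.2.2.2.2.2.2) :=
      Computable.snd.comp (Computable.snd.comp (Computable.snd.comp (Computable.snd.comp req_snd5)))
    exact h4.comp Computable.snd
  obtain ⟨F, hF, hF'⟩ := exists_compiler hh
  refine ⟨F, hF, ?_⟩
  intro a i α t x y z ε _ hε
  refine ⟨g ((a, (i, α, t, x, y, z, ε)), ε.2.2), hF' a (i, α, t, x, y, z, ε), ?_⟩
  have h1 := hg' (a, (i, α, t, x, y, z, ε)) ε.2.2
  exact h1.trans (rat_pos_bound hε)

end Vale.Agent.P113
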