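import Vale.Agent.P113.Gadget

/-!
One cycle of nine shears performs one step of the reversible machine.
-/

open Turing

namespace Vale.Agent.P113

variable {m : Mach}

def sx (c : RCfg m.Q m.Γ) : List ℕ := m.dC c.1 :: c.2.1.map m.dS
def sy (c : RCfg m.Q m.Γ) : List ℕ := c.2.2.map m.dS
def r0 (c : RCfg m.Q m.Γ) : m.Rr := (c.1, c.2.1.headD bk, c.2.2.headD bk)
/-- intermediate left stack -/
def s1 (c : RCfg m.Q m.Γ) : List ℕ := m.dR (r0 c) :: c.2.1.tail.map m.dS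

lemma valid_sx (c : RCfg m.Q m.Γ) : Valid m.B (sx c) := m.valid_cons _
lemma valid_sy (c : RCfg m.Q m.Γ) : Valid m.B (sy c) := m.valid_dS _
lemma valid_s1 (c : RCfg m.Q m.Γ) : Valid m.B (s1 c) := by
  intro d hd
  rcases List.mem_cons.mp hd with rfl | h
  · exact m.bR _
  · exact m.valid_dS _ d h

lemma top_wx_r0 (c : RCfg m.Q m.Γ) : Top 0 (m.wx (r0 c)) (sx c) := by
  refine ⟨rfl, ?_, trivial⟩
  exact map_headD _

lemma top_wy_r0 (c : RCfg m.Q m.Γ) : Top 0 (m.wy (r0 c)) (sy c) := ⟨map_headD _, trivial⟩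

lemma top_wx (r : m.Rr) (c : RCfg m.Q m.Γ) (h : Top 0 (m.wx r) (sx c)) :
    r.1 = c.1 ∧ r.2.1 = c.2.1.headD bk := by
  obtain ⟨h1, h2, -⟩ := h
  refine ⟨(m.hC h1).symm, ?_⟩
  have h3 : (c.2.1.map m.dS).headD 0 = m.dS r.2.1 := h2
  rw [map_headD] at h3
  exact (m.hS h3).symm

lemma top_wy (r : m.Rr) (c : RCfg m.Q m.Γ) (h : Top 0 (m.wy r) (sy c)) :
    r.2.2 = c.2.2.headD bk := by
  obtain ⟨h1, -⟩ := h
  have h3 : (c.2.2.map m.dS).headD 0 = m.dS r.2.2 := h1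
  rw [map_headD] at h3
  exact (m.hS h3).symm

lemma top_wr_r0 (c : RCfg m.Q m.Γ) : Top 0 (m.wr (r0 c)) (s1 c) := ⟨rfl, trivial⟩

lemma top_wr (r : m.Rr) (c : RCfg m.Q m.Γ) (h : Top 0 (m.wr r) (s1 c)) : r = r0 c := by
  obtain ⟨h1, -⟩ := h
  exact (m.hR h1).symm

lemma s1_eq (c : RCfg m.Q m.Γ) : m.wr (r0 c) ++ (sx c).drop (m.wx (r0 c)).length = s1 c := by
  show m.dR (r0 c) :: (m.dC c.1 :: c.2.1.map m.dS).drop 2 = m.dR (r0 c) :: c.2.1.tail.map m.dS
  congr 1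
  rw [← map_tail', List.drop_succ_cons, List.drop_one]

lemma nx_r0 (c : RCfg m.Q m.Γ) : rstep m.δ c = (m.nx (r0 c)).map
    (fun r => (r.1, r.2.1 ++ c.2.1.tail, r.2.2 ++ c.2.2.tail)) := rfl

lemma ev_nil (x : ℝ) : ev [] 0 x = 0 := rfl

lemma cyl_one {u s : List ℕ} (hs : Valid m.B s) (h : Top 0 u s) :
    ev (cyl m.B u 0 1) 0 (pt m.B s) = 1 := by
  rw [cyl_mid m.hB hs h]; push_cast; ring

lemma val0_halt (c : RCfg m.Q m.Γ) (h : rstep m.δ c = none) (z : ℝ) :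
    (zsh m.P0).val (pnt m (sx c) (sy c) z) = 1/2 := by
  rw [zsh_pnt _ (valid_sx c) (valid_sy c)]
  have hn : m.nx (r0 c) = none := by
    rw [nx_r0] at h
    simpa using h
  rw [Finset.sum_eq_single (r0 c)]
  · unfold Mach.P0
    rw [hn]
    simp only []
    rw [cyl_mid m.hB (valid_sx c) (top_wx_r0 c), cyl_one (valid_sy c) (top_wy_r0 c)]
    push_cast; ring
  · intro r _ hr
    by_cases h1 : Top 0 (m.wx r) (sx c)
    · have h2 : ¬ Top 0 (m.wy r) (sy c) := by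
        intro h2
        apply hr
        obtain ⟨e1, e2⟩ := top_wx r c h1
        have e3 := top_wy r c h2
        exact Prod.ext e1 (Prod.ext e2 e3)
      have : ev (m.P0 r).2 0 (pt m.B (sy c)) = 0 := by
        unfold Mach.P0
        rcases m.nx r with _ | y <;> exact cyl_zero m.hB (m.valid_wy r) (valid_sy c) h2 _ _ 0
      rw [this, mul_zero]
    · have : ev (m.P0 r).1 0 (pt m.B (sx c)) = 0 := by
        unfold Mach.P0
        rcases m.nx r with _ | y <;> exact cyl_zero m.hB (m.valid_wx r) (valid_sx c) h1 _ _ 0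
      rw [this, zero_mul]
  · intro h; exact absurd (Finset.mem_univ _) h

lemma val0 (c : RCfg m.Q m.Γ) {y : _} (hn : m.nx (r0 c) = some y) (z : ℝ) :
    (zsh m.P0).val (pnt m (sx c) (sy c) z) = (pt m.B (s1 c) : ℝ) - pt m.B (sx c) := by
  rw [zsh_pnt _ (valid_sx c) (valid_sy c)]
  rw [Finset.sum_eq_single (r0 c)]
  · unfold Mach.P0
    rw [hn]
    simp only []
    rw [disp_fwd (valid_sx c) (top_wx_r0 c), cyl_one (valid_sy c) (top_wy_r0 c), s1_eq, mul_one]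
  · intro r _ hr
    by_cases h1 : Top 0 (m.wx r) (sx c)
    · have h2 : ¬ Top 0 (m.wy r) (sy c) := by
        intro h2
        apply hr
        obtain ⟨e1, e2⟩ := top_wx r c h1
        have e3 := top_wy r c h2
        exact Prod.ext e1 (Prod.ext e2 e3)
      have : ev (m.P0 r).2 0 (pt m.B (sy c)) = 0 := by
        unfold Mach.P0
        rcases m.nx r with _ | y <;> exact cyl_zero m.hB (m.valid_wy r) (valid_sy c) h2 _ _ 0
      rw [this, mul_zero]
    · have : ev (m.P0 r).1 0 (pt m.B (sx c)) = 0 := by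
        unfold Mach.P0
        rcases m.nx r with _ | y <;> exact cyl_zero m.hB (m.valid_wx r) (valid_sx c) h1 _ _ 0
      rw [this, zero_mul]
  · intro h; exact absurd (Finset.mem_univ _) h

lemma val2 (c : RCfg m.Q m.Γ) {y : _} (hn : m.nx (r0 c) = some y) (z : ℝ) :
    (zsh m.P2).val (pnt m (s1 c) (sy c) z) = (pt m.B (sx c) : ℝ) - pt m.B (s1 c) := by
  rw [zsh_pnt _ (valid_s1 c) (valid_sy c)]
  rw [Finset.sum_eq_single (r0 c)]
  · unfold Mach.P2
    rw [hn]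
    simp only []
    have h := disp_bwd (m := m) (m.valid_wr (r0 c)) (valid_sx c) (top_wx_r0 c)
    rw [s1_eq] at h
    rw [h, cyl_one (valid_sy c) (top_wy_r0 c), mul_one]
  · intro r _ hr
    have h1 : ¬ Top 0 (m.wr r) (s1 c) := fun h => hr (top_wr r c h)
    have : ev (m.P2 r).1 0 (pt m.B (s1 c)) = 0 := by
      unfold Mach.P2
      rcases m.nx r with _ | y
      · rfl
      · exact cyl_zero m.hB (m.valid_wr r) (valid_s1 c) h1 _ _ 0
    rw [this, zero_mul]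
  · intro h; exact absurd (Finset.mem_univ _) h

lemma Top_append' {A : Type} {b : A} (u s : List A) : Top b u (u ++ s) := by
  induction u with
  | nil => trivial
  | cons a u ih => exact ⟨rfl, ih⟩

/-- the next configuration -/
def nc (c : RCfg m.Q m.Γ) (y : Ctl m.Q × List (SS m.Q m.Γ) × List (SS m.Q m.Γ)) :
    RCfg m.Q m.Γ := (y.1, y.2.1 ++ c.2.1.tail, y.2.2 ++ c.2.2.tail)

lemma sy_nc (c : RCfg m.Q m.Γ) (y : _) :
    (y : Ctl m.Q × List (SS m.Q m.Γ) × List (SS m.Q m.Γ)).2.2.map m.dS ++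
      (sy c).drop (m.wy (r0 c)).length = sy (nc c y) := by
  show _ ++ (c.2.2.map m.dS).drop 1 = (y.2.2 ++ c.2.2.tail).map m.dS
  rw [List.map_append, List.drop_one, map_tail']

lemma sx_nc (c : RCfg m.Q m.Γ) (y : Ctl m.Q × List (SS m.Q m.Γ) × List (SS m.Q m.Γ)) :
    (m.dC y.1 :: y.2.1.map m.dS) ++ (s1 c).drop (m.wr (r0 c)).length = sx (nc c y) := by
  show (m.dC y.1 :: y.2.1.map m.dS) ++ (m.dR (r0 c) :: c.2.1.tail.map m.dS).drop 1 =
    m.dC y.1 :: (y.2.1 ++ c.2.1.tail).map m.dS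
  rw [List.map_append, List.drop_succ_cons, List.drop_zero]
  rfl

lemma val3 (c : RCfg m.Q m.Γ) {y : _} (hn : m.nx (r0 c) = some y) (z : ℝ) :
    (zsh m.P3).val (pnt m (s1 c) (sy c) z) = (pt m.B (sy (nc c y)) : ℝ) - pt m.B (sy c) := by
  rw [zsh_pnt _ (valid_s1 c) (valid_sy c)]
  rw [Finset.sum_eq_single (r0 c)]
  · unfold Mach.P3
    rw [hn]
    simp only []
    rw [disp_fwd (valid_sy c) (top_wy_r0 c), cyl_one (valid_s1 c) (top_wr_r0 c), sy_nc, one_mul]
  · intro r _ hr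
    have h1 : ¬ Top 0 (m.wr r) (s1 c) := fun h => hr (top_wr r c h)
    have : ev (m.P3 r).1 0 (pt m.B (s1 c)) = 0 := by
      unfold Mach.P3
      rcases m.nx r with _ | y
      · rfl
      · exact cyl_zero m.hB (m.valid_wr r) (valid_s1 c) h1 _ _ 0
    rw [this, zero_mul]
  · intro h; exact absurd (Finset.mem_univ _) h

lemma val5 (c : RCfg m.Q m.Γ) {y : _} (hn : m.nx (r0 c) = some y) (z : ℝ) :
    (zsh m.P5).val (pnt m (s1 c) (sy (nc c y)) z) =
      (pt m.B (sy c) : ℝ) - pt m.B (sy (nc c y)) := by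
  rw [zsh_pnt _ (valid_s1 c) (valid_sy _)]
  rw [Finset.sum_eq_single (r0 c)]
  · unfold Mach.P5
    rw [hn]
    simp only []
    have h := disp_bwd (m := m) (u' := y.2.2.map m.dS) (m.valid_dS y.2.2) (valid_sy c)
      (top_wy_r0 c)
    rw [sy_nc] at h
    rw [h, cyl_one (valid_s1 c) (top_wr_r0 c), one_mul]
  · intro r _ hr
    have h1 : ¬ Top 0 (m.wr r) (s1 c) := fun h => hr (top_wr r c h)
    have : ev (m.P5 r).1 0 (pt m.B (s1 c)) = 0 := by
      unfold Mach.P5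
      rcases m.nx r with _ | y
      · rfl
      · exact cyl_zero m.hB (m.valid_wr r) (valid_s1 c) h1 _ _ 0
    rw [this, zero_mul]
  · intro h; exact absurd (Finset.mem_univ _) h

lemma top_y_nc (c : RCfg m.Q m.Γ) (y : Ctl m.Q × List (SS m.Q m.Γ) × List (SS m.Q m.Γ)) :
    Top 0 (y.2.2.map m.dS) (sy (nc c y)) := by
  rw [← sy_nc]; exact Top_append _ _

lemma val6 (c : RCfg m.Q m.Γ) {y : _} (hn : m.nx (r0 c) = some y) (z : ℝ) :
    (zsh m.P6).val (pnt m (s1 c) (sy (nc c y)) z) =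
      (pt m.B (sx (nc c y)) : ℝ) - pt m.B (s1 c) := by
  rw [zsh_pnt _ (valid_s1 c) (valid_sy _)]
  rw [Finset.sum_eq_single (r0 c)]
  · unfold Mach.P6
    rw [hn]
    simp only []
    rw [disp_fwd (valid_s1 c) (top_wr_r0 c), cyl_one (valid_sy _) (top_y_nc c y), sx_nc, mul_one]
  · intro r _ hr
    have h1 : ¬ Top 0 (m.wr r) (s1 c) := fun h => hr (top_wr r c h)
    have : ev (m.P6 r).1 0 (pt m.B (s1 c)) = 0 := by
      unfold Mach.P6
      rcases m.nx r with _ | y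
      · rfl
      · exact cyl_zero m.hB (m.valid_wr r) (valid_s1 c) h1 _ _ 0
    rw [this, zero_mul]
  · intro h; exact absurd (Finset.mem_univ _) h

lemma val8 (c : RCfg m.Q m.Γ) {y : _} (hn : m.nx (r0 c) = some y) (z : ℝ) :
    (zsh m.P8).val (pnt m (sx (nc c y)) (sy (nc c y)) z) =
      (pt m.B (s1 c) : ℝ) - pt m.B (sx (nc c y)) := by
  rw [zsh_pnt _ (valid_sx _) (valid_sy _)]
  rw [Finset.sum_eq_single (r0 c)]
  · unfold Mach.P8
    rw [hn]
    simp only []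
    have h := disp_bwd (m := m) (u' := m.dC y.1 :: y.2.1.map m.dS) (m.valid_cons y.2.1)
      (valid_s1 c) (top_wr_r0 c)
    rw [sx_nc] at h
    rw [h, cyl_one (valid_sy _) (top_y_nc c y), mul_one]
  · intro r _ hr
    have key : ∀ y', m.nx r = some y' → Top 0 (m.dC y'.1 :: y'.2.1.map m.dS) (sx (nc c y)) →
        Top 0 (y'.2.2.map m.dS) (sy (nc c y)) → False := by
      intro y' hy' hx1 hy1
      apply hr
      obtain ⟨e1, e2⟩ := hx1
      have e3 : y'.1 = y.1 := (m.hC e1).symm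
      have e4 : Top bk y'.2.1 (y.2.1 ++ c.2.1.tail) := Top_map e2
      have e5 : Top bk y'.2.2 (y.2.2 ++ c.2.2.tail) := Top_map hy1
      have f1 := prv_nxt m.δ r.1 r.2.1 r.2.2 y'.1 y'.2.1 y'.2.2 (y.2.1 ++ c.2.1.tail)
        (y.2.2 ++ c.2.2.tail) hy' e4 e5
      have f2 := prv_nxt m.δ (r0 c).1 (r0 c).2.1 (r0 c).2.2 y.1 y.2.1 y.2.2 (y.2.1 ++ c.2.1.tail)
        (y.2.2 ++ c.2.2.tail) hn (Top_append' _ _) (Top_append' _ _)
      rw [e3] at f1
      rw [f1] at f2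
      exact f2
    unfold Mach.P8
    rcases hy' : m.nx r with _ | y'
    · simp only [ev_nil, zero_mul]
    · simp only []
      by_cases h1 : Top 0 (m.dC y'.1 :: y'.2.1.map m.dS) (sx (nc c y))
      · have h2 : ¬ Top 0 (y'.2.2.map m.dS) (sy (nc c y)) := fun h => key y' hy' h1 h
        rw [cyl_zero m.hB (m.valid_dS _) (valid_sy _) h2, mul_zero]
      · have : ev (disp m.B (m.dC y'.1 :: y'.2.1.map m.dS) (m.wr r)) 0 (pt m.B (sx (nc c y))) = 0 :=
          cyl_zero m.hB (m.valid_cons y'.2.1) (valid_sx _) h1 _ _ 0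
        rw [this, zero_mul]
  · intro h; exact absurd (Finset.mem_univ _) h

end Vale.Agent.P113
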