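import Mathlib

/-!
Definitions for the statement of problem P113.

Functions on the torus `(ℝ/ℤ)³` are written as functions on `ℝ³` that are `1`-periodic in each
coordinate. A vector field `u` is given by its three components `u 0, u 1, u 2`.
-/

open Set MeasureTheory

namespace Vale.Agent.P113

/-! ### Flows on the torus -/

/-- Points of `ℝ³`. -/
abbrev Pt := Fin 3 → ℝ

/-- Scalar functions `g t x` of time and space. -/
abbrev Field := ℝ → Pt → ℝ

/-- `1`-periodic in each of the three coordinates: a function on the torus `(ℝ/ℤ)³`. -/
def Periodic3 (g : Pt → ℝ) : Prop := ∀ (x : Pt) (i : Fin 3), g (x + Pi.single i 1) = g x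

/-- The partial derivative in the space coordinate `i`. -/
noncomputable def dx (i : Fin 3) (g : Pt → ℝ) : Pt → ℝ :=
  fun x => deriv (fun s => g (Function.update x i s)) (x i)

/-- The time derivative of `g` on `[0, T]` (one-sided at the ends). -/
noncomputable def dt (T : ℝ) (g : Field) : Field :=
  fun t x => derivWithin (fun s => g s x) (Icc 0 T) t

/-- Continuity on `[0, T] × ℝ³`. -/
def Cont (T : ℝ) (g : Field) : Prop := ContinuousOn (fun z : ℝ × Pt => g z.1 z.2) (Icc 0 T ×ˢ univ)

/-- `g` is `n` times continuously differentiable. -/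
def SpaceC (n : ℕ) (g : Pt → ℝ) : Prop := ContDiff ℝ n g

/-- `g` is smooth in time and space. -/
def Smooth (g : Field) : Prop := ContDiff ℝ (⊤ : ℕ∞) (fun z : ℝ × Pt => g z.1 z.2)

/-- `(u, p)` is a classical solution on `[0, T] × 𝕋³` of the forced Navier-Stokes system with
viscosity `ν` and force `f`, starting from rest, with pressure of spatial mean zero. -/
structure IsClassicalSolution (ν : ℝ) (f : Fin 3 → Field) (T : ℝ) (u : Fin 3 → Field) (p : Field) :
    Prop where
  u_periodic : ∀ i, ∀ t ∈ Icc 0 T, Periodic3 (u i t)
  p_periodic : ∀ t ∈ Icc 0 T, Periodic3 (p t)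
  u_time : ∀ i, ∀ t ∈ Icc 0 T, ∀ x, DifferentiableWithinAt ℝ (fun s => u i s x) (Icc 0 T) t
  u_space : ∀ i, ∀ t ∈ Icc 0 T, SpaceC 2 (u i t)
  p_space : ∀ t ∈ Icc 0 T, SpaceC 1 (p t)
  u_cont : ∀ i, Cont T (u i)
  ut_cont : ∀ i, Cont T (dt T (u i))
  ux_cont : ∀ i j, Cont T (fun t => dx j (u i t))
  uxx_cont : ∀ i j k, Cont T (fun t => dx k (dx j (u i t)))
  p_cont : Cont T p
  px_cont : ∀ j, Cont T (fun t => dx j (p t))
  p_mean : ∀ t ∈ Icc 0 T, ∫ x in Icc (0 : Pt) 1, p t x = 0
  momentum : ∀ i, ∀ t ∈ Icc 0 T, ∀ x, dt T (u i) t x + ∑ j, u j t x * dx j (u i t) x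
    = - dx i (p t) x + ν * ∑ j, dx j (dx j (u i t)) x + f i t x
  div_free : ∀ t ∈ Icc 0 T, ∀ x, ∑ j, dx j (u j t) x = 0
  from_rest : ∀ i x, u i 0 x = 0

/-- `X` is the trajectory of the point `a` under the velocity field `u`, for all times `t ≥ 0`. -/
def IsTrajectory (u : Fin 3 → Field) (a : Pt) (X : ℝ → Pt) : Prop :=
  X 0 = a ∧ ∀ i t, 0 ≤ t → HasDerivWithinAt (fun s => X s i) (u i t (X t)) (Ici 0) t

/-! ### Machines -/

/-- A one-tape Turing machine. States and tape symbols are natural numbers, the blank is `0` and
the initial state is `0`. The first component is a finite transition table whose entries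
`((q, s), (q', s', d))` mean: in state `q` reading `s`, write `s'`, go to state `q'` and move left
if `d = 0`, right if `d = 1`, and stay otherwise; the first entry for `(q, s)` counts, and if there
is none the machine stays in its present configuration. The second component lists the halting
states. Only the finitely many states and symbols in the table matter. -/
abbrev Machine := List ((ℕ × ℕ) × (ℕ × ℕ × ℕ)) × List ℕ

/-- A configuration: state, head position, tape contents. -/
structure Config where
  state : ℕ
  head : ℤ
  tape : ℤ → ℕ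

/-- The head position after a move in direction `d`. -/
def move (d : ℕ) (h : ℤ) : ℤ := if d = 0 then h - 1 else if d = 1 then h + 1 else h

/-- One step of the machine. -/
def step (M : Machine) (c : Config) : Config :=
  (M.1.lookup (c.state, c.tape c.head)).elim c
    (fun e => ⟨e.1, move e.2.2 c.head, Function.update c.tape c.head e.2.1⟩)

/-- The initial configuration on input `w`: `w` on an otherwise blank tape, the head on its first
cell. -/
def initConfig (w : List ℕ) : Config :=
  ⟨0, 0, fun i => if i < 0 then 0 else w.getD i.toNat 0⟩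

/-- `M` halts on `w`: it reaches a halting state after finitely many steps, possibly none. -/
def Halts (M : Machine) (w : List ℕ) : Prop :=
  ∃ n : ℕ, ((step M)^[n] (initConfig w)).state ∈ M.2

/-! ### Effective forces -/

/-- Codes of rational numbers: `(a, b, c)` stands for `(a - b) / (c + 1)`. -/
abbrev QCode := ℕ × ℕ × ℕ

/-- The rational number (as a real number) with code `q`. -/
noncomputable def rat (q : QCode) : ℝ := ((q.1 : ℝ) - q.2.1) / (q.2.2 + 1)

/-- `ν` is a computable real: an algorithm approximates it to within `1 / (n + 1)`, for every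
`n`. -/
def IsComputableReal (ν : ℝ) : Prop :=
  ∃ g : ℕ → QCode, Computable g ∧ ∀ n : ℕ, |ν - rat (g n)| ≤ rat (1, 0, n)

/-- The partial derivative in direction `k`: `k = 0` is time, `k = 1, 2, 3` are the space
coordinates. -/
noncomputable def pd (k : Fin 4) (g : Field) : Field :=
  Fin.cases (fun t x => deriv (fun s => g s x) t) (fun i t => dx i (g t)) k

/-- The mixed derivative of `g` along a list of directions. -/
noncomputable def mixed (α : List (Fin 4)) (g : Field) : Field := α.foldr pd g

/-- The program `c` returns every mixed derivative of every component of `f` at every rational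
point with `t ≥ 0`, to any prescribed rational accuracy `ε > 0`. -/
def Computes (c : Nat.Partrec.Code) (f : Fin 3 → Field) : Prop :=
  ∀ (i : Fin 3) (α : List (Fin 4)) (t x y z ε : QCode), 0 ≤ rat t → 0 < rat ε →
    ∃ r : QCode, Encodable.encode r ∈ c.eval (Encodable.encode (i, α, t, x, y, z, ε)) ∧
      |mixed α (f i) (rat t) ![rat x, rat y, rat z] - rat r| ≤ rat ε

/-- `compile` is a force compiler with forces `f M w`: a total algorithm that turns every pair
`(M, w)` into a program for the smooth periodic force `f M w`, such that from a time `T₀` on,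
independent of `(M, w)`, the force is periodic in time and depends on `M` only. -/
structure IsForceCompiler (compile : Machine × List ℕ → Nat.Partrec.Code)
    (f : Machine → List ℕ → Fin 3 → Field) : Prop where
  computable : Computable compile
  smooth : ∀ M w i, Smooth (f M w i)
  periodic : ∀ M w i t, Periodic3 (f M w i t)
  computes : ∀ M w, Computes (compile (M, w)) (f M w)
  eventually : ∃ T₀ : ℝ, ∀ M, ∃ P : ℝ, 0 < P ∧ ∀ w i t, T₀ ≤ t →
    f M w i (t + P) = f M w i t ∧ ∀ w', f M w' i t = f M w i t

end Vale.Agent.P113
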