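import Vale.Agent.P113.Tower
import Vale.Agent.P113.Rev

/-!
Stacks of digits as points of an interval; smooth functions acting on cylinders.
-/

namespace Vale.Agent.P113

section
variable (B : ℕ)

/-- value of a digit string in base `B` -/
def dv : List ℕ → ℚ
  | [] => 0
  | (d :: s) => (d + dv s) / B

/-- all digits are at most `B - 2` -/
def Valid (s : List ℕ) : Prop := ∀ d ∈ s, d + 2 ≤ B

variable {B}

lemma Valid.tail {s : List ℕ} (h : Valid B s) : Valid B s.tail := fun d hd =>
  h d (List.mem_of_mem_tail hd)

lemma Valid.drop {s : List ℕ} (h : Valid B s) (n : ℕ) : Valid B (s.drop n) := fun d hd =>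
  h d (List.mem_of_mem_drop hd)

lemma Valid.append {s t : List ℕ} (hs : Valid B s) (ht : Valid B t) : Valid B (s ++ t) := by
  intro d hd
  rcases List.mem_append.mp hd with h | h
  · exact hs d h
  · exact ht d h

lemma dv_nonneg (s : List ℕ) : 0 ≤ dv B s := by
  induction s with
  | nil => exact le_rfl
  | cons d s ih => simp only [dv]; positivity

lemma dv_le (hB : 2 ≤ B) {s : List ℕ} (h : Valid B s) : dv B s ≤ 1 - 1/B := by
  have hB0 : (0:ℚ) < B := by positivity
  have hB2 : (2:ℚ) ≤ B := by exact_mod_cast hB
  induction s with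
  | nil =>
    simp only [dv]
    rw [sub_nonneg, div_le_one hB0]
    linarith
  | cons d s ih =>
    simp only [dv]
    have h1 : (d:ℚ) + 2 ≤ B := by exact_mod_cast h d (by simp)
    have h2 := ih (fun d hd => h d (by simp [hd]))
    have h3 : (1:ℚ) - 1/B = (B - 1)/B := by field_simp
    rw [h3]
    apply div_le_div_of_nonneg_right _ hB0.le
    have h4 : (0:ℚ) ≤ 1/B := by positivity
    linarith

lemma dv_headD_tail (s : List ℕ) : dv B s = (s.headD 0 + dv B s.tail) / B := by
  cases s with
  | nil => simp [dv]
  | cons d s => rfl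

lemma dv_append (hB : 0 < B) (u s : List ℕ) : dv B (u ++ s) = dv B u + dv B s / B^u.length := by
  have hB0 : (0:ℚ) < B := by positivity
  induction u with
  | nil => simp [dv]
  | cons d u ih =>
    simp only [List.cons_append, dv, ih, List.length_cons, pow_succ]
    field_simp
    ring

lemma Top_drop_dv (hB : 0 < B) {u s : List ℕ} (h : Top 0 u s) :
    dv B s = dv B u + dv B (s.drop u.length) / B^u.length := by
  have hB0 : (0:ℚ) < B := by positivity
  induction u generalizing s with
  | nil => simp [dv]
  | cons a u ih =>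
    obtain ⟨h1, h2⟩ := h
    rw [dv_headD_tail, h1, ih h2]
    simp only [dv, List.length_cons, pow_succ]
    have h3 : s.tail.drop u.length = s.drop (u.length + 1) := by
      rw [List.drop_tail]
    rw [h3]
    field_simp
    ring

lemma valid_head (hB : 2 ≤ B) {s : List ℕ} (h : Valid B s) : s.headD 0 + 2 ≤ B := by
  cases s with
  | nil => simpa using hB
  | cons d s => exact h d (by simp)

/-- points outside a cylinder are separated from it -/
lemma not_Top_dv (hB : 2 ≤ B) {u s : List ℕ} (hu : Valid B u) (hs : Valid B s) (h : ¬ Top 0 u s) :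
    dv B s ≤ dv B u - 1/B^(u.length+1) ∨ dv B u + 1/B^u.length ≤ dv B s := by
  have hB0 : (0:ℚ) < B := by positivity
  have hB2 : (2:ℚ) ≤ B := by exact_mod_cast hB
  induction u generalizing s with
  | nil => exact absurd trivial h
  | cons a u ih =>
    have hu' : Valid B u := fun d hd => hu d (by simp [hd])
    rw [dv_headD_tail s]
    simp only [dv, List.length_cons]
    by_cases h1 : s.headD 0 = a
    · have h2 : ¬ Top 0 u s.tail := fun h3 => h ⟨h1, h3⟩
      rw [h1]
      rcases ih hu' hs.tail h2 with h3 | h3
      · left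
        have h4 : ((a:ℚ) + dv B u)/B - 1/B^(u.length+1+1) =
            ((a:ℚ) + (dv B u - 1/B^(u.length+1)))/B := by
          rw [pow_succ (B:ℚ) (u.length+1)]; field_simp; ring
        rw [h4]
        apply div_le_div_of_nonneg_right _ hB0.le
        linarith
      · right
        have h4 : ((a:ℚ) + dv B u)/B + 1/B^(u.length+1) =
            ((a:ℚ) + (dv B u + 1/B^u.length))/B := by
          rw [pow_succ (B:ℚ) (u.length)]; field_simp; ring
        rw [h4]
        apply div_le_div_of_nonneg_right _ hB0.le
        linarith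
    · have hs1 := dv_le hB hs.tail
      have hs0 := dv_nonneg (B := B) s.tail
      have hu1 := dv_le hB hu'
      have hu0 := dv_nonneg (B := B) u
      rcases lt_or_gt_of_ne h1 with h2 | h2
      · left
        have h3 : ((s.headD 0 : ℕ) : ℚ) + 1 ≤ a := by exact_mod_cast h2
        have h4 : (1:ℚ)/B^(u.length+1+1) ≤ (1/B)/B := by
          rw [div_div, ← pow_two]
          apply one_div_le_one_div_of_le (by positivity)
          apply pow_le_pow_right₀ (by linarith) (by omega)
        have h5 : (((s.headD 0 : ℕ) : ℚ) + dv B s.tail)/B ≤ (a - 1/B)/B := by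
          apply div_le_div_of_nonneg_right _ hB0.le
          linarith
        have h6 : ((a:ℚ) - 1/B)/B ≤ ((a:ℚ) + dv B u)/B - (1/B)/B := by
          rw [← sub_div]
          apply div_le_div_of_nonneg_right _ hB0.le
          linarith
        linarith
      · right
        have h3 : (a:ℚ) + 1 ≤ ((s.headD 0 : ℕ) : ℚ) := by exact_mod_cast h2
        have h7 : dv B u + 1/B^u.length ≤ 1 := by
          -- the cylinder of `u` is inside `[0,1]`
          have : ∀ v : List ℕ, Valid B v → dv B v + 1/B^v.length ≤ 1 := by
            intro v hv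
            induction v with
            | nil => simp [dv]
            | cons d v ih2 =>
              have h8 := ih2 (fun d hd => hv d (by simp [hd]))
              have h9 : (d:ℚ) + 2 ≤ B := by exact_mod_cast hv d (by simp)
              simp only [dv, List.length_cons, pow_succ]
              have h10 : ((d:ℚ) + dv B v)/B + 1/(B^v.length * B) =
                (d + (dv B v + 1/B^v.length))/B := by field_simp; ring
              rw [h10, div_le_one hB0]
              linarith
          exact this u hu'
        have h4 : ((a:ℚ) + dv B u)/B + 1/B^(u.length+1) =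
            ((a:ℚ) + (dv B u + 1/B^u.length))/B := by
          rw [pow_succ (B:ℚ) (u.length)]; field_simp; ring
        rw [h4]
        apply div_le_div_of_nonneg_right _ hB0.le
        linarith

variable (B)

/-- the point of `[1/4, 1/2]` coding a stack -/
def pt (s : List ℕ) : ℚ := 1/4 + dv B s / 4

/-- the function `α x + β` on the cylinder of `u` -/
def cyl (u : List ℕ) (α β : ℚ) : List Atom :=
  bump (4 * B^(u.length+1)) (1/4 + dv B u/4) (1/4 + (dv B u + (1 - 1/B)/B^u.length)/4) α β

variable {B}

lemma cyl_mid (hB : 2 ≤ B) {u s : List ℕ} (hs : Valid B s) (h : Top 0 u s) (α β : ℚ) :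
    ev (cyl B u α β) 0 (pt B s) = α * pt B s + β := by
  have hB0 : (0:ℚ) < B := by positivity
  unfold cyl
  apply bump_mid
  · positivity
  · have : 1/4 + dv B u/4 ≤ pt B s := by
      unfold pt
      rw [Top_drop_dv (by omega) h]
      have := dv_nonneg (B := B) (s.drop u.length)
      have h2 : 0 ≤ dv B (s.drop u.length) / B^u.length := by positivity
      linarith
    exact_mod_cast this
  · have : pt B s ≤ 1/4 + (dv B u + (1 - 1/B)/B^u.length)/4 := by
      unfold pt
      rw [Top_drop_dv (by omega) h]
      have h1 := dv_le hB (hs.drop u.length)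
      have h2 : dv B (s.drop u.length) / B^u.length ≤ (1 - 1/B)/B^u.length :=
        div_le_div_of_nonneg_right h1 (by positivity)
      linarith
    exact_mod_cast this

lemma cyl_le (hB : 2 ≤ B) (u : List ℕ) :
    (1/4 + dv B u/4 : ℚ) ≤ 1/4 + (dv B u + (1 - 1/B)/B^u.length)/4 := by
  have hB0 : (0:ℚ) < B := by positivity
  have hB2 : (2:ℚ) ≤ B := by exact_mod_cast hB
  have h1 : (0:ℚ) ≤ 1 - 1/B := by
    rw [sub_nonneg, div_le_one hB0]; linarith
  have : (0:ℚ) ≤ (1 - 1/B)/B^u.length := by positivity
  linarith

lemma cyl_zero (hB : 2 ≤ B) {u s : List ℕ} (hu : Valid B u) (hs : Valid B s) (h : ¬ Top 0 u s)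
    (α β : ℚ) (k : ℕ) : ev (cyl B u α β) k (pt B s) = 0 := by
  have hB0 : (0:ℚ) < B := by positivity
  have hN : 0 < 4 * B^(u.length+1) := by positivity
  unfold cyl
  rcases not_Top_dv hB hu hs h with h1 | h1
  · apply bump_left hN (cyl_le hB u)
    have : pt B s ≤ 1/4 + dv B u/4 - 1/((4 * B^(u.length+1) : ℕ) : ℚ) := by
      unfold pt
      push_cast
      have h2 : (1:ℚ)/(4 * B^(u.length+1)) = (1/B^(u.length+1))/4 := by field_simp
      rw [h2]
      linarith
    have h := (Rat.cast_le (K := ℝ)).mpr this
    push_cast at h ⊢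
    linarith
  · apply bump_right hN (cyl_le hB u)
    have : 1/4 + (dv B u + (1 - 1/B)/B^u.length)/4 + 1/((4 * B^(u.length+1) : ℕ) : ℚ) ≤ pt B s := by
      unfold pt
      push_cast
      have h2 : (1 - 1/(B:ℚ))/B^u.length + 1/B^(u.length+1) = 1/B^u.length := by
        rw [pow_succ]; field_simp; ring
      have h3 : (1:ℚ)/(4 * B^(u.length+1)) = (1/B^(u.length+1))/4 := by field_simp
      rw [h3]
      linarith
    have h := (Rat.cast_le (K := ℝ)).mpr this
    push_cast at h ⊢
    linarith

lemma dv_add_le (hB : 2 ≤ B) {u : List ℕ} (hu : Valid B u) : dv B u + 1/B^u.length ≤ 1 := by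
  have hB0 : (0:ℚ) < B := by positivity
  induction u with
  | nil => simp [dv]
  | cons d v ih2 =>
    have h8 := ih2 (fun d hd => hu d (by simp [hd]))
    have h9 : (d:ℚ) + 2 ≤ B := by exact_mod_cast hu d (by simp)
    simp only [dv, List.length_cons, pow_succ]
    have h10 : ((d:ℚ) + dv B v)/B + 1/(B^v.length * B) =
      (d + (dv B v + 1/B^v.length))/B := by field_simp; ring
    rw [h10, div_le_one hB0]
    linarith

lemma cyl_supp (hB : 2 ≤ B) {u : List ℕ} (hu : Valid B u) (α β : ℚ) :
    Supp (ev (cyl B u α β)) (1/8) := by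
  have hB0 : (0:ℚ) < B := by positivity
  have hB2 : (2:ℚ) ≤ B := by exact_mod_cast hB
  have hN : 0 < 4 * B^(u.length+1) := by positivity
  have hpow : (1:ℚ)/B^(u.length+1) ≤ 1/2 := by
    apply one_div_le_one_div_of_le (by norm_num)
    calc (2:ℚ) ≤ B := hB2
      _ = B^1 := (pow_one _).symm
      _ ≤ B^(u.length+1) := pow_le_pow_right₀ (by linarith) (by omega)
  have h3 : (1:ℚ)/((4 * B^(u.length+1) : ℕ) : ℚ) = (1/B^(u.length+1))/4 := by
    push_cast; field_simp
  refine ⟨by norm_num, by norm_num, fun k x hx => ?_, fun k x hx => ?_⟩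
  · apply bump_left hN (cyl_le hB u)
    refine hx.trans ?_
    have : (1/8 : ℚ) ≤ 1/4 + dv B u/4 - 1/((4 * B^(u.length+1) : ℕ) : ℚ) := by
      rw [h3]
      have := dv_nonneg (B := B) u
      linarith
    have h := (Rat.cast_le (K := ℝ)).mpr this
    push_cast at h ⊢
    linarith
  · apply bump_right hN (cyl_le hB u)
    refine le_trans ?_ hx
    have : 1/4 + (dv B u + (1 - 1/B)/B^u.length)/4 + 1/((4 * B^(u.length+1) : ℕ) : ℚ) ≤
        1 - 1/8 := by
      have h2 : (1 - 1/(B:ℚ))/B^u.length + 1/B^(u.length+1) = 1/B^u.length := by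
        rw [pow_succ]; field_simp; ring
      rw [h3]
      have h4 := dv_add_le hB hu
      linarith
    have h := (Rat.cast_le (K := ℝ)).mpr this
    push_cast at h ⊢
    linarith

variable (B)

/-- slope and intercept of the displacement replacing the prefix `u` by `u'` -/
def dα (u u' : List ℕ) : ℚ := B^u.length / B^u'.length - 1

def dβ (u u' : List ℕ) : ℚ :=
  (1 - B^u.length / B^u'.length + dv B u' - B^u.length / B^u'.length * dv B u) / 4

/-- displacement function of the replacement of the prefix `u` by `u'` -/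
def disp (u u' : List ℕ) : List Atom := cyl B u (dα B u u') (dβ B u u')

variable {B}

lemma disp_mid (hB : 2 ≤ B) {u u' s : List ℕ} (hs : Valid B s) (h : Top 0 u s) :
    ev (disp B u u') 0 (pt B s) = (pt B (u' ++ s.drop u.length) : ℝ) - pt B s := by
  unfold disp
  rw [cyl_mid hB hs h]
  have hB0 : (0:ℚ) < B := by positivity
  have key : dα B u u' * pt B s + dβ B u u' = pt B (u' ++ s.drop u.length) - pt B s := by
    unfold dα dβ pt
    rw [dv_append (by omega), Top_drop_dv (by omega) h]
    field_simp
    ring
  exact_mod_cast key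

lemma pt_mem (hB : 2 ≤ B) {s : List ℕ} (hs : Valid B s) : 1/4 ≤ pt B s ∧ pt B s ≤ 1/2 := by
  have hB0 : (0:ℚ) < B := by positivity
  have h1 := dv_nonneg (B := B) s
  have h2 := dv_le hB hs
  have h3 : (0:ℚ) ≤ 1/B := by positivity
  unfold pt
  constructor <;> linarith

lemma Top_append (u s : List ℕ) : Top 0 u (u ++ s) := by
  induction u with
  | nil => trivial
  | cons a u ih => exact ⟨rfl, ih⟩

end

end Vale.Agent.P113
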