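import Vale.Agent.P113.Calc

/-!
Uniqueness of classical solutions by the energy estimate.
-/

open Set MeasureTheory Filter Topology

namespace Vale.Agent.P113

lemma diff_comp {u : Pt → Pt} {n : WithTop ℕ∞} (hu : ContDiff ℝ n u) (i : Fin 3) :
    ContDiff ℝ n (fun y => u y i) := (contDiff_pi.mp hu) i

lemma periodic_comp {u : Pt → Pt} (hu : Per3 u) (i : Fin 3) :
    Per3 (fun y => u y i) := fun x j => by simp only []; rw [hu x j]

lemma static_ineq (ν K : ℝ) (hν : 0 ≤ ν) (u v : Pt → Pt) (q₁ q₂ : Pt → ℝ)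
    (hu : ContDiff ℝ 2 u) (hv : ContDiff ℝ 2 v) (hq₁ : ContDiff ℝ 1 q₁) (hq₂ : ContDiff ℝ 1 q₂)
    (pu : Per3 u) (pv : Per3 v) (pq₁ : Per3 q₁) (pq₂ : Per3 q₂)
    (du : ∀ x, ∑ j, dx j (fun y => u y j) x = 0) (dv : ∀ x, ∑ j, dx j (fun y => v y j) x = 0)
    (bu : ∀ x i j, |dx j (fun y => u y i) x| ≤ K)
    (a : Pt → Pt)
    (ha : ∀ x i, a x i = -(∑ j, (u x j * dx j (fun y => u y i) x - v x j * dx j (fun y => v y i) x))
      - (dx i q₁ x - dx i q₂ x)
      + ν * (∑ j, (dx j (dx j (fun y => u y i)) x - dx j (dx j (fun y => v y i)) x))) :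
    ∫ x in Icc (0:Pt) 1, ∑ i, (u x i - v x i) * a x i ≤
      3 * K * ∫ x in Icc (0:Pt) 1, ∑ i, (u x i - v x i)^2 := by
  have hu1 : ∀ i, ContDiff ℝ 2 (fun y => u y i) := fun i => diff_comp hu i
  have hv1 : ∀ i, ContDiff ℝ 2 (fun y => v y i) := fun i => diff_comp hv i
  let w : Fin 3 → Pt → ℝ := fun i y => u y i - v y i
  let π : Pt → ℝ := fun y => q₁ y - q₂ y
  have hw : ∀ i, ContDiff ℝ 2 (w i) := fun i => (hu1 i).sub (hv1 i)
  have hw1 : ∀ i, ContDiff ℝ 1 (w i) := fun i => (hw i).of_le (by norm_num)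
  have hπ : ContDiff ℝ 1 π := hq₁.sub hq₂
  have hdw : ∀ i j, ContDiff ℝ 1 (dx j (w i)) := fun i j =>
    contDiff_dx (n := 1) (by have := hw i; norm_num; exact this) j
  have pw : ∀ i, Per3 (w i) := fun i x j => by
    simp only [w]; rw [pu x j, pv x j]
  have pπ : Per3 π := fun x j => by simp only [π]; rw [pq₁ x j, pq₂ x j]
  have pdw : ∀ i j, Per3 (dx j (w i)) := fun i j => periodic_dx (pw i) j
  let F : Fin 3 → Pt → ℝ := fun j y =>
    (-(1/2)) * (v y j * ∑ i, (w i y)^2) - w j y * π y + ν * ∑ i, w i y * dx j (w i) y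
  have hF : ∀ j, ContDiff ℝ 1 (F j) := by
    intro j
    have h1 : ContDiff ℝ 1 (fun y => v y j) := (hv1 j).of_le (by norm_num)
    have h2 : ContDiff ℝ 1 (fun y => ∑ i, (w i y)^2) :=
      ContDiff.sum (fun i _ => (hw1 i).pow 2)
    have h3 : ContDiff ℝ 1 (fun y => ∑ i, w i y * dx j (w i) y) :=
      ContDiff.sum (fun i _ => (hw1 i).mul (hdw i j))
    exact ((contDiff_const.mul (h1.mul h2)).sub ((hw1 j).mul hπ)).add (contDiff_const.mul h3)
  have pF : ∀ j, Per3 (F j) := by
    intro j x k
    simp only [F]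
    rw [pv x k, pw j x k, pπ x k]
    have e1 : ∀ i, w i (x + Pi.single k 1) = w i x := fun i => pw i x k
    have e2 : ∀ i, dx j (w i) (x + Pi.single k 1) = dx j (w i) x := fun i => pdw i j x k
    simp only [e1, e2]
  have hdF : ∀ x j, dx j (F j) x =
      (-(1/2)) * (dx j (fun y => v y j) x * ∑ i, (w i x)^2 +
        v x j * ∑ i, (2 * w i x * dx j (w i) x)) - (dx j (w j) x * π x + w j x * dx j π x)
        + ν * ∑ i, (dx j (w i) x * dx j (w i) x + w i x * dx j (dx j (w i)) x) := by
    intro x j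
    have e1 : HasDerivAt (fun s => v (Function.update x j s) j) (dx j (fun y => v y j) x) (x j) :=
      hasDerivAt_dx ((hv1 j).differentiable (by norm_num) x) j
    have e2 : ∀ i, HasDerivAt (fun s => w i (Function.update x j s)) (dx j (w i) x) (x j) :=
      fun i => hasDerivAt_dx ((hw i).differentiable (by norm_num) x) j
    have e3 : HasDerivAt (fun s => π (Function.update x j s)) (dx j π x) (x j) :=
      hasDerivAt_dx (hπ.differentiable (by norm_num) x) j
    have e4 : ∀ i, HasDerivAt (fun s => dx j (w i) (Function.update x j s))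
        (dx j (dx j (w i)) x) (x j) :=
      fun i => hasDerivAt_dx ((hdw i j).differentiable (by norm_num) x) j
    have e5 := (((e1.mul (HasDerivAt.fun_sum (u := Finset.univ) (fun i _ => (e2 i).pow 2))).const_mul
      (-(1/2))).sub ((e2 j).mul e3)).add
      ((HasDerivAt.fun_sum (u := Finset.univ) (fun i _ => (e2 i).mul (e4 i))).const_mul ν)
    have e6 := e5.deriv
    simp only [Function.update_eq_self] at e6
    refine Eq.trans ?_ (e6.trans ?_)
    · rfl
    · simp
  have hwx : ∀ x i j, dx j (w i) x = dx j (fun y => u y i) x - dx j (fun y => v y i) x := by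
    intro x i j
    exact dx_sub ((hu1 i).differentiable (by norm_num) x) ((hv1 i).differentiable (by norm_num) x) j
  have hwxx : ∀ x i j, dx j (dx j (w i)) x =
      dx j (dx j (fun y => u y i)) x - dx j (dx j (fun y => v y i)) x := by
    intro x i j
    have h1 : dx j (w i) = fun x => dx j (fun y => u y i) x - dx j (fun y => v y i) x := by
      funext x; exact hwx x i j
    rw [h1]
    have c1 : ContDiff ℝ 1 (dx j (fun y => u y i)) :=
      contDiff_dx (n := 1) (by have := hu1 i; norm_num; exact this) j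
    have c2 : ContDiff ℝ 1 (dx j (fun y => v y i)) :=
      contDiff_dx (n := 1) (by have := hv1 i; norm_num; exact this) j
    exact dx_sub (c1.differentiable (by norm_num) x) (c2.differentiable (by norm_num) x) j
  have hπx : ∀ x i, dx i π x = dx i q₁ x - dx i q₂ x := fun x i =>
    dx_sub (hq₁.differentiable (by norm_num) x) (hq₂.differentiable (by norm_num) x) i
  have key : ∀ x, ∑ i, (u x i - v x i) * a x i =
      - (∑ i, ∑ j, w i x * w j x * dx j (fun y => u y i) x) + ∑ j, dx j (F j) x
        - ν * ∑ i, ∑ j, (dx j (w i) x)^2 := by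
    intro x
    have hdu := du x
    have hdv := dv x
    simp only [Fin.sum_univ_three] at hdu hdv ⊢
    rw [hdF x 0, hdF x 1, hdF x 2, ha x 0, ha x 1, ha x 2]
    simp only [Fin.sum_univ_three, hwxx, hπx, hwx]
    simp only [w, π]
    linear_combination (1/2 * ((u x 0 - v x 0)^2 + (u x 1 - v x 1)^2 + (u x 2 - v x 2)^2)
      - (q₁ x - q₂ x)) * hdv + (q₁ x - q₂ x) * hdu
  have hineq : ∀ x, ∑ i, (u x i - v x i) * a x i ≤
      3 * K * (∑ i, (u x i - v x i)^2) + ∑ j, dx j (F j) x := by
    intro x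
    rw [key x]
    have h1 : ∀ i j, - (w i x * w j x * dx j (fun y => u y i) x) ≤
        K * ((w i x)^2 + (w j x)^2) / 2 := by
      intro i j
      have h2 := bu x i j
      have h3 : - (w i x * w j x * dx j (fun y => u y i) x) ≤
          |w i x * w j x| * |dx j (fun y => u y i) x| := by
        rw [← abs_mul]; exact neg_le_abs _
      have h4 : |w i x * w j x| * |dx j (fun y => u y i) x| ≤ |w i x * w j x| * K :=
        mul_le_mul_of_nonneg_left h2 (abs_nonneg _)
      have h5 : |w i x * w j x| ≤ ((w i x)^2 + (w j x)^2) / 2 := by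
        rw [abs_mul]
        have := sq_nonneg (|w i x| - |w j x|)
        have e1 := sq_abs (w i x)
        have e2 := sq_abs (w j x)
        nlinarith
      have hK : 0 ≤ K := (abs_nonneg _).trans h2
      nlinarith
    have h6 : 0 ≤ ν * ∑ i, ∑ j, (dx j (w i) x)^2 := by positivity
    have h7 : ∀ i, w i x = u x i - v x i := fun i => rfl
    simp only [Fin.sum_univ_three] at h6 ⊢
    have t00 := h1 0 0
    have t01 := h1 0 1
    have t02 := h1 0 2
    have t10 := h1 1 0
    have t11 := h1 1 1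
    have t12 := h1 1 2
    have t20 := h1 2 0
    have t21 := h1 2 1
    have t22 := h1 2 2
    simp only [h7] at t00 t01 t02 t10 t11 t12 t20 t21 t22 ⊢
    linarith
  have hcont1 : Continuous (fun x => 3 * K * (∑ i, (u x i - v x i)^2)) := by
    have h1 := hu.continuous
    have h2 := hv.continuous
    fun_prop
  have hcont2 : Continuous (fun x => ∑ j, dx j (F j) x) :=
    continuous_finsetSum _ (fun j _ => continuous_dx (hF j) j)
  have hcont3 : Continuous (fun x => ∑ i, (u x i - v x i) * a x i) := by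
    have h0 : (fun x => ∑ i, (u x i - v x i) * a x i) = fun x =>
      - (∑ i, ∑ j, w i x * w j x * dx j (fun y => u y i) x) + ∑ j, dx j (F j) x
        - ν * ∑ i, ∑ j, (dx j (w i) x)^2 := funext key
    rw [h0]
    refine ((Continuous.neg ?_).add hcont2).sub (continuous_const.mul ?_)
    · refine continuous_finsetSum _ (fun i _ => continuous_finsetSum _ (fun j _ => ?_))
      exact (((hw i).continuous).mul (hw j).continuous).mul
        (continuous_dx ((hu1 i).of_le (by norm_num)) j)
    · refine continuous_finsetSum _ (fun i _ => continuous_finsetSum _ (fun j _ => ?_))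
      exact ((hdw i j).continuous).pow 2
  have hI : ∀ {g : Pt → ℝ}, Continuous g → IntegrableOn g (Icc (0:Pt) 1) := fun hg =>
    hg.continuousOn.integrableOn_compact isCompact_Icc
  calc ∫ x in Icc (0:Pt) 1, ∑ i, (u x i - v x i) * a x i
      ≤ ∫ x in Icc (0:Pt) 1, (3 * K * (∑ i, (u x i - v x i)^2) + ∑ j, dx j (F j) x) :=
        integral_mono (hI hcont3) ((hI hcont1).add (hI hcont2)) hineq
    _ = (∫ x in Icc (0:Pt) 1, 3 * K * (∑ i, (u x i - v x i)^2)) +
          ∫ x in Icc (0:Pt) 1, ∑ j, dx j (F j) x := integral_add (hI hcont1) (hI hcont2)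
    _ = _ := by rw [integral_div F hF pF, add_zero, integral_const_mul]


lemma eq_zero_of_integral {g : Pt → ℝ} (hg : Continuous g) (h0 : ∀ x, 0 ≤ g x)
    (hp : Per3 g) (hI : ∫ x in Icc (0:Pt) 1, g x = 0) (x : Pt) : g x = 0 := by
  have h1 : g =ᵐ[volume.restrict (Icc (0:Pt) 1)] 0 :=
    (setIntegral_eq_zero_iff_of_nonneg_ae (Eventually.of_forall h0)
      (hg.continuousOn.integrableOn_compact isCompact_Icc)).mp hI
  have hsub : (Set.pi univ (fun _ : Fin 3 => Ioo (0:ℝ) 1)) ⊆ Icc (0:Pt) 1 := by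
    intro y hy
    exact ⟨fun i => (hy i (mem_univ i)).1.le, fun i => (hy i (mem_univ i)).2.le⟩
  have h2 : g =ᵐ[volume.restrict (Set.pi univ (fun _ : Fin 3 => Ioo (0:ℝ) 1))] 0 :=
    ae_restrict_of_ae_restrict_of_subset hsub h1
  have h3 : EqOn g 0 (Set.pi univ (fun _ : Fin 3 => Ioo (0:ℝ) 1)) :=
    Measure.eqOn_open_of_ae_eq h2 (isOpen_set_pi finite_univ (fun _ _ => isOpen_Ioo))
      hg.continuousOn continuousOn_const
  have h4 : EqOn g 0 (closure (Set.pi univ (fun _ : Fin 3 => Ioo (0:ℝ) 1))) :=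
    h3.closure hg continuous_const
  rw [closure_pi_set] at h4
  simp only [closure_Ioo (zero_ne_one' ℝ)] at h4
  rw [← periodic_fract hp x]
  apply h4
  intro i _
  exact ⟨Int.fract_nonneg _, (Int.fract_lt_one _).le⟩

lemma fderiv_eq_zero_of_dx {g : Pt → ℝ} (hg : Differentiable ℝ g) (h : ∀ x i, dx i g x = 0)
    (x : Pt) : fderiv ℝ g x = 0 := by
  ext y
  have h1 : ((fderiv ℝ g x : Pt →L[ℝ] ℝ) : Pt →ₗ[ℝ] ℝ) y = 0 := by
    rw [LinearMap.pi_apply_eq_sum_univ]
    apply Finset.sum_eq_zero
    intro i _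
    have h2 := h x i
    rw [dx_eq_fderiv (hg x)] at h2
    have h3 : (fun j => if i = j then (1:ℝ) else 0) = Pi.single i 1 := by
      funext j
      by_cases hij : i = j
      · subst hij; simp
      · simp [hij, Pi.single_apply, Ne.symm hij]
    rw [h3]
    simp only [ContinuousLinearMap.coe_coe, h2, smul_zero]
  simpa using h1

lemma volume_cube : (volume (Icc (0:Pt) 1)).toReal = 1 := by
  rw [Real.volume_Icc_pi]
  simp

lemma periodic_sub_fract {g : Pt → ℝ} (hp : Per3 g) {K : ℝ}
    (h : ∀ x ∈ Icc (0:Pt) 1, |g x| ≤ K) (x : Pt) : |g x| ≤ K := by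
  rw [← periodic_fract hp x]
  exact h _ ⟨fun i => Int.fract_nonneg _, fun i => (Int.fract_lt_one _).le⟩

/-- Classical solutions are unique. -/
theorem classical_unique {ν : ℝ} (hν : 0 ≤ ν) {f : ℝ → Pt → Pt} {T : ℝ} (hT : 0 < T)
    {u v : ℝ → Pt → Pt} {p q : ℝ → Pt → ℝ} (hu : CSol ν f T u p)
    (hv : CSol ν f T v q) :
    ∀ t ∈ Icc 0 T, v t = u t ∧ q t = p t := by
  -- bound on the gradient of `u`
  obtain ⟨K, hK⟩ : ∃ K, ∀ t ∈ Icc 0 T, ∀ x i j, |dx j (fun y => u t y i) x| ≤ K := by
    have hcpt : IsCompact (Icc (0:ℝ) T ×ˢ Icc (0:Pt) 1) := isCompact_Icc.prod isCompact_Icc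
    have h1 : ∀ i j, ∃ C, ∀ z ∈ Icc (0:ℝ) T ×ˢ Icc (0:Pt) 1,
        ‖dx j (fun y => u z.1 y i) z.2‖ ≤ C := fun i j =>
      hcpt.exists_bound_of_continuousOn ((hu.ux_cont i j).mono (prod_mono_right (subset_univ _)))
    choose C hC using h1
    refine ⟨∑ i, ∑ j, |C i j|, fun t ht x i j => ?_⟩
    refine periodic_sub_fract (periodic_dx (periodic_comp (hu.u_periodic t ht) i) j) ?_ x
    intro x hx
    have h2 := hC i j (t, x) ⟨ht, hx⟩
    have h3 : |C i j| ≤ ∑ j, |C i j| :=
      Finset.single_le_sum (f := fun j => |C i j|) (fun _ _ => abs_nonneg _) (Finset.mem_univ j)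
    have h4 : ∑ j, |C i j| ≤ ∑ i, ∑ j, |C i j| :=
      Finset.single_le_sum (f := fun i => ∑ j, |C i j|)
        (fun _ _ => Finset.sum_nonneg (fun _ _ => abs_nonneg _)) (Finset.mem_univ i)
    exact (h2.trans (le_abs_self _)).trans (h3.trans h4)
  let E : ℝ → ℝ := fun t => ∫ x in Icc (0:Pt) 1, ∑ i, (u t x i - v t x i)^2
  have hjc : ContinuousOn (fun z : ℝ × Pt => ∑ i, (u z.1 z.2 i - v z.1 z.2 i)^2)
      (Icc 0 T ×ˢ univ) := by
    apply continuousOn_finsetSum
    intro i _
    have h1 := continuousOn_pi.mp hu.u_cont i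
    have h2 := continuousOn_pi.mp hv.u_cont i
    exact (h1.sub h2).pow 2
  have hE : ContinuousOn E (Icc 0 T) := by
    rw [continuousOn_iff_continuous_domRestrict]
    let G : Icc (0:ℝ) T → Pt → ℝ := fun t x => ∑ i, (u t x i - v t x i)^2
    have hG : Continuous G.uncurry := by
      have : Continuous (fun z : Icc (0:ℝ) T × Pt => ((z.1 : ℝ), z.2)) := by fun_prop
      exact hjc.comp_continuous this (fun z => ⟨z.1.2, mem_univ _⟩)
    exact continuous_parametric_integral_of_continuous hG isCompact_Icc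
  have hutc : ContinuousOn (fun z : ℝ × Pt => ∑ i, 2 * (u z.1 z.2 i - v z.1 z.2 i) *
      (derivWithin (fun s => u s z.2) (Icc 0 T) z.1 i - derivWithin (fun s => v s z.2) (Icc 0 T) z.1 i))
      (Icc 0 T ×ˢ univ) := by
    apply continuousOn_finsetSum
    intro i _
    have h1 := continuousOn_pi.mp hu.u_cont i
    have h2 := continuousOn_pi.mp hv.u_cont i
    have h3 := continuousOn_pi.mp hu.ut_cont i
    have h4 := continuousOn_pi.mp hv.ut_cont i
    exact (continuousOn_const.mul (h1.sub h2)).mul (h3.sub h4)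
  have hderiv : ∀ {w : ℝ → Pt → Pt} {r : ℝ → Pt → ℝ}, CSol ν f T w r →
      ∀ t ∈ Ioo 0 T, ∀ x i, HasDerivAt (fun s => w s x i)
        (derivWithin (fun s => w s x) (Icc 0 T) t i) t := by
    intro w r hw t ht x i
    have h1 := (hw.u_time t ⟨ht.1.le, ht.2.le⟩ x).hasDerivWithinAt
    have h2 := h1.hasDerivAt (Icc_mem_nhds ht.1 ht.2)
    exact (hasDerivAt_pi.mp h2) i
  have hcomp : ∀ {w : ℝ → Pt → Pt} {r : ℝ → Pt → ℝ}, CSol ν f T w r →
      ∀ t ∈ Icc 0 T, ∀ x i, derivWithin (fun s => w s x i) (Icc 0 T) t =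
        derivWithin (fun s => w s x) (Icc 0 T) t i := by
    intro w r hw t ht x i
    have h1 := (hw.u_time t ht x).hasDerivWithinAt
    have h2 := (hasDerivWithinAt_pi.mp h1) i
    exact h2.derivWithin (uniqueDiffOn_Icc hT t ht)
  have hEd : ∀ t ∈ Ioo 0 T, HasDerivAt E (∫ x in Icc (0:Pt) 1, ∑ i, 2 * (u t x i - v t x i) *
      (derivWithin (fun s => u s x) (Icc 0 T) t i - derivWithin (fun s => v s x) (Icc 0 T) t i)) t := by
    intro t ht
    have hcpt : IsCompact (Icc (0:ℝ) T ×ˢ Icc (0:Pt) 1) := isCompact_Icc.prod isCompact_Icc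
    obtain ⟨C, hC⟩ := hcpt.exists_bound_of_continuousOn
      (hutc.mono (prod_mono_right (subset_univ _)))
    have hcx : ∀ s ∈ Icc 0 T, Continuous (fun x => ∑ i, (u s x i - v s x i)^2) := by
      intro s hs
      exact hjc.comp_continuous (f := fun x : Pt => (s, x)) (by fun_prop) (fun x => ⟨hs, mem_univ _⟩)
    refine (hasDerivAt_integral_of_dominated_loc_of_deriv_le (μ := volume.restrict (Icc (0:Pt) 1))
      (F := fun s x => ∑ i, (u s x i - v s x i)^2) (bound := fun _ => C)
      (F' := fun s x => ∑ i, 2 * (u s x i - v s x i) *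
      (derivWithin (fun s => u s x) (Icc 0 T) s i - derivWithin (fun s => v s x) (Icc 0 T) s i))
      (s := Ioo 0 T) (isOpen_Ioo.mem_nhds ht) ?_ ?_ ?_ ?_ ?_ ?_).2
    · filter_upwards [isOpen_Ioo.mem_nhds ht] with s hs
      exact (hcx s ⟨hs.1.le, hs.2.le⟩).aestronglyMeasurable
    · exact (hcx t ⟨ht.1.le, ht.2.le⟩).continuousOn.integrableOn_compact isCompact_Icc
    · have : Continuous (fun x => ∑ i, 2 * (u t x i - v t x i) *
        (derivWithin (fun s => u s x) (Icc 0 T) t i - derivWithin (fun s => v s x) (Icc 0 T) t i)) :=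
        hutc.comp_continuous (f := fun x : Pt => (t, x)) (by fun_prop)
          (fun x => ⟨⟨ht.1.le, ht.2.le⟩, mem_univ _⟩)
      exact this.aestronglyMeasurable
    · filter_upwards [ae_restrict_mem measurableSet_Icc] with x hx s hs
      exact hC (s, x) ⟨⟨hs.1.le, hs.2.le⟩, hx⟩
    · exact (continuous_const (y := C)).continuousOn.integrableOn_compact isCompact_Icc
    · filter_upwards with x s hs
      have h1 := hderiv hu s hs x
      have h2 := hderiv hv s hs x
      have h3 := HasDerivAt.fun_sum (u := Finset.univ) (fun i _ => ((h1 i).sub (h2 i)).pow 2)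
      refine (h3.congr_deriv ?_)
      apply Finset.sum_congr rfl
      intro i _
      simp
  have hEb : ∀ t ∈ Ioo 0 T, (∫ x in Icc (0:Pt) 1, ∑ i, 2 * (u t x i - v t x i) *
      (derivWithin (fun s => u s x) (Icc 0 T) t i - derivWithin (fun s => v s x) (Icc 0 T) t i))
      ≤ 6 * K * E t := by
    intro t ht
    have ht' : t ∈ Icc 0 T := ⟨ht.1.le, ht.2.le⟩
    have h1 := static_ineq ν K hν (u t) (v t) (p t) (q t) (hu.u_space t ht') (hv.u_space t ht')
      (hu.p_space t ht') (hv.p_space t ht') (hu.u_periodic t ht') (hv.u_periodic t ht')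
      (hu.p_periodic t ht') (hv.p_periodic t ht') (hu.div_free t ht') (hv.div_free t ht')
      (hK t ht')
      (fun x i => derivWithin (fun s => u s x) (Icc 0 T) t i -
        derivWithin (fun s => v s x) (Icc 0 T) t i) (by
        intro x i
        have e1 := hu.momentum t ht' x i
        have e2 := hv.momentum t ht' x i
        rw [hcomp hu t ht' x i] at e1
        rw [hcomp hv t ht' x i] at e2
        rw [Finset.sum_sub_distrib, Finset.sum_sub_distrib]
        linear_combination e1 - e2)
    have h2 : (∫ x in Icc (0:Pt) 1, ∑ i, 2 * (u t x i - v t x i) *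
      (derivWithin (fun s => u s x) (Icc 0 T) t i - derivWithin (fun s => v s x) (Icc 0 T) t i))
        = 2 * ∫ x in Icc (0:Pt) 1, ∑ i, (u t x i - v t x i) *
      (derivWithin (fun s => u s x) (Icc 0 T) t i - derivWithin (fun s => v s x) (Icc 0 T) t i) := by
      rw [← integral_const_mul]
      congr 1
      funext x
      rw [Finset.mul_sum]
      apply Finset.sum_congr rfl
      intro i _
      ring
    rw [h2]
    have h3 : E t = ∫ x in Icc (0:Pt) 1, ∑ i, (u t x i - v t x i)^2 := rfl
    rw [h3]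
    linarith
  have hE0 : E 0 = 0 := by
    have h1 : ∀ x, u 0 x = 0 := hu.from_rest
    have h2 : ∀ x, v 0 x = 0 := hv.from_rest
    simp only [E, h1, h2]
    simp
  have hEn : ∀ t, 0 ≤ E t := fun t => integral_nonneg (fun x => by positivity)
  have hg : AntitoneOn (fun t => E t * Real.exp (-(6*K)*t)) (Icc 0 T) := by
    have hexp : ∀ t, HasDerivAt (fun t => Real.exp (-(6*K)*t))
        (Real.exp (-(6*K)*t) * (-(6*K))) t := by
      intro t
      have h1 : HasDerivAt (fun t : ℝ => -(6*K)*t) (-(6*K)) t := by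
        simpa using (hasDerivAt_id t).const_mul (-(6*K))
      exact h1.exp
    apply antitoneOn_of_deriv_nonpos (convex_Icc 0 T)
    · exact hE.mul (by fun_prop)
    · rw [interior_Icc]
      intro t ht
      exact ((hEd t ht).mul (hexp t)).differentiableAt.differentiableWithinAt
    · rw [interior_Icc]
      intro t ht
      rw [((hEd t ht).fun_mul (hexp t)).deriv]
      have h1 := hEb t ht
      have h2 := Real.exp_pos (-(6*K)*t)
      nlinarith
  have hEz : ∀ t ∈ Icc 0 T, E t = 0 := by
    intro t ht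
    have h1 := hg (left_mem_Icc.mpr hT.le) ht ht.1
    simp only [hE0, zero_mul] at h1
    have h2 := Real.exp_pos (-(6*K)*t)
    have h3 := hEn t
    by_contra hne
    have h4 : 0 < E t := lt_of_le_of_ne h3 (Ne.symm hne)
    nlinarith
  have huv : ∀ t ∈ Icc 0 T, v t = u t := by
    intro t ht
    funext x i
    have h1 : Continuous (fun x => ∑ i, (u t x i - v t x i)^2) :=
      hjc.comp_continuous (f := fun x : Pt => (t, x)) (by fun_prop) (fun x => ⟨ht, mem_univ _⟩)
    have h2 : Per3 (fun x => ∑ i, (u t x i - v t x i)^2) := by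
      intro x j
      simp only []
      rw [hu.u_periodic t ht x j, hv.u_periodic t ht x j]
    have h3 := eq_zero_of_integral h1 (fun x => by positivity) h2 (hEz t ht) x
    rw [Finset.sum_eq_zero_iff_of_nonneg (fun _ _ => sq_nonneg _)] at h3
    have h4 := h3 i (Finset.mem_univ i)
    have h5 := pow_eq_zero_iff (two_ne_zero) |>.mp h4
    linarith
  intro t ht
  refine ⟨huv t ht, ?_⟩
  have hd : ∀ x i, dx i (fun y => q t y - p t y) x = 0 := by
    intro x i
    rw [dx_sub ((hv.p_space t ht).differentiable (by norm_num) x)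
      ((hu.p_space t ht).differentiable (by norm_num) x)]
    have e1 := hu.momentum t ht x i
    have e2 := hv.momentum t ht x i
    have e3 : derivWithin (fun s => v s x i) (Icc 0 T) t =
        derivWithin (fun s => u s x i) (Icc 0 T) t := by
      apply derivWithin_congr
      · intro s hs
        simp only []
        rw [huv s hs]
      · rw [huv t ht]
    rw [huv t ht, e3] at e2
    linarith
  have hdiff : Differentiable ℝ (fun y => q t y - p t y) :=
    ((hv.p_space t ht).differentiable (by norm_num)).sub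
      ((hu.p_space t ht).differentiable (by norm_num))
  have hconst := is_const_of_fderiv_eq_zero hdiff (fderiv_eq_zero_of_dx hdiff hd)
  have hIp : IntegrableOn (p t) (Icc (0:Pt) 1) :=
    (hu.p_space t ht).continuous.continuousOn.integrableOn_compact isCompact_Icc
  have hIq : IntegrableOn (q t) (Icc (0:Pt) 1) :=
    (hv.p_space t ht).continuous.continuousOn.integrableOn_compact isCompact_Icc
  have hint : ∫ x in Icc (0:Pt) 1, (q t x - p t x) = 0 := by
    rw [integral_sub hIq hIp, hv.p_mean t ht, hu.p_mean t ht, sub_zero]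
  funext x
  have h1 : ∀ y, q t y - p t y = q t x - p t x := fun y => hconst y x
  simp only [h1] at hint
  rw [integral_const] at hint
  simp only [MeasurableSet.univ, measureReal_restrict_apply, univ_inter, smul_eq_mul] at hint
  rw [measureReal_def, volume_cube, one_mul] at hint
  linarith

end Vale.Agent.P113
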