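import Vale.Agent.P113.Compute

/-!
Assembly of the construction.
-/

open Set

namespace Vale.Agent.P113

lemma exists_digits (A : Type) [Finite A] : ∃ (N : ℕ) (f : A → ℕ), Function.Injective f ∧
    ∀ a, f a < N := by
  obtain ⟨n, ⟨e⟩⟩ := Finite.exists_equiv_fin A
  exact ⟨n, fun a => e a, fun a b h => e.injective (Fin.ext h), fun a => (e a).isLt⟩

lemma exists_digits0 (A : Type) [Finite A] (b : A) : ∃ (N : ℕ) (f : A → ℕ),
    Function.Injective f ∧ (∀ a, f a < N) ∧ f b = 0 := by
  classical
  obtain ⟨N, f, hf, hN⟩ := exists_digits A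
  refine ⟨N + 1, fun a => if a = b then 0 else f a + 1, ?_, ?_, ?_⟩
  · intro x y h
    simp only at h
    by_cases hx : x = b <;> by_cases hy : y = b
    · rw [hx, hy]
    · simp [hx, hy] at h
    · simp [hx, hy] at h
    · simp only [hx, hy, if_false] at h
      exact hf (by omega)
  · intro a
    simp only
    split
    · omega
    · have := hN a; omega
  · simp

theorem main (ν : ℝ) (hν : 0 < ν) (hc : IsComputableReal ν) :
    ∃ (a : Pt) (O : Set Pt) (compile : Machine × List ℕ → Nat.Partrec.Code)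
      (f : Machine → List ℕ → Fin 3 → Field),
      IsOpen O ∧ (∀ x i, x + Pi.single i 1 ∈ O ↔ x ∈ O) ∧ IsForceCompiler compile f ∧
      ∀ M w, ∃ (u : Fin 3 → Field) (p : Field), (∀ i, Smooth (u i)) ∧ Smooth p ∧
        (∀ T, 0 < T → IsClassicalSolution ν (f M w) T u p ∧
          ∀ v q, IsClassicalSolution ν (f M w) T v q →
            ∀ t ∈ Icc 0 T, (∀ i, v i t = u i t) ∧ q t = p t) ∧
        ∃ X : ℝ → Pt, IsTrajectory u a X ∧
          (∀ X', IsTrajectory u a X' → ∀ t, 0 ≤ t → X' t = X t) ∧
          ((∃ t, 0 ≤ t ∧ X t ∈ O) ↔ Halts M w) := by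
  obtain ⟨Q, hQ, δ, q0, hδ⟩ := universal_TM0 hfun hfun_partrec
  obtain ⟨NC, dC, hC, bC⟩ := exists_digits (Ctl Q)
  obtain ⟨NS, dS, hS, bS, blank⟩ := exists_digits0 (SS Q UΓ) bk
  obtain ⟨NR, dR, hR, bR⟩ := exists_digits (Ctl Q × SS Q UΓ × SS Q UΓ)
  let m : Mach :=
    { Q := Q, Γ := UΓ, inh := inferInstance, fin := Fintype.ofFinite _, δ := δ
      B := NC + NS + NR + 2, hB := by omega, dC := dC, dS := dS, dR := dR
      hC := hC, hS := hS, hR := hR
      bC := fun c => by have := bC c; omega
      bS := fun c => by have := bS c; omega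
      bR := fun c => by have := bR c; omega
      blank := blank }
  let c0 : Machine × List ℕ → RCfg Q UΓ := fun x => rinit q0 (uinput (Encodable.encode x))
  let c : Machine × List ℕ → Pt := fun x => cinit (m := m) (c0 x)
  have hcc : ∀ i, CR (fun x => c x i) := by
    intro i
    fin_cases i
    · exact CR.const_rat (pt m.B (sx (m := m) (Ctl.run q0 0, [], [])))
    · have h1 : Computable (fun x : Machine × List ℕ =>
          (uinput (Encodable.encode x)).map (fun a => dS (Sum.inl a))) :=
        (uinput_computable (fun a => dS (Sum.inl a))).comp Computable.encode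
      refine (pt_cr m.hB h1).of_eq ?_
      intro x
      show _ = ((pt m.B (sy (m := m) (c0 x)) : ℚ) : ℝ)
      congr 2
      show _ = ((uinput (Encodable.encode x)).map Sum.inl).map dS
      rw [List.map_map]
      rfl
    · exact (CR.const_rat 0).of_eq (fun x => by simp [c, cinit, pnt])
  obtain ⟨F, hF, hF'⟩ := compiler (S := m.S) Mach.S_good hcc hc
  refine ⟨0, Oset, F, fun M w i t x => force ν m.S (c (M, w)) t x i, Oset_open, Oset_periodic,
    ?_, ?_⟩
  · refine ⟨hF, fun M w i => ?_, fun M w i t x j => ?_, fun M w => hF' (M, w),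
      1, fun M => ⟨1, one_pos, fun w i t ht => ⟨?_, fun w' => ?_⟩⟩⟩
    · exact contDiff_pi.mp (force_contDiff Mach.S_good ν (c (M, w))) i
    · exact congrFun (force_periodic Mach.S_good ν (c (M, w)) t x j) i
    · exact congrArg (fun (g : Pt → Pt) (x : Pt) => g x i)
        (force_time_periodic (S := m.S) ν (c (M, w)) ht)
    · exact congrArg (fun (g : Pt → Pt) (x : Pt) => g x i)
        (force_after (S := m.S) ν (c (M, w')) (c (M, w)) ht)
  · intro M w
    refine ⟨fun i t x => vel m.S (c (M, w)) t x i, fun _ _ => 0, fun i => ?_, contDiff_const,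
      fun T hT => ?_, Xt m.S (c (M, w)), ?_, ?_, ?_⟩
    · exact contDiff_pi.mp (vel_contDiff Mach.S_good (c (M, w))) i
    · have hsol := vel_solution (S := m.S) Mach.S_good ν (c (M, w)) hT
      refine ⟨of_CSol hT hsol, fun v q hv t ht => ?_⟩
      obtain ⟨h1, h2⟩ := classical_unique hν.le hT hsol (CSol_of hT hv) t ht
      exact ⟨fun i => congrArg (fun (g : Pt → Pt) (x : Pt) => g x i) h1, h2⟩
    · exact Trj_iff.mpr (Xt_trajectory Mach.S_good _)
    · intro X' hX'
      have h1 : ContDiff ℝ 1 (fun z : ℝ × Pt => vel m.S (c (M, w)) z.1 z.2) := by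
        have := (contDiff_infty.mp (vel_contDiff (S := m.S) Mach.S_good (c (M, w)))) 1
        exact_mod_cast this
      exact traj_unique h1 (Xt_trajectory Mach.S_good _) (Trj_iff.mp hX')
    · rw [hits_iff (m := m) (c0 (M, w))]
      rw [← hfun_dom, ← hδ]
      exact rstep_halts δ q0 (uinput (Encodable.encode (M, w)))

end Vale.Agent.P113
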