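import Vale.Agent.P113.Terms

/-!
The flow built from nine shears.
-/

open Set Filter Topology MeasureTheory

namespace Vale.Agent.P113

/-- a shear in direction `dir` -/
structure Sh where
  dir : Fin 3
  terms : List (Fin 3 → ℕ → ℝ → ℝ)

noncomputable def pr (f : Fin 3 → ℕ → ℝ → ℝ) (a b c : ℕ) (x : Pt) : ℝ :=
  f 0 a (x 0) * f 1 b (x 1) * f 2 c (x 2)

noncomputable def Sh.D (S : Sh) (a b c : ℕ) (x : Pt) : ℝ :=
  (S.terms.map (fun f => pr f a b c x)).sum

noncomputable def Sh.val (S : Sh) (x : Pt) : ℝ := S.D 0 0 0 x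

structure Sh.Good (S : Sh) : Prop where
  tw : ∀ f ∈ S.terms, ∀ i, IsTw (f i)
  per : ∀ f ∈ S.terms, ∀ i k x, f i k (x+1) = f i k x
  ind : ∀ f ∈ S.terms, f S.dir = oneTw
  crt : ∀ f ∈ S.terms, ∀ i, CRT (f i)

/-! ### time factors -/

noncomputable def tL (j : ℕ) : List Atom := [(1, 1, 18, -(2*j + 1/2))]

noncomputable def psi (j : ℕ) : ℕ → ℝ → ℝ := dTw (ev (tL j))

noncomputable def Phi (j : ℕ) : ℕ → ℝ → ℝ := subTw (perf (psi j)) (psi j)

noncomputable def td (s : ℝ) : ℝ := 2 * WD 2 (2*s - 1/2)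

noncomputable def ts (s : ℝ) : ℝ := WD 1 (2*s - 1/2)

lemma psi_apply (j k : ℕ) (t : ℝ) : psi j k t = 18^(k+1) * WD (k+2) (18*t - (2*j + 1/2)) := by
  unfold psi dTw ev tL at1
  simp only [List.map_cons, List.map_nil, List.sum_cons, List.sum_nil]
  push_cast
  rw [add_zero, one_mul]
  congr 2
  · ring

lemma psi_supp (j : ℕ) (hj : j < 9) : Supp (psi j) (1/36) := by
  have hj' : (j:ℝ) ≤ 8 := by exact_mod_cast Nat.lt_succ_iff.mp hj
  have hj0 : (0:ℝ) ≤ j := by positivity
  refine ⟨by norm_num, by norm_num, fun k x hx => ?_, fun k x hx => ?_⟩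
  · rw [psi_apply, WD_nonpos _ (by linarith)]; ring
  · rw [psi_apply, WD_ge _ (by linarith)]; ring

lemma psi_isTw (j : ℕ) : IsTw (psi j) := dTw_isTw (ev_isTw _)

lemma Phi_isTw (j : ℕ) (hj : j < 9) : IsTw (Phi j) :=
  subTw_isTw (perf_isTw (psi_isTw j) (psi_supp j hj)) (psi_isTw j)

lemma psi_crt (j : ℕ) : CRT (psi j) := dTw_crt (ev_crt _)

lemma Phi_crt (j : ℕ) : CRT (Phi j) := subTw_crt (perf_crt (psi_crt j)) (psi_crt j)

lemma td_left {s : ℝ} (h : s ≤ 1/4) : td s = 0 := by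
  unfold td; rw [WD_nonpos _ (by linarith)]; ring

lemma td_right {s : ℝ} (h : 3/4 ≤ s) : td s = 0 := by
  unfold td
  have : WD 2 (2*s - 1/2) = 0 := WD_ge 0 (by linarith)
  rw [this]; ring

lemma psi_zero (j : ℕ) (t : ℝ) : psi j 0 t = 9 * td (9*t - j) := by
  rw [psi_apply]; unfold td
  have : 18*t - (2*(j:ℝ) + 1/2) = 2*(9*t - j) - 1/2 := by ring
  rw [this]; ring

/-- the index of the window of the time `t` -/
noncomputable def win (t : ℝ) : ℕ := ⌊9*t⌋₊

lemma win_le {t : ℝ} (ht : 0 ≤ t) : (win t : ℝ) ≤ 9*t := Nat.floor_le (by positivity)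

lemma lt_win (t : ℝ) : 9*t < win t + 1 := Nat.lt_floor_add_one _

lemma psi_win {t : ℝ} (ht : 0 ≤ t) (j : ℕ) :
    psi j 0 t = if win t = j then 9 * td (9*t - win t) else 0 := by
  have h1 := win_le ht
  have h2 := lt_win t
  rw [psi_zero]
  by_cases h : win t = j
  · rw [if_pos h, h]
  · rw [if_neg h]
    rcases lt_or_gt_of_ne h with h3 | h3
    · have : (win t : ℝ) + 1 ≤ j := by exact_mod_cast h3
      rw [td_left (by linarith)]; ring
    · have : (j : ℝ) + 1 ≤ win t := by exact_mod_cast h3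
      rw [td_right (by linarith)]; ring

lemma Phi_win {t : ℝ} (ht : 0 ≤ t) (j : ℕ) (hj : j < 9) :
    Phi j 0 t = if 9 ≤ win t ∧ win t % 9 = j then 9 * td (9*t - win t) else 0 := by
  have h1 := win_le ht
  have h2 := lt_win t
  unfold Phi subTw perf
  rw [psi_win ht, psi_zero]
  have h3 : 9 * (win t / 9) + win t % 9 = win t := Nat.div_add_mod _ _
  have h4 : win t % 9 < 9 := Nat.mod_lt _ (by norm_num)
  have h5 : 9 * ((win t / 9 : ℕ) : ℝ) + ((win t % 9 : ℕ) : ℝ) = win t := by exact_mod_cast h3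
  have h6 : ((win t % 9 : ℕ) : ℝ) + 1 ≤ 9 := by exact_mod_cast h4
  have h7 : (0:ℝ) ≤ ((win t % 9 : ℕ) : ℝ) := by positivity
  have hfl : ⌊t⌋ = ((win t / 9 : ℕ) : ℤ) := by
    rw [Int.floor_eq_iff, Int.cast_natCast]
    constructor <;> linarith
  have hfr : 9 * Int.fract t - j = 9*t - win t + (((win t % 9 : ℕ) : ℝ) - j) := by
    rw [Int.fract, hfl, Int.cast_natCast]; linarith
  rw [hfr]
  by_cases h : win t % 9 = j
  · rw [h, sub_self, add_zero]
    by_cases h6 : 9 ≤ win t
    · have h7 : ¬ win t = j := by omega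
      rw [if_neg h7, if_pos ⟨h6, rfl⟩]; ring
    · have h7 : win t = j := by omega
      rw [if_pos h7, if_neg (by tauto)]; ring
  · have h7 : ¬ win t = j := by omega
    rw [if_neg h7, if_neg (by tauto)]
    rcases lt_or_gt_of_ne h with h8 | h8
    · have : (((win t % 9 : ℕ) : ℝ)) + 1 ≤ j := by exact_mod_cast h8
      rw [td_left (by linarith)]; ring
    · have : (j : ℝ) + 1 ≤ ((win t % 9 : ℕ) : ℝ) := by exact_mod_cast h8
      rw [td_right (by linarith)]; ring

/-! ### the velocity -/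

/-- the terms of the `i`-th component of the velocity -/
noncomputable def UL (S : Fin 9 → Sh) (i : Fin 3) : List Tm :=
  (List.finRange 9).flatMap (fun j => if (S j).dir = i then
    (S j).terms.map (fun f => (⟨1, Phi j, f⟩ : Tm)) else [])

noncomputable def tc (c : ℝ) : Tm := ⟨c, psi 0, fun _ => oneTw⟩

noncomputable def U (S : Fin 9 → Sh) (c : Pt) (i : Fin 3) : List Tm := tc (c i) :: UL S i

variable {S : Fin 9 → Sh} (hS : ∀ j, (S j).Good)

include hS

lemma UL_good (i : Fin 3) : ∀ τ ∈ UL S i, τ.Good := by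
  intro τ hτ
  unfold UL at hτ
  rw [List.mem_flatMap] at hτ
  obtain ⟨j, -, hj⟩ := hτ
  split at hj
  · rw [List.mem_map] at hj
    obtain ⟨f, hf, rfl⟩ := hj
    exact ⟨Phi_isTw j j.2, (hS j).tw f hf, (hS j).per f hf⟩
  · simp at hj

lemma UL_comp (i : Fin 3) : ∀ τ ∈ UL S i, τ.Comp := by
  intro τ hτ
  unfold UL at hτ
  rw [List.mem_flatMap] at hτ
  obtain ⟨j, -, hj⟩ := hτ
  split at hj
  · rw [List.mem_map] at hj
    obtain ⟨f, hf, rfl⟩ := hj
    exact ⟨Phi_crt j, (hS j).crt f hf⟩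
  · simp at hj

omit hS in
lemma tc_good (c : ℝ) : (tc c).Good :=
  ⟨psi_isTw 0, fun _ => oneTw_isTw, fun _ _ _ => rfl⟩

omit hS in
lemma tc_comp (c : ℝ) : (tc c).Comp := ⟨psi_crt 0, fun _ => oneTw_crt⟩

lemma U_good (c : Pt) (i : Fin 3) : ∀ τ ∈ U S c i, τ.Good := by
  intro τ hτ
  rcases List.mem_cons.mp hτ with rfl | h
  · exact tc_good _
  · exact UL_good hS i τ h

omit hS in
lemma sval_UL (n : Fin 4 → ℕ) (t : ℝ) (x : Pt) (i : Fin 3) :
    sval (UL S i) n t x =
      ∑ j : Fin 9, (if (S j).dir = i then Phi j (n 0) t * (S j).D (n 1) (n 2) (n 3) x else 0) := by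
  unfold UL
  rw [← List.sum_ofFn, ← List.ofFn_id]
  have : ∀ l : List (Fin 9), sval (l.flatMap (fun j => if (S j).dir = i then
    (S j).terms.map (fun f => (⟨1, Phi j, f⟩ : Tm)) else [])) n t x =
      (l.map (fun j => if (S j).dir = i then Phi j (n 0) t * (S j).D (n 1) (n 2) (n 3) x else 0)).sum := by
    intro l
    induction l with
    | nil => simp [sval]
    | cons j l ih =>
      rw [List.flatMap_cons, sval_append, ih, List.map_cons, List.sum_cons]
      congr 1
      split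
      · unfold Sh.D
        generalize (S j).terms = L
        induction L with
        | nil => simp [sval]
        | cons f L ih2 =>
          simp only [List.map_cons, sval_cons, List.sum_cons]
          rw [ih2, mul_add]
          congr 1
          simp [Tm.val, pr]
      · simp [sval]
  rw [this, List.map_ofFn]
  congr 1

omit hS in
lemma sval_U (c : Pt) (n : Fin 4 → ℕ) (t : ℝ) (x : Pt) (i : Fin 3) :
    sval (U S c i) n t x =
      c i * (psi 0 (n 0) t * (oneTw (n 1) (x 0) * oneTw (n 2) (x 1) * oneTw (n 3) (x 2))) +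
      ∑ j : Fin 9, (if (S j).dir = i then Phi j (n 0) t * (S j).D (n 1) (n 2) (n 3) x else 0) := by
  unfold U
  rw [sval_cons, sval_UL]
  rfl

/-- the velocity field -/
noncomputable def vel (S : Fin 9 → Sh) (c : Pt) (t : ℝ) (x : Pt) : Pt := fun i => sval (U S c i) 0 t x

/-- the force -/
noncomputable def force (ν : ℝ) (S : Fin 9 → Sh) (c : Pt) (t : ℝ) (x : Pt) : Pt := fun i =>
  sval (U S c i) (Pi.single 0 1) t x - ν * ∑ k : Fin 3, sval (U S c i) (Pi.single k.succ 2) t x

/-- the derivatives of a shear profile along its direction vanish -/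
lemma D_dir_zero (j : Fin 9) (n : Fin 4 → ℕ) (h : n (S j).dir.succ ≠ 0) (x : Pt) :
    (S j).D (n 1) (n 2) (n 3) x = 0 := by
  unfold Sh.D
  apply List.sum_eq_zero
  intro y hy
  rw [List.mem_map] at hy
  obtain ⟨f, hf, rfl⟩ := hy
  have h1 := (hS j).ind f hf
  unfold pr
  revert h h1
  generalize (S j).dir = d
  intro h h1
  fin_cases d
  · have h2 : f 0 = oneTw := h1
    have h3 : n 1 ≠ 0 := h
    rw [h2]; simp [oneTw, h3]
  · have h2 : f 1 = oneTw := h1
    have h3 : n 2 ≠ 0 := h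
    rw [h2]; simp [oneTw, h3]
  · have h2 : f 2 = oneTw := h1
    have h3 : n 3 ≠ 0 := h
    rw [h2]; simp [oneTw, h3]

/-- the displacement field of the `m`-th window -/
noncomputable def dsp (S : Fin 9 → Sh) (c : Pt) (m : ℕ) (x : Pt) : Pt :=
  if m = 0 then c else if m < 9 then 0 else
    Pi.single (S ⟨m % 9, Nat.mod_lt _ (by norm_num)⟩).dir
      ((S ⟨m % 9, Nat.mod_lt _ (by norm_num)⟩).val x)

omit hS in
lemma vel_eq (c : Pt) {t : ℝ} (ht : 0 ≤ t) (x : Pt) :
    vel S c t x = (9 * td (9*t - win t)) • dsp S c (win t) x := by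
  funext i
  simp only [vel, sval_U, Pi.zero_apply, Pi.smul_apply, smul_eq_mul]
  rw [psi_win ht]
  have h1 : ∀ j : Fin 9, (if (S j).dir = i then Phi (j:ℕ) 0 t * (S j).D 0 0 0 x else 0) =
      if (9 ≤ win t ∧ win t % 9 = (j:ℕ)) ∧ (S j).dir = i then
        9 * td (9*t - win t) * (S j).val x else 0 := by
    intro j
    rw [Phi_win ht j j.2]
    by_cases h2 : (S j).dir = i
    · by_cases h3 : 9 ≤ win t ∧ win t % 9 = (j:ℕ)
      · rw [if_pos h2, if_pos h3, if_pos ⟨h3, h2⟩]; rfl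
      · rw [if_pos h2, if_neg h3, if_neg (by tauto)]; ring
    · rw [if_neg h2, if_neg (by tauto)]
  rw [Finset.sum_congr rfl (fun j _ => h1 j)]
  unfold dsp
  by_cases h0 : win t = 0
  · rw [if_pos h0, if_pos h0]
    have : ∑ j : Fin 9, (if (9 ≤ win t ∧ win t % 9 = (j:ℕ)) ∧ (S j).dir = i then
        9 * td (9*t - win t) * (S j).val x else 0) = 0 := by
      apply Finset.sum_eq_zero
      intro j _
      rw [if_neg (by omega)]
    rw [this]
    simp [oneTw]; ring
  · rw [if_neg h0, if_neg h0]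
    by_cases h9 : win t < 9
    · rw [if_pos h9]
      have : ∑ j : Fin 9, (if (9 ≤ win t ∧ win t % 9 = (j:ℕ)) ∧ (S j).dir = i then
          9 * td (9*t - win t) * (S j).val x else 0) = 0 := by
        apply Finset.sum_eq_zero
        intro j _
        rw [if_neg (by omega)]
      rw [this]
      simp
    · rw [if_neg h9]
      rw [Finset.sum_eq_single (⟨win t % 9, Nat.mod_lt _ (by norm_num)⟩ : Fin 9)]
      · by_cases h2 : (S ⟨win t % 9, Nat.mod_lt _ (by norm_num)⟩).dir = i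
        · subst h2
          rw [if_pos ⟨⟨by omega, rfl⟩, rfl⟩, Pi.single_eq_same]; ring
        · rw [if_neg (by tauto), Pi.single_eq_of_ne (Ne.symm h2)]; ring
      · intro j _ hj
        rw [if_neg]
        rintro ⟨⟨-, h3⟩, -⟩
        exact hj (Fin.ext h3.symm)
      · intro h; exact absurd (Finset.mem_univ _) h

end Vale.Agent.P113
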