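import Vale.Agent.P113.Solution
import Vale.Agent.P113.Digits

/-!
The nine shears simulating a reversible two-stack machine.
-/

open Turing

namespace Vale.Agent.P113

/-! ### shears in direction `z` -/

section
variable {R : Type} [Fintype R]

noncomputable def zsh (P : R → List Atom × List Atom) : Sh :=
  ⟨2, (Finset.univ : Finset R).toList.map
    (fun r => ![perf (ev (P r).1), perf (ev (P r).2), oneTw])⟩

structure PGood (P : R → List Atom × List Atom) : Prop where
  s1 : ∀ r, ∃ d, Supp (ev (P r).1) d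
  s2 : ∀ r, ∃ d, Supp (ev (P r).2) d

lemma zsh_good {P : R → List Atom × List Atom} (h : PGood P) : (zsh P).Good := by
  have key : ∀ f ∈ (zsh P).terms, ∃ r, f = ![perf (ev (P r).1), perf (ev (P r).2), oneTw] := by
    intro f hf
    unfold zsh at hf
    simp only [List.mem_map] at hf
    obtain ⟨r, -, rfl⟩ := hf
    exact ⟨r, rfl⟩
  refine ⟨?_, ?_, ?_, ?_⟩
  · intro f hf i
    obtain ⟨r, rfl⟩ := key f hf
    obtain ⟨d1, h1⟩ := h.s1 r
    obtain ⟨d2, h2⟩ := h.s2 r
    fin_cases i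
    · exact perf_isTw (ev_isTw _) h1
    · exact perf_isTw (ev_isTw _) h2
    · exact oneTw_isTw
  · intro f hf i k x
    obtain ⟨r, rfl⟩ := key f hf
    fin_cases i
    · exact perf_add_one (ev (P r).1) k x
    · exact perf_add_one (ev (P r).2) k x
    · rfl
  · intro f hf
    obtain ⟨r, rfl⟩ := key f hf
    rfl
  · intro f hf i
    obtain ⟨r, rfl⟩ := key f hf
    fin_cases i
    · exact perf_crt (ev_crt _)
    · exact perf_crt (ev_crt _)
    · exact oneTw_crt

lemma zsh_val (P : R → List Atom × List Atom) (x : Pt) (h0 : 0 ≤ x 0 ∧ x 0 < 1)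
    (h1 : 0 ≤ x 1 ∧ x 1 < 1) :
    (zsh P).val x = ∑ r, ev (P r).1 0 (x 0) * ev (P r).2 0 (x 1) := by
  unfold Sh.val Sh.D zsh
  simp only [List.map_map]
  rw [Finset.sum_map_toList]
  apply Finset.sum_congr rfl
  intro r _
  have e0 : Int.fract (x 0) = x 0 := Int.fract_eq_self.mpr ⟨h0.1, h0.2⟩
  have e1 : Int.fract (x 1) = x 1 := Int.fract_eq_self.mpr ⟨h1.1, h1.2⟩
  simp [pr, perf, oneTw, e0, e1]

end

/-! ### shears transferring `z` to another coordinate -/

noncomputable def hTw : ℕ → ℝ → ℝ := shf (1/2) (perf (ev (bump 8 (1/4) (3/4) 1 (-1/2))))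

lemma bump8_supp : Supp (ev (bump 8 (1/4) (3/4) 1 (-1/2))) (1/8) := by
  refine ⟨by norm_num, by norm_num, fun k x hx => ?_, fun k x hx => ?_⟩
  · exact bump_left (by norm_num) (by norm_num) (by push_cast; linarith) k
  · exact bump_right (by norm_num) (by norm_num) (by push_cast; linarith) k

lemma hTw_isTw : IsTw hTw := shf_isTw (perf_isTw (ev_isTw _) bump8_supp) _

lemma hTw_crt : CRT hTw := shf_crt (perf_crt (ev_crt _)) _

lemma hTw_add_one (k : ℕ) (x : ℝ) : hTw k (x+1) = hTw k x := by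
  unfold hTw shf
  rw [add_right_comm, perf_add_one]

lemma hTw_mid {z : ℝ} (h1 : -(1/4) ≤ z) (h2 : z ≤ 1/4) : hTw 0 z = z := by
  unfold hTw shf perf
  have e : Int.fract (z + ((1/2 : ℚ) : ℝ)) = z + 1/2 := by
    push_cast
    exact Int.fract_eq_self.mpr ⟨by linarith, by linarith⟩
  rw [e, bump_mid (by norm_num) (by push_cast; linarith) (by push_cast; linarith)]
  push_cast; ring

noncomputable def hsh (d : Fin 3) : Sh := ⟨d, [fun i => if i = 2 then hTw else oneTw]⟩

lemma hsh_good (d : Fin 3) (hd : d ≠ 2) : (hsh d).Good := by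
  have key : ∀ f ∈ (hsh d).terms, f = fun i => if i = 2 then hTw else oneTw := by
    intro f hf
    simpa [hsh] using hf
  refine ⟨?_, ?_, ?_, ?_⟩
  · intro f hf i
    rw [key f hf]
    by_cases h : i = 2
    · simp only [h, if_true]; exact hTw_isTw
    · simp only [h, if_false]; exact oneTw_isTw
  · intro f hf i k x
    rw [key f hf]
    by_cases h : i = 2
    · simp only [h, if_true]; exact hTw_add_one k x
    · simp only [h, if_false]; rfl
  · intro f hf
    rw [key f hf]
    have : (hsh d).dir = d := rfl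
    rw [this]
    simp only [hd, if_false]
  · intro f hf i
    rw [key f hf]
    by_cases h : i = 2
    · simp only [h, if_true]; exact hTw_crt
    · simp only [h, if_false]; exact oneTw_crt

lemma hsh_val (d : Fin 3) (x : Pt) (h1 : -(1/4) ≤ x 2) (h2 : x 2 ≤ 1/4) :
    (hsh d).val x = x 2 := by
  unfold Sh.val Sh.D hsh pr
  simp [oneTw, hTw_mid h1 h2]

/-! ### the machine -/

/-- a machine with digit codes -/
structure Mach where
  Q : Type
  Γ : Type
  inh : Inhabited Γ
  fin : Fintype (Ctl Q × SS Q Γ × SS Q Γ)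
  δ : Q → Γ → Option (Q × TM0.Stmt Γ)
  B : ℕ
  hB : 2 ≤ B
  dC : Ctl Q → ℕ
  dS : SS Q Γ → ℕ
  dR : Ctl Q × SS Q Γ × SS Q Γ → ℕ
  hC : Function.Injective dC
  hS : Function.Injective dS
  hR : Function.Injective dR
  bC : ∀ c, dC c + 2 ≤ B
  bS : ∀ c, dS c + 2 ≤ B
  bR : ∀ c, dR c + 2 ≤ B
  blank : dS bk = 0

variable (m : Mach)

instance : Inhabited m.Γ := m.inh

abbrev Mach.Rr := Ctl m.Q × SS m.Q m.Γ × SS m.Q m.Γ

instance : Fintype m.Rr := m.fin

def Mach.wx (r : m.Rr) : List ℕ := [m.dC r.1, m.dS r.2.1]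
def Mach.wy (r : m.Rr) : List ℕ := [m.dS r.2.2]
def Mach.wr (r : m.Rr) : List ℕ := [m.dR r]

def Mach.nx (r : m.Rr) : Option (Ctl m.Q × List (SS m.Q m.Γ) × List (SS m.Q m.Γ)) :=
  nxt m.δ r.1 r.2.1 r.2.2

def Mach.P0 (r : m.Rr) : List Atom × List Atom :=
  match m.nx r with
  | none => (cyl m.B (m.wx r) 0 (1/2), cyl m.B (m.wy r) 0 1)
  | some _ => (disp m.B (m.wx r) (m.wr r), cyl m.B (m.wy r) 0 1)

def Mach.P2 (r : m.Rr) : List Atom × List Atom :=
  match m.nx r with
  | none => ([], [])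
  | some _ => (disp m.B (m.wr r) (m.wx r), cyl m.B (m.wy r) 0 1)

def Mach.P3 (r : m.Rr) : List Atom × List Atom :=
  match m.nx r with
  | none => ([], [])
  | some y => (cyl m.B (m.wr r) 0 1, disp m.B (m.wy r) (y.2.2.map m.dS))

def Mach.P5 (r : m.Rr) : List Atom × List Atom :=
  match m.nx r with
  | none => ([], [])
  | some y => (cyl m.B (m.wr r) 0 1, disp m.B (y.2.2.map m.dS) (m.wy r))

def Mach.P6 (r : m.Rr) : List Atom × List Atom :=
  match m.nx r with
  | none => ([], [])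
  | some y => (disp m.B (m.wr r) (m.dC y.1 :: y.2.1.map m.dS), cyl m.B (y.2.2.map m.dS) 0 1)

def Mach.P8 (r : m.Rr) : List Atom × List Atom :=
  match m.nx r with
  | none => ([], [])
  | some y => (disp m.B (m.dC y.1 :: y.2.1.map m.dS) (m.wr r), cyl m.B (y.2.2.map m.dS) 0 1)

/-- the nine shears -/
noncomputable def Mach.S : Fin 9 → Sh :=
  ![zsh m.P0, hsh 0, zsh m.P2, zsh m.P3, hsh 1, zsh m.P5, zsh m.P6, hsh 0, zsh m.P8]

variable {m}

lemma Mach.valid_dS (l : List (SS m.Q m.Γ)) : Valid m.B (l.map m.dS) := by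
  intro d hd
  rw [List.mem_map] at hd
  obtain ⟨s, -, rfl⟩ := hd
  exact m.bS s

lemma Mach.valid_cons {c : Ctl m.Q} (l : List (SS m.Q m.Γ)) : Valid m.B (m.dC c :: l.map m.dS) := by
  intro d hd
  rcases List.mem_cons.mp hd with rfl | h
  · exact m.bC c
  · exact m.valid_dS l d h

lemma Mach.valid_wx (r : m.Rr) : Valid m.B (m.wx r) := by
  intro d hd
  simp only [Mach.wx, List.mem_cons, List.not_mem_nil, or_false] at hd
  rcases hd with rfl | rfl
  · exact m.bC _
  · exact m.bS _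

lemma Mach.valid_wy (r : m.Rr) : Valid m.B (m.wy r) := by
  intro d hd
  simp only [Mach.wy, List.mem_cons, List.not_mem_nil, or_false] at hd
  rw [hd]; exact m.bS _

lemma Mach.valid_wr (r : m.Rr) : Valid m.B (m.wr r) := by
  intro d hd
  simp only [Mach.wr, List.mem_cons, List.not_mem_nil, or_false] at hd
  rw [hd]; exact m.bR _

lemma nil_supp : Supp (ev []) (1/8) :=
  ⟨by norm_num, by norm_num, fun _ _ _ => rfl, fun _ _ _ => rfl⟩

lemma cyl_s {u : List ℕ} (hu : Valid m.B u) (α β : ℚ) : ∃ d, Supp (ev (cyl m.B u α β)) d :=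
  ⟨_, cyl_supp m.hB hu α β⟩

lemma disp_s {u : List ℕ} (hu : Valid m.B u) (u' : List ℕ) : ∃ d, Supp (ev (disp m.B u u')) d :=
  ⟨_, cyl_supp m.hB hu _ _⟩

lemma Mach.P0_good : PGood m.P0 := by
  constructor <;> intro r <;> unfold Mach.P0 <;> rcases m.nx r with _ | y
  · exact cyl_s (m.valid_wx r) _ _
  · exact disp_s (m.valid_wx r) _
  · exact cyl_s (m.valid_wy r) _ _
  · exact cyl_s (m.valid_wy r) _ _

lemma Mach.P2_good : PGood m.P2 := by
  constructor <;> intro r <;> unfold Mach.P2 <;> rcases m.nx r with _ | y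
  · exact ⟨_, nil_supp⟩
  · exact disp_s (m.valid_wr r) _
  · exact ⟨_, nil_supp⟩
  · exact cyl_s (m.valid_wy r) _ _

lemma Mach.P3_good : PGood m.P3 := by
  constructor <;> intro r <;> unfold Mach.P3 <;> rcases m.nx r with _ | y
  · exact ⟨_, nil_supp⟩
  · exact cyl_s (m.valid_wr r) _ _
  · exact ⟨_, nil_supp⟩
  · exact disp_s (m.valid_wy r) _

lemma Mach.P5_good : PGood m.P5 := by
  constructor <;> intro r <;> unfold Mach.P5 <;> rcases m.nx r with _ | y
  · exact ⟨_, nil_supp⟩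
  · exact cyl_s (m.valid_wr r) _ _
  · exact ⟨_, nil_supp⟩
  · exact disp_s (m.valid_dS y.2.2) _

lemma Mach.P6_good : PGood m.P6 := by
  constructor <;> intro r <;> unfold Mach.P6 <;> rcases m.nx r with _ | y
  · exact ⟨_, nil_supp⟩
  · exact disp_s (m.valid_wr r) _
  · exact ⟨_, nil_supp⟩
  · exact cyl_s (m.valid_dS y.2.2) _ _

lemma Mach.P8_good : PGood m.P8 := by
  constructor <;> intro r <;> unfold Mach.P8 <;> rcases m.nx r with _ | y
  · exact ⟨_, nil_supp⟩
  · exact disp_s (m.valid_cons y.2.1) _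
  · exact ⟨_, nil_supp⟩
  · exact cyl_s (m.valid_dS y.2.2) _ _

lemma Mach.S_good (j : Fin 9) : (m.S j).Good := by
  fin_cases j
  · exact zsh_good m.P0_good
  · exact hsh_good 0 (by decide)
  · exact zsh_good m.P2_good
  · exact zsh_good m.P3_good
  · exact hsh_good 1 (by decide)
  · exact zsh_good m.P5_good
  · exact zsh_good m.P6_good
  · exact hsh_good 0 (by decide)
  · exact zsh_good m.P8_good

/-! ### one cycle of the flow -/

/-- the point `(pt s, pt s', z)` -/
noncomputable def pnt (m : Mach) (s s' : List ℕ) (z : ℝ) : Pt := ![(pt m.B s : ℝ), (pt m.B s' : ℝ), z]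

lemma pt_bounds {s : List ℕ} (hs : Valid m.B s) : (1/4 : ℝ) ≤ pt m.B s ∧ (pt m.B s : ℝ) ≤ 1/2 := by
  obtain ⟨h1, h2⟩ := pt_mem m.hB hs
  have h3 := (Rat.cast_le (K := ℝ)).mpr h1
  have h4 := (Rat.cast_le (K := ℝ)).mpr h2
  push_cast at h3 h4
  exact ⟨h3, h4⟩

lemma zsh_pnt (P : m.Rr → List Atom × List Atom) {s s' : List ℕ} (hs : Valid m.B s)
    (hs' : Valid m.B s') (z : ℝ) :
    (zsh P).val (pnt m s s' z) = ∑ r, ev (P r).1 0 (pt m.B s) * ev (P r).2 0 (pt m.B s') := by
  have h1 := pt_bounds hs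
  have h2 := pt_bounds hs'
  rw [zsh_val]
  · rfl
  · show (0:ℝ) ≤ pt m.B s ∧ (pt m.B s : ℝ) < 1
    constructor <;> linarith [h1.1, h1.2]
  · show (0:ℝ) ≤ pt m.B s' ∧ (pt m.B s' : ℝ) < 1
    constructor <;> linarith [h2.1, h2.2]

lemma Top_map {u s : List (SS m.Q m.Γ)} (h : Top 0 (u.map m.dS) (s.map m.dS)) : Top bk u s := by
  induction u generalizing s with
  | nil => trivial
  | cons a u ih =>
    simp only [List.map_cons, Top] at h ⊢
    have e : (s.map m.dS).headD 0 = m.dS (s.headD bk) := by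
      cases s with
      | nil => simp [m.blank]
      | cons b s => rfl
    rw [e] at h
    refine ⟨m.hS h.1, ih ?_⟩
    have : (s.map m.dS).tail = s.tail.map m.dS := by cases s <;> rfl
    rw [← this]; exact h.2

lemma map_headD (s : List (SS m.Q m.Γ)) : (s.map m.dS).headD 0 = m.dS (s.headD bk) := by
  cases s with
  | nil => simp [m.blank]
  | cons b s => rfl

lemma map_tail' (s : List (SS m.Q m.Γ)) : (s.map m.dS).tail = s.tail.map m.dS := by
  cases s <;> rfl

lemma disp_fwd {u u' s : List ℕ} (hs : Valid m.B s) (h : Top 0 u s) :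
    ev (disp m.B u u') 0 (pt m.B s) = (pt m.B (u' ++ s.drop u.length) : ℝ) - pt m.B s :=
  disp_mid m.hB hs h

lemma disp_bwd {u u' s : List ℕ} (hu' : Valid m.B u') (hs : Valid m.B s) (h : Top 0 u s) :
    ev (disp m.B u' u) 0 (pt m.B (u' ++ s.drop u.length)) =
      (pt m.B s : ℝ) - pt m.B (u' ++ s.drop u.length) := by
  rw [disp_mid m.hB (hu'.append (hs.drop _)) (Top_append _ _)]
  have hB := m.hB
  have : pt m.B (u ++ (u' ++ s.drop u.length).drop u'.length) = pt m.B s := by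
    rw [List.drop_left]
    unfold pt
    rw [dv_append (by omega), ← Top_drop_dv (by omega) h]
  rw [this]

end Vale.Agent.P113
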