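import Vale.Agent.P113.Defs

/-!
The halting problem of our machines is semidecidable.
-/

namespace Vale.Agent.P113

/-- configurations with lists: state, left part, right part with the head cell first -/
abbrev LCfg := ℕ × List ℕ × List ℕ

def lstep (M : Machine) (c : LCfg) : LCfg :=
  match M.1.lookup (c.1, c.2.2.headI) with
  | none => c
  | some x =>
    if x.2.2 = 0 then (x.1, c.2.1.tail, c.2.1.headI :: x.2.1 :: c.2.2.tail)
    else if x.2.2 = 1 then (x.1, x.2.1 :: c.2.1, c.2.2.tail)
    else (x.1, c.2.1, x.2.1 :: c.2.2.tail)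

structure CRel (c : Config) (l : LCfg) : Prop where
  state : c.state = l.1
  right : ∀ i : ℕ, c.tape (c.head + i) = l.2.2.getD i 0
  left : ∀ i : ℕ, c.tape (c.head - 1 - i) = l.2.1.getD i 0

lemma headI_eq (l : List ℕ) : l.headI = l.getD 0 0 := by cases l <;> rfl

lemma getD_tail (l : List ℕ) (i : ℕ) : l.tail.getD i 0 = l.getD (i+1) 0 := by cases l <;> simp

lemma CRel.step {M : Machine} {c : Config} {l : LCfg} (h : CRel c l) :
    CRel (step M c) (lstep M l) := by
  obtain ⟨q, hd, tp⟩ := c
  obtain ⟨q', L, R⟩ := l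
  obtain ⟨h1, h2, h3⟩ := h
  simp only at h1 h2 h3
  subst h1
  have h4 : R.headI = tp hd := by rw [headI_eq, ← h2 0]; simp
  unfold P113.step lstep
  simp only [h4]
  rcases M.1.lookup (q, tp hd) with _ | ⟨q', s, d⟩
  · exact ⟨rfl, h2, h3⟩
  · simp only [move, Option.elim]
    have u1 : ∀ j : ℤ, j ≠ hd → Function.update tp hd s j = tp j :=
      fun j hj => Function.update_of_ne hj _ _
    by_cases hd0 : d = 0
    · simp only [hd0, if_true]
      refine ⟨rfl, fun i => ?_, fun i => ?_⟩
      · simp only
        rcases i with _ | _ | i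
        · simp only [Nat.cast_zero, add_zero, List.getD_cons_zero]
          rw [u1 _ (by omega), headI_eq, ← h3 0]; simp
        · simp only [List.getD_cons_succ, List.getD_cons_zero]
          have : hd - 1 + ((0 + 1 : ℕ) : ℤ) = hd := by push_cast; ring
          rw [this, Function.update_self]
        · simp only [List.getD_cons_succ]
          rw [u1 _ (by push_cast; omega), getD_tail, ← h2]
          congr 1; push_cast; ring
      · simp only
        rw [u1 _ (by omega), getD_tail, ← h3]
        congr 1; push_cast; ring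
    · by_cases hd1 : d = 1
      · simp only [hd1, if_true, one_ne_zero, if_false]
        refine ⟨rfl, fun i => ?_, fun i => ?_⟩
        · simp only
          rw [u1 _ (by omega), getD_tail, ← h2]
          congr 1; push_cast; ring
        · simp only
          rcases i with _ | i
          · simp
          · simp only [List.getD_cons_succ]
            rw [u1 _ (by push_cast; omega), ← h3]
            congr 1; push_cast; ring
      · simp only [hd0, hd1, if_false]
        refine ⟨rfl, fun i => ?_, fun i => ?_⟩
        · simp only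
          rcases i with _ | i
          · simp
          · simp only [List.getD_cons_succ]
            rw [u1 _ (by push_cast; omega), getD_tail, ← h2]
        · simp only
          rw [u1 _ (by omega), h3]

lemma CRel.init (w : List ℕ) : CRel (initConfig w) (0, [], w) := by
  refine ⟨rfl, fun i => ?_, fun i => ?_⟩
  · simp [initConfig]
  · simp only [initConfig]
    rw [if_pos (by omega)]
    simp

lemma CRel.iter {M : Machine} {c : Config} {l : LCfg} (h : CRel c l) (n : ℕ) :
    CRel ((P113.step M)^[n] c) ((lstep M)^[n] l) := by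
  induction n with
  | zero => exact h
  | succ n ih => rw [Function.iterate_succ_apply', Function.iterate_succ_apply']; exact ih.step

def haltedAt (x : Machine × List ℕ) (n : ℕ) : Bool :=
  decide (∃ a ∈ x.1.2, a = ((lstep x.1)^[n] (0, [], x.2)).1)

lemma halts_iff (M : Machine) (w : List ℕ) : Halts M w ↔ ∃ n, haltedAt (M, w) n = true := by
  unfold Halts haltedAt
  apply exists_congr
  intro n
  rw [(CRel.iter (CRel.init w) n).state]
  simp

lemma lstep_primrec : Primrec₂ lstep := by
  have hb : (instBEqProd : BEq (ℕ × ℕ)) = instBEqOfDecidableEq :=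
    lawful_beq_subsingleton _ _
  have hl : Primrec (fun p : Machine × LCfg => p.1.1.lookup (p.2.1, p.2.2.2.headI)) := by
    rw [hb]
    exact Primrec.listLookup.comp
      (Primrec.pair (Primrec.fst.comp Primrec.snd)
        (Primrec.list_headI.comp (Primrec.snd.comp (Primrec.snd.comp Primrec.snd))))
      (Primrec.fst.comp Primrec.fst)
  have hc : Primrec₂ (fun (p : Machine × LCfg) (x : ℕ × ℕ × ℕ) =>
      (if x.2.2 = 0 then (x.1, p.2.2.1.tail, p.2.2.1.headI :: x.2.1 :: p.2.2.2.tail)
        else if x.2.2 = 1 then (x.1, x.2.1 :: p.2.2.1, p.2.2.2.tail)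
        else (x.1, p.2.2.1, x.2.1 :: p.2.2.2.tail) : LCfg)) := by
    apply Primrec₂.mk
    have hx1 : Primrec (fun y : (Machine × LCfg) × (ℕ × ℕ × ℕ) => y.2.1) :=
      Primrec.fst.comp Primrec.snd
    have hx2 : Primrec (fun y : (Machine × LCfg) × (ℕ × ℕ × ℕ) => y.2.2.1) :=
      Primrec.fst.comp (Primrec.snd.comp Primrec.snd)
    have hx3 : Primrec (fun y : (Machine × LCfg) × (ℕ × ℕ × ℕ) => y.2.2.2) :=
      Primrec.snd.comp (Primrec.snd.comp Primrec.snd)
    have hL : Primrec (fun y : (Machine × LCfg) × (ℕ × ℕ × ℕ) => y.1.2.2.1) :=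
      Primrec.fst.comp (Primrec.snd.comp (Primrec.snd.comp Primrec.fst))
    have hR : Primrec (fun y : (Machine × LCfg) × (ℕ × ℕ × ℕ) => y.1.2.2.2) :=
      Primrec.snd.comp (Primrec.snd.comp (Primrec.snd.comp Primrec.fst))
    refine Primrec.ite (Primrec.eq.comp hx3 (Primrec.const 0)) ?_
      (Primrec.ite (Primrec.eq.comp hx3 (Primrec.const 1)) ?_ ?_)
    · exact Primrec.pair hx1 (Primrec.pair (Primrec.list_tail.comp hL)
        (Primrec.list_cons.comp (Primrec.list_headI.comp hL)
          (Primrec.list_cons.comp hx2 (Primrec.list_tail.comp hR))))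
    · exact Primrec.pair hx1 (Primrec.pair (Primrec.list_cons.comp hx2 hL)
        (Primrec.list_tail.comp hR))
    · exact Primrec.pair hx1 (Primrec.pair hL
        (Primrec.list_cons.comp hx2 (Primrec.list_tail.comp hR)))
  have h := Primrec.option_casesOn hl (Primrec.snd (α := Machine) (β := LCfg)) hc
  refine Primrec₂.mk (h.of_eq ?_)
  rintro ⟨M, q, L, R⟩
  simp only [lstep]
  cases M.1.lookup (q, R.headI) <;> rfl

lemma haltedAt_computable : Computable₂ haltedAt := by
  have h1 : Primrec (fun p : (Machine × List ℕ) × ℕ => (lstep p.1.1)^[p.2] (0, [], p.1.2)) := by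
    refine Primrec.nat_iterate (f := fun p : (Machine × List ℕ) × ℕ => p.2)
      (g := fun p => ((0, [], p.1.2) : LCfg)) (h := fun p c => lstep p.1.1 c) Primrec.snd ?_ ?_
    · exact Primrec.pair (Primrec.const 0) (Primrec.pair (Primrec.const [])
        (Primrec.snd.comp Primrec.fst))
    · exact Primrec₂.mk (lstep_primrec.comp
        (Primrec.fst.comp (Primrec.fst.comp Primrec.fst)) Primrec.snd)
  have h2 : PrimrecRel (fun (L : List ℕ) (b : ℕ) => ∃ a ∈ L, a = b) :=
    PrimrecRel.exists_mem_list Primrec.eq
  have h3 : PrimrecPred (fun p : (Machine × List ℕ) × ℕ =>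
      ∃ a ∈ p.1.1.2, a = ((lstep p.1.1)^[p.2] (0, [], p.1.2)).1) :=
    h2.comp (Primrec.snd.comp (Primrec.fst.comp Primrec.fst)) (Primrec.fst.comp h1)
  exact (h3.decide).to_comp

def hrun (x : Machine × List ℕ) : Part ℕ :=
  Nat.rfind (PFun.lift (haltedAt x))

def hfun (n : ℕ) : Part ℕ :=
  (Part.ofOption (Encodable.decode (α := Machine × List ℕ) n)).bind
    fun x => (hrun x).map Encodable.encode

lemma hfun_partrec : Partrec hfun := by
  have h1 : Partrec hrun := Partrec.rfind (haltedAt_computable.partrec₂)
  exact Partrec.nat_iff.mpr h1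

lemma hfun_dom (M : Machine) (w : List ℕ) :
    (hfun (Encodable.encode (M, w))).Dom ↔ Halts M w := by
  rw [halts_iff]
  unfold hfun
  rw [Encodable.encodek]
  rw [show Part.ofOption (some (M, w)) = Part.some (M, w) from rfl]
  have h0 : (Part.some (M, w)).bind (fun x => (hrun x).map Encodable.encode) =
    (hrun (M, w)).map Encodable.encode := Part.bind_some _ _
  rw [h0]
  show (hrun (M, w)).Dom ↔ _
  constructor
  · intro h
    obtain ⟨n, hn⟩ := Part.dom_iff_mem.mp h
    have := Nat.rfind_spec hn
    refine ⟨n, ?_⟩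
    simpa using this
  · rintro ⟨n, hn⟩
    obtain ⟨m, hm, -⟩ := Nat.rfind_min' (p := haltedAt (M, w)) hn
    exact Part.dom_iff_mem.mpr ⟨m, hm⟩

end Vale.Agent.P113
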