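import Vale.Agent.P113.Defs

/-!
Variants of the definitions of the statement with vector-valued functions, used in the proofs.
-/

open Set MeasureTheory

namespace Vale.Agent.P113

def Per3 {β : Type} (g : Pt → β) : Prop :=
  ∀ (x : Pt) (i : Fin 3), g (x + Pi.single i 1) = g x

structure CSol (ν : ℝ) (f : ℝ → Pt → Pt) (T : ℝ)
    (u : ℝ → Pt → Pt) (p : ℝ → Pt → ℝ) : Prop where
  u_periodic : ∀ t ∈ Icc 0 T, Per3 (u t)
  p_periodic : ∀ t ∈ Icc 0 T, Per3 (p t)
  u_time : ∀ t ∈ Icc 0 T, ∀ x, DifferentiableWithinAt ℝ (fun s => u s x) (Icc 0 T) t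
  u_space : ∀ t ∈ Icc 0 T, ContDiff ℝ 2 (u t)
  p_space : ∀ t ∈ Icc 0 T, ContDiff ℝ 1 (p t)
  u_cont : ContinuousOn (fun z : ℝ × Pt => u z.1 z.2) (Icc 0 T ×ˢ univ)
  ut_cont : ContinuousOn
    (fun z : ℝ × Pt => derivWithin (fun s => u s z.2) (Icc 0 T) z.1) (Icc 0 T ×ˢ univ)
  ux_cont : ∀ i j, ContinuousOn
    (fun z : ℝ × Pt => dx j (fun y => u z.1 y i) z.2) (Icc 0 T ×ˢ univ)
  uxx_cont : ∀ i j k, ContinuousOn
    (fun z : ℝ × Pt => dx k (dx j (fun y => u z.1 y i)) z.2) (Icc 0 T ×ˢ univ)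
  p_cont : ContinuousOn (fun z : ℝ × Pt => p z.1 z.2) (Icc 0 T ×ˢ univ)
  px_cont : ∀ j, ContinuousOn (fun z : ℝ × Pt => dx j (p z.1) z.2) (Icc 0 T ×ˢ univ)
  p_mean : ∀ t ∈ Icc 0 T, ∫ x in Icc (0 : Pt) 1, p t x = 0
  momentum : ∀ t ∈ Icc 0 T, ∀ x i,
    derivWithin (fun s => u s x i) (Icc 0 T) t + ∑ j, u t x j * dx j (fun y => u t y i) x
      = - dx i (p t) x + ν * ∑ j, dx j (dx j (fun y => u t y i)) x + f t x i
  div_free : ∀ t ∈ Icc 0 T, ∀ x, ∑ j, dx j (fun y => u t y j) x = 0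
  from_rest : ∀ x, u 0 x = 0

def Trj (u : ℝ → Pt → Pt) (a : Pt) (X : ℝ → Pt) : Prop :=
  X 0 = a ∧ ∀ t, 0 ≤ t → HasDerivWithinAt X (u t (X t)) (Ici 0) t

/-- the vector-valued form of a field given by components -/
def vec (u : Fin 3 → Field) : ℝ → Pt → Pt := fun t x i => u i t x

lemma Trj_iff {u : Fin 3 → Field} {a : Pt} {X : ℝ → Pt} : IsTrajectory u a X ↔ Trj (vec u) a X := by
  unfold IsTrajectory Trj
  apply and_congr Iff.rfl
  constructor
  · intro h t ht
    exact hasDerivWithinAt_pi.mpr (fun i => h i t ht)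
  · intro h i t ht
    exact (hasDerivWithinAt_pi.mp (h t ht)) i

lemma hasDerivWithinAt_comp {u : ℝ → Pt → Pt} {T t : ℝ} (hT : 0 < T) (ht : t ∈ Icc 0 T) {x : Pt}
    (h : DifferentiableWithinAt ℝ (fun s => u s x) (Icc 0 T) t) (i : Fin 3) :
    derivWithin (fun s => u s x i) (Icc 0 T) t = derivWithin (fun s => u s x) (Icc 0 T) t i :=
  ((hasDerivWithinAt_pi.mp h.hasDerivWithinAt) i).derivWithin (uniqueDiffOn_Icc hT t ht)

lemma CSol_of {ν : ℝ} {f : Fin 3 → Field} {T : ℝ} (hT : 0 < T) {u : Fin 3 → Field} {p : Field}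
    (h : IsClassicalSolution ν f T u p) : CSol ν (vec f) T (vec u) p where
  u_periodic t ht := fun x j => funext fun i => h.u_periodic i t ht x j
  p_periodic := h.p_periodic
  u_time t ht x := differentiableWithinAt_pi.mpr (fun i => h.u_time i t ht x)
  u_space t ht := contDiff_pi.mpr (fun i => by exact_mod_cast h.u_space i t ht)
  p_space t ht := by exact_mod_cast h.p_space t ht
  u_cont := continuousOn_pi.mpr (fun i => h.u_cont i)
  ut_cont := by
    refine continuousOn_pi.mpr (fun i => ?_)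
    refine (h.ut_cont i).congr ?_
    rintro ⟨t, x⟩ ⟨ht, -⟩
    exact (hasDerivWithinAt_comp (u := vec u) hT ht
      (differentiableWithinAt_pi.mpr (fun i => h.u_time i t ht x)) i).symm
  ux_cont i j := h.ux_cont i j
  uxx_cont i j k := h.uxx_cont i j k
  p_cont := h.p_cont
  px_cont j := h.px_cont j
  p_mean := h.p_mean
  momentum t ht x i := h.momentum i t ht x
  div_free := h.div_free
  from_rest x := funext fun i => h.from_rest i x

lemma of_CSol {ν : ℝ} {f : Fin 3 → Field} {T : ℝ} (hT : 0 < T) {u : Fin 3 → Field} {p : Field}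
    (h : CSol ν (vec f) T (vec u) p) : IsClassicalSolution ν f T u p where
  u_periodic i t ht := fun x j => congrFun (h.u_periodic t ht x j) i
  p_periodic := h.p_periodic
  u_time i t ht x := differentiableWithinAt_pi.mp (h.u_time t ht x) i
  u_space i t ht := by
    have := contDiff_pi.mp (h.u_space t ht) i
    unfold SpaceC
    exact_mod_cast this
  p_space t ht := by
    have := h.p_space t ht
    unfold SpaceC
    exact_mod_cast this
  u_cont i := continuousOn_pi.mp h.u_cont i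
  ut_cont i := by
    refine (continuousOn_pi.mp h.ut_cont i).congr ?_
    rintro ⟨t, x⟩ ⟨ht, -⟩
    exact hasDerivWithinAt_comp (u := vec u) hT ht (h.u_time t ht x) i
  ux_cont i j := h.ux_cont i j
  uxx_cont i j k := h.uxx_cont i j k
  p_cont := h.p_cont
  px_cont j := h.px_cont j
  p_mean := h.p_mean
  momentum i t ht x := h.momentum t ht x i
  div_free := h.div_free
  from_rest i x := congrFun (h.from_rest x) i

end Vale.Agent.P113
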