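import Vale.Agent.P113.Flow

/-!
The flow solves the Navier-Stokes system; its trajectories.
-/

open Set Filter Topology MeasureTheory

namespace Vale.Agent.P113

variable {S : Fin 9 → Sh} (hS : ∀ j, (S j).Good)

include hS

lemma vel_contDiff (c : Pt) : ContDiff ℝ (⊤ : ℕ∞) (fun z : ℝ × Pt => vel S c z.1 z.2) := by
  rw [contDiff_pi]
  intro i
  exact sval_contDiff (U_good hS c i) 0

lemma force_contDiff (ν : ℝ) (c : Pt) :
    ContDiff ℝ (⊤ : ℕ∞) (fun z : ℝ × Pt => force ν S c z.1 z.2) := by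
  rw [contDiff_pi]
  intro i
  exact (sval_contDiff (U_good hS c i) _).sub
    (contDiff_const.mul (ContDiff.sum (fun k _ => sval_contDiff (U_good hS c i) _)))

lemma vel_periodic (c : Pt) (t : ℝ) : Per3 (vel S c t) := by
  intro x i
  funext k
  exact sval_periodic (U_good hS c k) 0 t x i

lemma force_periodic (ν : ℝ) (c : Pt) (t : ℝ) : Per3 (force ν S c t) := by
  intro x i
  funext k
  unfold force
  rw [sval_periodic (U_good hS c k) _ t x i]
  congr 2
  apply Finset.sum_congr rfl
  intro l _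
  exact sval_periodic (U_good hS c k) _ t x i

lemma dx_vel (c : Pt) (t : ℝ) (x : Pt) (i j : Fin 3) :
    dx j (fun y => vel S c t y i) x = sval (U S c i) (Pi.single j.succ 1) t x := by
  have h := dx_sval (U_good hS c i) 0 t x j
  rw [zero_add] at h
  exact h

lemma dxx_vel (c : Pt) (t : ℝ) (x : Pt) (i j k : Fin 3) :
    dx k (dx j (fun y => vel S c t y i)) x =
      sval (U S c i) (Pi.single j.succ 1 + Pi.single k.succ 1) t x := by
  have h1 : dx j (fun y => vel S c t y i) = sval (U S c i) (Pi.single j.succ 1) t := by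
    funext y; exact dx_vel hS c t y i j
  rw [h1]
  exact dx_sval (U_good hS c i) _ t x k

lemma dt_vel (c : Pt) (t : ℝ) (x : Pt) (i : Fin 3) :
    HasDerivAt (fun s => vel S c s x i) (sval (U S c i) (Pi.single 0 1) t x) t := by
  have h := sval_dt (U_good hS c i) 0 t x
  rw [zero_add] at h
  exact h

omit hS in
lemma single_two (k : Fin 4) : (Pi.single k 1 + Pi.single k 1 : Fin 4 → ℕ) = Pi.single k 2 := by
  rw [← Pi.single_add]

lemma div_zero_vel (c : Pt) (t : ℝ) (x : Pt) (i : Fin 3) :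
    sval (U S c i) (Pi.single i.succ 1) t x = 0 := by
  rw [sval_U]
  have h1 : ∀ j : Fin 9, (if (S j).dir = i then Phi (j:ℕ) ((Pi.single i.succ 1 : Fin 4 → ℕ) 0) t *
      (S j).D ((Pi.single i.succ 1 : Fin 4 → ℕ) 1) ((Pi.single i.succ 1 : Fin 4 → ℕ) 2)
        ((Pi.single i.succ 1 : Fin 4 → ℕ) 3) x else 0) = 0 := by
    intro j
    by_cases h : (S j).dir = i
    · rw [if_pos h, D_dir_zero hS j (Pi.single i.succ 1) (by rw [h]; simp) x, mul_zero]
    · rw [if_neg h]
  rw [Finset.sum_eq_zero (fun j _ => h1 j)]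
  fin_cases i <;> simp [oneTw]

lemma conv_zero (c : Pt) {t : ℝ} (ht : 0 ≤ t) (x : Pt) (i j : Fin 3) :
    vel S c t x j * sval (U S c i) (Pi.single j.succ 1) t x = 0 := by
  have h0 : (Pi.single j.succ 1 : Fin 4 → ℕ) 0 = 0 := by
    rw [Pi.single_apply, if_neg (Fin.succ_ne_zero j).symm]
  have hone : oneTw ((Pi.single j.succ 1 : Fin 4 → ℕ) 1) (x 0) *
      oneTw ((Pi.single j.succ 1 : Fin 4 → ℕ) 2) (x 1) *
      oneTw ((Pi.single j.succ 1 : Fin 4 → ℕ) 3) (x 2) = 0 := by
    fin_cases j <;> simp [oneTw]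
  by_cases h9 : win t < 9
  · -- the derivative vanishes
    rw [sval_U, hone]
    have h1 : ∀ l : Fin 9, (if (S l).dir = i then Phi (l:ℕ) ((Pi.single j.succ 1 : Fin 4 → ℕ) 0) t *
      (S l).D ((Pi.single j.succ 1 : Fin 4 → ℕ) 1) ((Pi.single j.succ 1 : Fin 4 → ℕ) 2)
        ((Pi.single j.succ 1 : Fin 4 → ℕ) 3) x else 0) = 0 := by
      intro l
      have h2 : Phi (l:ℕ) 0 t = 0 := by rw [Phi_win ht l l.2, if_neg (by omega)]
      rw [h0, h2, zero_mul, ite_self]
    rw [Finset.sum_eq_zero (fun l _ => h1 l)]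
    ring
  · by_cases hd : (S ⟨win t % 9, Nat.mod_lt _ (by norm_num)⟩).dir = j
    · rw [sval_U, hone]
      have h1 : ∀ l : Fin 9, (if (S l).dir = i then
        Phi (l:ℕ) ((Pi.single j.succ 1 : Fin 4 → ℕ) 0) t *
        (S l).D ((Pi.single j.succ 1 : Fin 4 → ℕ) 1) ((Pi.single j.succ 1 : Fin 4 → ℕ) 2)
          ((Pi.single j.succ 1 : Fin 4 → ℕ) 3) x else 0) = 0 := by
        intro l
        by_cases hl : win t % 9 = (l:ℕ)
        · have hl2 : l = ⟨win t % 9, Nat.mod_lt _ (by norm_num)⟩ := Fin.ext hl.symm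
          rw [D_dir_zero hS l (Pi.single j.succ 1) (by rw [hl2, hd]; simp) x, mul_zero, ite_self]
        · have h2 : Phi (l:ℕ) 0 t = 0 := by rw [Phi_win ht l l.2, if_neg (fun h => hl h.2)]
          rw [h0, h2, zero_mul, ite_self]
      rw [Finset.sum_eq_zero (fun l _ => h1 l)]
      ring
    · rw [vel_eq c ht x]
      unfold dsp
      rw [if_neg (by omega), if_neg h9]
      rw [Pi.smul_apply, Pi.single_eq_of_ne (Ne.symm hd)]
      simp

lemma vel_time (c : Pt) (t : ℝ) (x : Pt) : HasDerivAt (fun s => vel S c s x)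
    (fun i => sval (U S c i) (Pi.single 0 1) t x) t :=
  hasDerivAt_pi.mpr (fun i => dt_vel hS c t x i)

lemma vel_derivWithin (c : Pt) {T : ℝ} (hT : 0 < T) {t : ℝ} (ht : t ∈ Icc 0 T) (x : Pt) :
    derivWithin (fun s => vel S c s x) (Icc 0 T) t =
      fun i => sval (U S c i) (Pi.single 0 1) t x :=
  (vel_time hS c t x).hasDerivWithinAt.derivWithin (uniqueDiffOn_Icc hT t ht)

omit hS in
lemma contDiff_slice {g : ℝ × Pt → Pt} (hg : ContDiff ℝ (⊤ : ℕ∞) g) (t : ℝ) :
    ContDiff ℝ 2 (fun x : Pt => g (t, x)) := by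
  have h1 : ContDiff ℝ (⊤ : ℕ∞) (fun x : Pt => ((t, x) : ℝ × Pt)) :=
    contDiff_const.prodMk contDiff_id
  have h2 : ContDiff ℝ (⊤ : ℕ∞) (fun x : Pt => g (t, x)) := hg.comp h1
  have h3 := (contDiff_infty.mp h2) 2
  exact_mod_cast h3

lemma vel_space (c : Pt) (t : ℝ) : ContDiff ℝ 2 (vel S c t) :=
  contDiff_slice (g := fun z : ℝ × Pt => vel S c z.1 z.2) (vel_contDiff hS c) t

lemma vel_ut_cont (c : Pt) {T : ℝ} (hT : 0 < T) : ContinuousOn
    (fun z : ℝ × Pt => derivWithin (fun s => vel S c s z.2) (Icc 0 T) z.1) (Icc 0 T ×ˢ univ) := by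
  refine ContinuousOn.congr (f := fun z : ℝ × Pt => fun i =>
      sval (U S c i) (Pi.single 0 1) z.1 z.2) ?_ ?_
  · apply Continuous.continuousOn
    exact continuous_pi (fun i => (sval_contDiff (U_good hS c i) _).continuous)
  · rintro ⟨t, x⟩ ⟨ht, -⟩
    exact vel_derivWithin hS c hT ht x

lemma vel_momentum (ν : ℝ) (c : Pt) {T : ℝ} (hT : 0 < T) {t : ℝ} (ht : t ∈ Icc 0 T) (x : Pt)
    (i : Fin 3) : derivWithin (fun s => vel S c s x i) (Icc 0 T) t +
      ∑ j, vel S c t x j * dx j (fun y => vel S c t y i) x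
      = - dx i (fun _ => 0) x + ν * ∑ j, dx j (dx j (fun y => vel S c t y i)) x +
        force ν S c t x i := by
  have hdx0 : dx i (fun _ : Pt => (0:ℝ)) x = 0 := by unfold dx; simp
  rw [(dt_vel hS c t x i).hasDerivWithinAt.derivWithin (uniqueDiffOn_Icc hT t ht), hdx0]
  have h1 : ∑ j, vel S c t x j * dx j (fun y => vel S c t y i) x = 0 := by
    apply Finset.sum_eq_zero
    intro j _
    rw [dx_vel hS]
    exact conv_zero hS c ht.1 x i j
  have h2 : ∑ j, dx j (dx j (fun y => vel S c t y i)) x =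
      ∑ j : Fin 3, sval (U S c i) (Pi.single j.succ 2) t x := by
    apply Finset.sum_congr rfl
    intro j _
    rw [dxx_vel hS, single_two]
  rw [h1, h2]
  unfold force
  ring

theorem vel_solution (ν : ℝ) (c : Pt) {T : ℝ} (hT : 0 < T) :
    CSol ν (force ν S c) T (vel S c) (fun _ _ => 0) where
  u_periodic t _ := vel_periodic hS c t
  p_periodic t _ := fun _ _ => rfl
  u_time t _ x := (vel_time hS c t x).differentiableAt.differentiableWithinAt
  u_space t _ := vel_space hS c t
  p_space _ _ := contDiff_const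
  u_cont := (vel_contDiff hS c).continuous.continuousOn
  ut_cont := vel_ut_cont hS c hT
  ux_cont i j := by
    refine ContinuousOn.congr (f := fun z : ℝ × Pt =>
      sval (U S c i) (Pi.single j.succ 1) z.1 z.2) ?_ ?_
    · exact (sval_contDiff (U_good hS c i) _).continuous.continuousOn
    · rintro ⟨t, x⟩ -
      exact dx_vel hS c t x i j
  uxx_cont i j k := by
    refine ContinuousOn.congr (f := fun z : ℝ × Pt =>
      sval (U S c i) (Pi.single j.succ 1 + Pi.single k.succ 1) z.1 z.2) ?_ ?_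
    · exact (sval_contDiff (U_good hS c i) _).continuous.continuousOn
    · rintro ⟨t, x⟩ -
      exact dxx_vel hS c t x i j k
  p_cont := continuousOn_const
  px_cont j := by
    refine ContinuousOn.congr (f := fun _ => 0) continuousOn_const ?_
    rintro ⟨t, x⟩ -
    unfold dx; simp
  p_mean _ _ := by simp
  momentum t ht x i := vel_momentum hS ν c hT ht x i
  div_free t _ x := by
    apply Finset.sum_eq_zero
    intro j _
    rw [dx_vel hS, div_zero_vel hS]
  from_rest x := by
    rw [vel_eq c le_rfl]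
    have h : win 0 = 0 := by simp [win]
    rw [h]
    rw [td_left (by norm_num)]
    simp

/-! ### the force after time `1` -/

omit hS in
lemma psi_after (j k : ℕ) (hj : j < 9) {t : ℝ} (ht : 1 ≤ t) : psi j k t = 0 :=
  (psi_supp j hj).right k t (by linarith)

omit hS in
lemma sval_U_after (c : Pt) (n : Fin 4 → ℕ) {t : ℝ} (ht : 1 ≤ t) (x : Pt) (i : Fin 3) :
    sval (U S c i) n t x =
      ∑ j : Fin 9, (if (S j).dir = i then perf (psi j) (n 0) t * (S j).D (n 1) (n 2) (n 3) x
        else 0) := by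
  rw [sval_U, psi_after 0 _ (by norm_num) ht]
  rw [zero_mul, mul_zero, zero_add]
  apply Finset.sum_congr rfl
  intro j _
  unfold Phi subTw
  rw [psi_after j _ j.2 ht, sub_zero]

omit hS in
lemma force_after (ν : ℝ) (c c' : Pt) {t : ℝ} (ht : 1 ≤ t) : force ν S c t = force ν S c' t := by
  funext x i
  unfold force
  simp only [sval_U_after _ _ ht]

omit hS in
lemma force_time_periodic (ν : ℝ) (c : Pt) {t : ℝ} (ht : 1 ≤ t) :
    force ν S c (t+1) = force ν S c t := by
  funext x i
  unfold force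
  simp only [sval_U_after _ _ ht, sval_U_after _ _ (show 1 ≤ t + 1 by linarith), perf_add_one]

/-! ### trajectories -/

/-- positions at the window times -/
noncomputable def Yp (S : Fin 9 → Sh) (c : Pt) : ℕ → Pt
  | 0 => 0
  | (m+1) => Yp S c m + dsp S c m (Yp S c m)

noncomputable def Xt (S : Fin 9 → Sh) (c : Pt) (t : ℝ) : Pt :=
  Yp S c (win t) + ts (9*t - win t) • dsp S c (win t) (Yp S c (win t))

omit hS in
lemma ts_left {s : ℝ} (h : s ≤ 1/4) : ts s = 0 := by
  unfold ts; rw [WD_nonpos _ (by linarith)]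

omit hS in
lemma ts_right {s : ℝ} (h : 3/4 ≤ s) : ts s = 1 := by
  unfold ts; rw [WD_one_ge (by linarith)]

omit hS in
lemma ts_deriv (s : ℝ) : HasDerivAt ts (td s) s := by
  unfold ts td
  have h1 : HasDerivAt (fun s : ℝ => 2*s - 1/2) 2 s := by
    simpa using ((hasDerivAt_id s).const_mul (2:ℝ)).sub_const (1/2)
  refine ((WD_hasDerivAt 1 (2*s-1/2)).comp s h1).congr_deriv ?_
  ring

omit hS in
lemma win_eq {t : ℝ} {m : ℕ} (h1 : (m:ℝ) ≤ 9*t) (h2 : 9*t < m+1) : win t = m :=
  (Nat.floor_eq_iff (by linarith [(Nat.cast_nonneg m : (0:ℝ) ≤ m)])).mpr ⟨h1, h2⟩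

omit hS in
lemma Xt_near (c : Pt) {t : ℝ} (m : ℕ) (h1 : (m:ℝ) - 1/4 < 9*t) (h2 : 9*t < m + 1 + 1/4) :
    Xt S c t = Yp S c m + ts (9*t - m) • dsp S c m (Yp S c m) := by
  rcases lt_or_ge (9*t) m with h | h
  · rw [ts_left (by linarith), zero_smul, add_zero]
    rcases m with _ | m
    · -- before time zero
      have hw : win t = 0 := by
        unfold win
        rw [Nat.floor_eq_zero]
        push_cast at h
        linarith
      unfold Xt
      rw [hw, ts_left (by push_cast at h ⊢; linarith), zero_smul, add_zero]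
    · have hw : win t = m := win_eq (by push_cast at h1; linarith) (by push_cast at h; linarith)
      unfold Xt
      rw [hw, ts_right (by push_cast at h1; linarith), one_smul]
      rfl
  · rcases lt_or_ge (9*t) (m+1) with h3 | h3
    · have hw : win t = m := win_eq h h3
      unfold Xt
      rw [hw]
    · have hw : win t = m + 1 := win_eq (by push_cast; linarith) (by push_cast; linarith)
      unfold Xt
      rw [hw, ts_left (by push_cast; linarith), zero_smul, add_zero, ts_right (by linarith),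
        one_smul]
      rfl

/-- a shear displacement does not change along its own direction -/
lemma dsp_shear (c : Pt) (m : ℕ) (x : Pt) (θ : ℝ) :
    dsp S c m (x + θ • dsp S c m x) = dsp S c m x := by
  unfold dsp
  by_cases h0 : m = 0
  · simp only [h0, if_true]
  · by_cases h9 : m < 9
    · simp only [h0, h9, if_true, if_false]
    · simp only [h0, h9, if_false]
      congr 1
      generalize (⟨m % 9, Nat.mod_lt _ (by norm_num)⟩ : Fin 9) = j
      unfold Sh.val Sh.D
      congr 1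
      apply List.map_congr_left
      intro f hf
      have h1 := (hS j).ind f hf
      generalize ((S j).terms.map (fun f => pr f 0 0 0 x)).sum = g
      revert h1
      generalize (S j).dir = d
      intro h1
      unfold pr
      fin_cases d
      · have h2 : f 0 = oneTw := h1
        simp [h2, oneTw]
      · have h2 : f 1 = oneTw := h1
        simp [h2, oneTw]
      · have h2 : f 2 = oneTw := h1
        simp [h2, oneTw]

theorem Xt_deriv (c : Pt) {t : ℝ} (ht : 0 ≤ t) :
    HasDerivAt (Xt S c) (vel S c t (Xt S c t)) t := by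
  have h1 := win_le ht
  have h2 := lt_win t
  set m := win t with hm
  have hnear : Xt S c =ᶠ[𝓝 t] fun t => Yp S c m + ts (9*t - m) • dsp S c m (Yp S c m) := by
    have h3 : Ioo (t - 1/36) (t + 1/36) ∈ 𝓝 t := Ioo_mem_nhds (by linarith) (by linarith)
    filter_upwards [h3] with y hy
    exact Xt_near c m (by linarith [hy.1]) (by linarith [hy.2])
  have h4 : HasDerivAt (fun t : ℝ => 9*t - (m:ℝ)) 9 t := by
    simpa using ((hasDerivAt_id t).const_mul (9:ℝ)).sub_const (m:ℝ)
  have h5 := (((ts_deriv (9*t - m)).comp t h4).smul_const (dsp S c m (Yp S c m))).const_add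
    (Yp S c m)
  refine (h5.congr_of_eventuallyEq hnear).congr_deriv ?_
  rw [vel_eq c ht, Xt_near c m (by linarith) (by linarith), dsp_shear hS]
  congr 1
  ring

theorem Xt_trajectory (c : Pt) : Trj (vel S c) 0 (Xt S c) := by
  constructor
  · rw [Xt_near c 0 (by norm_num) (by norm_num), ts_left (by norm_num)]
    simp [Yp]
  · intro t ht
    exact (Xt_deriv hS c ht).hasDerivWithinAt

omit hS in
/-- uniqueness of trajectories -/
theorem traj_unique {u : ℝ → Pt → Pt} (hu : ContDiff ℝ 1 (fun z : ℝ × Pt => u z.1 z.2)) {a : Pt}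
    {X X' : ℝ → Pt} (h : Trj u a X) (h' : Trj u a X') :
    ∀ t, 0 ≤ t → X' t = X t := by
  intro T hT
  have hX : ContinuousOn X (Icc 0 T) := fun t ht =>
    ((h.2 t ht.1).continuousWithinAt).mono Icc_subset_Ici_self
  have hX' : ContinuousOn X' (Icc 0 T) := fun t ht =>
    ((h'.2 t ht.1).continuousWithinAt).mono Icc_subset_Ici_self
  obtain ⟨R1, hR1⟩ := isCompact_Icc.exists_bound_of_continuousOn hX
  obtain ⟨R2, hR2⟩ := isCompact_Icc.exists_bound_of_continuousOn hX'
  let R := max R1 R2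
  have hcpt : IsCompact (Icc (0:ℝ) T ×ˢ Metric.closedBall (0:Pt) R) :=
    isCompact_Icc.prod (isCompact_closedBall 0 R)
  have hcf : Continuous (fun z : ℝ × Pt => fderiv ℝ (fun z : ℝ × Pt => u z.1 z.2) z) :=
    hu.continuous_fderiv (by norm_num)
  obtain ⟨K, hK⟩ := hcpt.exists_bound_of_continuousOn hcf.continuousOn
  have hderiv : ∀ t x, HasFDerivAt (u t)
      ((fderiv ℝ (fun z : ℝ × Pt => u z.1 z.2) (t, x)).comp (ContinuousLinearMap.inr ℝ ℝ Pt)) x := by
    intro t x
    have h1 : HasFDerivAt (fun y : Pt => ((t, y) : ℝ × Pt)) (ContinuousLinearMap.inr ℝ ℝ Pt) x :=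
      hasFDerivAt_prodMk_right t x
    exact ((hu.differentiable (by norm_num)) (t, x)).hasFDerivAt.comp x h1
  have hlip : ∀ t ∈ Ico 0 T, LipschitzOnWith (Real.toNNReal K) (u t) (Metric.closedBall (0:Pt) R) := by
    intro t ht
    apply Convex.lipschitzOnWith_of_nnnorm_hasFDerivWithin_le
      (f' := fun x => (fderiv ℝ (fun z : ℝ × Pt => u z.1 z.2) (t, x)).comp
        (ContinuousLinearMap.inr ℝ ℝ Pt))
      (fun x _ => (hderiv t x).hasFDerivWithinAt)
    · intro x hx
      have h1 := hK (t, x) ⟨⟨ht.1, ht.2.le⟩, hx⟩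
      have h2 : ‖(fderiv ℝ (fun z : ℝ × Pt => u z.1 z.2) (t, x)).comp
          (ContinuousLinearMap.inr ℝ ℝ Pt)‖ ≤ K := by
        refine (ContinuousLinearMap.opNorm_comp_le _ _).trans ?_
        have h3 : ‖ContinuousLinearMap.inr ℝ ℝ Pt‖ ≤ 1 := ContinuousLinearMap.norm_inr_le_one ℝ ℝ Pt
        calc _ ≤ ‖fderiv ℝ (fun z : ℝ × Pt => u z.1 z.2) (t, x)‖ * 1 :=
              mul_le_mul_of_nonneg_left h3 (norm_nonneg _)
          _ ≤ K := by rw [mul_one]; exact h1
      rw [← NNReal.coe_le_coe, coe_nnnorm]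
      exact h2.trans (Real.le_coe_toNNReal K)
    · exact convex_closedBall 0 R
  have hmem : ∀ t ∈ Ico 0 T, X t ∈ Metric.closedBall (0:Pt) R := fun t ht => by
    rw [mem_closedBall_zero_iff]
    exact (hR1 t ⟨ht.1, ht.2.le⟩).trans (le_max_left _ _)
  have hmem' : ∀ t ∈ Ico 0 T, X' t ∈ Metric.closedBall (0:Pt) R := fun t ht => by
    rw [mem_closedBall_zero_iff]
    exact (hR2 t ⟨ht.1, ht.2.le⟩).trans (le_max_right _ _)
  have := ODE_solution_unique_of_mem_Icc_right (v := u) (s := fun _ => Metric.closedBall (0:Pt) R)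
    (K := Real.toNNReal K) (f := X') (g := X) (a := 0) (b := T) hlip hX'
    (fun t ht => (h'.2 t ht.1).mono (Ici_subset_Ici.mpr ht.1)) hmem' hX
    (fun t ht => (h.2 t ht.1).mono (Ici_subset_Ici.mpr ht.1)) hmem (by rw [h.1, h'.1])
  exact this ⟨hT, le_rfl⟩

end Vale.Agent.P113
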