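import Vale.Agent.P113.Tower
import Vale.Agent.P113.Energy

/-!
Finite sums of products of one-variable functions: derivatives, smoothness, computability.
-/

open Set Filter Topology MeasureTheory

namespace Vale.Agent.P113

/-- a product term `c · T(t) f₀(x₀) f₁(x₁) f₂(x₂)` -/
structure Tm where
  c : ℝ
  T : ℕ → ℝ → ℝ
  f : Fin 3 → ℕ → ℝ → ℝ

noncomputable def Tm.val (τ : Tm) (n : Fin 4 → ℕ) (t : ℝ) (x : Pt) : ℝ :=
  τ.c * (τ.T (n 0) t * (τ.f 0 (n 1) (x 0) * τ.f 1 (n 2) (x 1) * τ.f 2 (n 3) (x 2)))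

noncomputable def sval (L : List Tm) (n : Fin 4 → ℕ) (t : ℝ) (x : Pt) : ℝ :=
  (L.map (fun τ => τ.val n t x)).sum

structure Tm.Good (τ : Tm) : Prop where
  tw : IsTw τ.T
  fw : ∀ i, IsTw (τ.f i)
  per : ∀ i k x, τ.f i k (x+1) = τ.f i k x

lemma sval_nil (n : Fin 4 → ℕ) (t : ℝ) (x : Pt) : sval [] n t x = 0 := by simp [sval]

lemma sval_cons (τ : Tm) (L : List Tm) (n : Fin 4 → ℕ) (t : ℝ) (x : Pt) :
    sval (τ :: L) n t x = τ.val n t x + sval L n t x := by simp [sval]

lemma sval_append (L M : List Tm) (n : Fin 4 → ℕ) (t : ℝ) (x : Pt) :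
    sval (L ++ M) n t x = sval L n t x + sval M n t x := by simp [sval]

lemma Tm.Good.dt {τ : Tm} (h : τ.Good) (n : Fin 4 → ℕ) (t : ℝ) (x : Pt) :
    HasDerivAt (fun s => τ.val n s x) (τ.val (n + Pi.single 0 1) t x) t := by
  unfold Tm.val
  have h1 := ((h.tw (n 0) t).mul_const
    (τ.f 0 (n 1) (x 0) * τ.f 1 (n 2) (x 1) * τ.f 2 (n 3) (x 2))).const_mul τ.c
  refine h1.congr_deriv ?_
  simp [Pi.single_apply]

lemma Tm.Good.dx {τ : Tm} (h : τ.Good) (n : Fin 4 → ℕ) (t : ℝ) (x : Pt) (i : Fin 3) :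
    HasDerivAt (fun s => τ.val n t (Function.update x i s)) (τ.val (n + Pi.single i.succ 1) t x)
      (x i) := by
  unfold Tm.val
  fin_cases i
  · have h1 := (((h.fw 0 (n 1) (x 0)).mul_const (τ.f 1 (n 2) (x 1))).mul_const
      (τ.f 2 (n 3) (x 2))).const_mul (τ.T (n 0) t) |>.const_mul τ.c
    simpa [Pi.single_apply, Function.update_apply] using h1
  · have h1 := (((h.fw 1 (n 2) (x 1)).const_mul (τ.f 0 (n 1) (x 0))).mul_const
      (τ.f 2 (n 3) (x 2))).const_mul (τ.T (n 0) t) |>.const_mul τ.c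
    simpa [Pi.single_apply, Function.update_apply] using h1
  · have h1 := ((h.fw 2 (n 3) (x 2)).const_mul (τ.f 0 (n 1) (x 0) * τ.f 1 (n 2) (x 1))).const_mul
      (τ.T (n 0) t) |>.const_mul τ.c
    simpa [Pi.single_apply, Function.update_apply] using h1

lemma sval_dt {L : List Tm} (h : ∀ τ ∈ L, τ.Good) (n : Fin 4 → ℕ) (t : ℝ) (x : Pt) :
    HasDerivAt (fun s => sval L n s x) (sval L (n + Pi.single 0 1) t x) t := by
  induction L with
  | nil => simpa [sval] using hasDerivAt_const t (0:ℝ)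
  | cons τ L ih =>
    simp only [sval_cons]
    exact ((h τ (by simp)).dt n t x).add (ih fun τ hτ => h τ (by simp [hτ]))

lemma sval_dx {L : List Tm} (h : ∀ τ ∈ L, τ.Good) (n : Fin 4 → ℕ) (t : ℝ) (x : Pt) (i : Fin 3) :
    HasDerivAt (fun s => sval L n t (Function.update x i s)) (sval L (n + Pi.single i.succ 1) t x)
      (x i) := by
  induction L with
  | nil => simpa [sval] using hasDerivAt_const (x i) (0:ℝ)
  | cons τ L ih =>
    simp only [sval_cons]
    exact ((h τ (by simp)).dx n t x i).add (ih fun τ hτ => h τ (by simp [hτ]))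

lemma dx_sval {L : List Tm} (h : ∀ τ ∈ L, τ.Good) (n : Fin 4 → ℕ) (t : ℝ) (x : Pt) (i : Fin 3) :
    dx i (sval L n t) x = sval L (n + Pi.single i.succ 1) t x := (sval_dx h n t x i).deriv

lemma Tm.Good.contDiff {τ : Tm} (h : τ.Good) (n : Fin 4 → ℕ) :
    ContDiff ℝ (⊤ : ℕ∞) (fun z : ℝ × Pt => τ.val n z.1 z.2) := by
  unfold Tm.val
  have e : ∀ i : Fin 3, ∀ k, ContDiff ℝ (⊤ : ℕ∞) (fun z : ℝ × Pt => τ.f i k (z.2 i)) := by
    intro i k
    have h1 : ContDiff ℝ (⊤ : ℕ∞) (fun z : ℝ × Pt => z.2 i) := by fun_prop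
    exact ((h.fw i).contDiff k).comp h1
  have e0 : ContDiff ℝ (⊤ : ℕ∞) (fun z : ℝ × Pt => τ.T (n 0) z.1) :=
    (h.tw.contDiff (n 0)).comp contDiff_fst
  exact contDiff_const.mul (e0.mul (((e 0 _).mul (e 1 _)).mul (e 2 _)))

lemma sval_contDiff {L : List Tm} (h : ∀ τ ∈ L, τ.Good) (n : Fin 4 → ℕ) :
    ContDiff ℝ (⊤ : ℕ∞) (fun z : ℝ × Pt => sval L n z.1 z.2) := by
  induction L with
  | nil => simpa [sval] using contDiff_const
  | cons τ L ih =>
    simp only [sval_cons]
    exact ((h τ (by simp)).contDiff n).add (ih fun τ hτ => h τ (by simp [hτ]))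

lemma Tm.Good.periodic {τ : Tm} (h : τ.Good) (n : Fin 4 → ℕ) (t : ℝ) :
    Per3 (τ.val n t) := by
  intro x i
  unfold Tm.val
  fin_cases i <;> simp [Pi.single_apply, h.per]

lemma sval_periodic {L : List Tm} (h : ∀ τ ∈ L, τ.Good) (n : Fin 4 → ℕ) (t : ℝ) :
    Per3 (sval L n t) := by
  intro x i
  induction L with
  | nil => simp [sval]
  | cons τ L ih =>
    rw [sval_cons, sval_cons, (h τ (by simp)).periodic n t x i, ih fun τ hτ => h τ (by simp [hτ])]

/-! ### mixed derivatives of `F (n) = D⁽ⁿ⁾ u` -/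

/-- a function with all its mixed derivatives -/
structure MT (G : (Fin 4 → ℕ) → ℝ → Pt → ℝ) : Prop where
  dt : ∀ n t x, HasDerivAt (fun s => G n s x) (G (n + Pi.single 0 1) t x) t
  dx : ∀ n t x (i : Fin 3), HasDerivAt (fun s => G n t (Function.update x i s))
    (G (n + Pi.single i.succ 1) t x) (x i)

lemma sval_MT {L : List Tm} (h : ∀ τ ∈ L, τ.Good) : MT (sval L) :=
  ⟨sval_dt h, sval_dx h⟩

lemma MT.add {F G : (Fin 4 → ℕ) → ℝ → Pt → ℝ} (hF : MT F) (hG : MT G) :
    MT (fun n t x => F n t x + G n t x) :=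
  ⟨fun n t x => (hF.dt n t x).add (hG.dt n t x), fun n t x i => (hF.dx n t x i).add (hG.dx n t x i)⟩

lemma MT.sub {F G : (Fin 4 → ℕ) → ℝ → Pt → ℝ} (hF : MT F) (hG : MT G) :
    MT (fun n t x => F n t x - G n t x) :=
  ⟨fun n t x => (hF.dt n t x).sub (hG.dt n t x), fun n t x i => (hF.dx n t x i).sub (hG.dx n t x i)⟩

lemma MT.const_mul {F : (Fin 4 → ℕ) → ℝ → Pt → ℝ} (hF : MT F) (c : ℝ) :
    MT (fun n t x => c * F n t x) :=
  ⟨fun n t x => (hF.dt n t x).const_mul c, fun n t x i => (hF.dx n t x i).const_mul c⟩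

lemma MT.shift {F : (Fin 4 → ℕ) → ℝ → Pt → ℝ} (hF : MT F) (m : Fin 4 → ℕ) :
    MT (fun n t x => F (n + m) t x) := by
  constructor
  · intro n t x
    have := hF.dt (n + m) t x
    rwa [add_right_comm] at this
  · intro n t x i
    have := hF.dx (n + m) t x i
    rwa [add_right_comm] at this

lemma MT.pd {G : (Fin 4 → ℕ) → ℝ → Pt → ℝ} (hG : MT G) (n : Fin 4 → ℕ) (k : Fin 4) :
    pd k (G n) = G (n + Pi.single k 1) := by
  funext t x
  refine Fin.cases ?_ (fun i => ?_) k
  · exact (hG.dt n t x).deriv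
  · exact (hG.dx n t x i).deriv

def cnt (α : List (Fin 4)) : Fin 4 → ℕ := fun k => α.count k

lemma cnt_cons (k : Fin 4) (α : List (Fin 4)) : cnt (k :: α) = cnt α + Pi.single k 1 := by
  funext j
  simp only [cnt, Pi.add_apply, List.count_cons, Pi.single_apply]
  by_cases h : k = j
  · subst h; simp
  · have h2 : ¬ j = k := fun h3 => h h3.symm
    simp [h, h2]

lemma MT.mixed {G : (Fin 4 → ℕ) → ℝ → Pt → ℝ} (hG : MT G) (α : List (Fin 4)) :
    mixed α (G 0) = G (cnt α) := by
  induction α with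
  | nil =>
    have : cnt [] = 0 := by funext j; simp [cnt]
    rw [this]; rfl
  | cons k α ih =>
    show P113.pd k (P113.mixed α (G 0)) = _
    rw [ih, hG.pd, cnt_cons]

/-! ### computability -/

/-- queries: direction list, time, point -/
abbrev Qry := List (Fin 4) × QCode × QCode × QCode × QCode

noncomputable def qpt (q : Qry) : Pt := ![rat q.2.2.1, rat q.2.2.2.1, rat q.2.2.2.2]

lemma cnt_computable (k : Fin 4) : Computable (fun α : List (Fin 4) => α.count k) := by
  have h : Primrec (fun α : List (Fin 4) => (α.filter (fun j => decide (j = k))).length) := by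
    refine Primrec.list_length.comp ?_
    exact Primrec.listFilter (p := fun j => j = k) (Primrec.eq.comp Primrec.id (Primrec.const k))
  refine (h.of_eq ?_).to_comp
  intro α
  rw [List.count_eq_countP, List.countP_eq_length_filter]
  congr 1

structure Tm.Comp (τ : Tm) : Prop where
  T : CRT τ.T
  f : ∀ i, CRT (τ.f i)

lemma Tm.Comp.val {τ : Tm} (h : τ.Comp) {α : Type} [Primcodable α] {c : α → ℝ} (hc : CR c)
    (m : Fin 4 → ℕ) {q : α → Qry} (hq : Computable q) :
    CR (fun a => ({ τ with c := c a } : Tm).val (cnt (q a).1 + m) (rat (q a).2.1) (qpt (q a))) := by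
  have hα : Computable (fun a => (q a).1) := Computable.fst.comp hq
  have hk : ∀ k : Fin 4, Computable (fun a => (q a).1.count k + m k) := fun k =>
    cadd ((cnt_computable k).comp hα) (Computable.const _)
  have ht : Computable (fun a => (q a).2.1) := Computable.fst.comp (Computable.snd.comp hq)
  have hx0 : Computable (fun a => (q a).2.2.1) :=
    Computable.fst.comp (Computable.snd.comp (Computable.snd.comp hq))
  have hx1 : Computable (fun a => (q a).2.2.2.1) :=
    Computable.fst.comp (Computable.snd.comp (Computable.snd.comp (Computable.snd.comp hq)))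
  have hx2 : Computable (fun a => (q a).2.2.2.2) :=
    Computable.snd.comp (Computable.snd.comp (Computable.snd.comp (Computable.snd.comp hq)))
  refine (hc.mul ((h.T.comp (hk 0) ht).mul ((((h.f 0).comp (hk 1) hx0).mul
    ((h.f 1).comp (hk 2) hx1)).mul ((h.f 2).comp (hk 3) hx2)))).of_eq ?_
  intro a
  rfl

end Vale.Agent.P113
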