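import Vale.Agent.P113.CR

/-!
One-variable functions given with all their derivatives.
-/

open Filter Topology

namespace Vale.Agent.P113

/-- `F k` is the `k`-th derivative of `F 0`. -/
def IsTw (F : ℕ → ℝ → ℝ) : Prop := ∀ k x, HasDerivAt (F k) (F (k+1) x) x

lemma IsTw.contDiff {F : ℕ → ℝ → ℝ} (h : IsTw F) (k : ℕ) : ContDiff ℝ (⊤ : ℕ∞) (F k) := by
  rw [contDiff_infty]
  intro n
  induction n generalizing k with
  | zero =>
    rw [Nat.cast_zero, contDiff_zero]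
    exact continuous_iff_continuousAt.mpr fun x => (h k x).continuousAt
  | succ n ih =>
    rw [Nat.cast_succ, contDiff_succ_iff_deriv]
    refine ⟨fun x => (h k x).differentiableAt, by simp, ?_⟩
    have : deriv (F k) = F (k+1) := funext fun x => (h k x).deriv
    rw [this]
    exact ih (k+1)

def oneTw : ℕ → ℝ → ℝ := fun k _ => if k = 0 then 1 else 0

lemma oneTw_isTw : IsTw oneTw := by
  intro k x
  unfold oneTw
  simp only [Nat.add_eq_zero_iff, one_ne_zero, and_false, if_false]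
  exact hasDerivAt_const x _

/-- atoms `c · aᵏ · WD (m + k) (a x + b)` -/
abbrev Atom := ℚ × ℕ × ℕ × ℚ

noncomputable def at1 (p : Atom) (k : ℕ) (x : ℝ) : ℝ :=
  (p.1 : ℝ) * (p.2.2.1 : ℝ)^k * WD (p.2.1 + k) ((p.2.2.1 : ℝ) * x + p.2.2.2)

noncomputable def ev (L : List Atom) (k : ℕ) (x : ℝ) : ℝ := (L.map (fun p => at1 p k x)).sum

lemma at1_isTw (p : Atom) : IsTw (at1 p) := by
  intro k x
  unfold at1
  have h1 : HasDerivAt (fun x : ℝ => (p.2.2.1 : ℝ) * x + p.2.2.2) (p.2.2.1 : ℝ) x := by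
    simpa using ((hasDerivAt_id x).const_mul (p.2.2.1 : ℝ)).add_const (p.2.2.2 : ℝ)
  have h2 := ((WD_hasDerivAt (p.2.1 + k) ((p.2.2.1 : ℝ) * x + p.2.2.2)).comp x h1).const_mul
    ((p.1 : ℝ) * (p.2.2.1 : ℝ)^k)
  refine h2.congr_deriv ?_
  rw [← add_assoc, pow_succ]
  ring

lemma ev_isTw (L : List Atom) : IsTw (ev L) := by
  intro k x
  unfold ev
  induction L with
  | nil => simpa using hasDerivAt_const x (0:ℝ)
  | cons p L ih =>
    simp only [List.map_cons, List.sum_cons]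
    exact (at1_isTw p k x).add ih

/-- computability of a tower at rational points -/
def CRT (F : ℕ → ℝ → ℝ) : Prop := CR (fun p : ℕ × QCode => F p.1 (rat p.2))

lemma CRT.comp {F : ℕ → ℝ → ℝ} (hF : CRT F) {α : Type} [Primcodable α] {k : α → ℕ} {q : α → QCode}
    (hk : Computable k) (hq : Computable q) : CR (fun a => F (k a) (rat (q a))) :=
  CR.comp (h := fun a => (k a, q a)) hF (hk.pair hq)

lemma CRT.congr {F : ℕ → ℝ → ℝ} (hF : CRT F) {G : ℕ → ℝ → ℝ} (h : ∀ k x, F k x = G k x) :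
    CRT G := CR.of_eq hF (fun p => h p.1 (rat p.2))

lemma at1_crt (p : Atom) : CRT (at1 p) := by
  have h1 : CR (fun q : ℕ × QCode => (p.1 : ℝ)) := CR.const_rat p.1
  have h2 : CR (fun q : ℕ × QCode => (((p.2.2.1)^q.1 : ℕ) : ℝ)) :=
    CR.nat (h := fun q : ℕ × QCode => p.2.2.1^q.1) (cpow (Computable.const _) Computable.fst)
  have h3 : CR (fun q : ℕ × QCode => rat q.2) := CR.ofQ Computable.snd
  have h4 : CR (fun q : ℕ × QCode => (((p.2.2.1 : ℕ) : ℚ) : ℝ) * rat q.2 + (p.2.2.2 : ℝ)) :=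
    (h3.const_mul ((p.2.2.1 : ℕ) : ℚ)).add (CR.const_rat p.2.2.2)
  have h5 : Computable (fun q : ℕ × QCode => p.2.1 + q.1) :=
    cadd (Computable.const _) Computable.fst
  refine ((h1.mul h2).mul (CR.compWD h4 h5)).of_eq ?_
  intro q
  unfold at1
  push_cast
  rfl

lemma ev_crt (L : List Atom) : CRT (ev L) := by
  unfold ev
  induction L with
  | nil => exact (CR.const_rat 0).of_eq (by intro a; simp)
  | cons p L ih =>
    refine (CR.add (at1_crt p) ih).of_eq ?_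
    intro a
    simp only [List.map_cons, List.sum_cons]

lemma oneTw_crt : CRT oneTw := by
  unfold CRT oneTw
  have h1 : Computable (fun q : ℕ × QCode => decide (q.1 = 0)) :=
    (PrimrecPred.decide (Primrec.eq.comp (Primrec.fst (α := ℕ) (β := QCode))
      (Primrec.const 0))).to_comp
  refine (CR.ite h1 (CR.const_rat 1) (CR.const_rat 0)).of_eq ?_
  intro a; simp

/-! ### periodization -/

noncomputable def perf (F : ℕ → ℝ → ℝ) (k : ℕ) (x : ℝ) : ℝ := F k (Int.fract x)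

lemma perf_add_one (F : ℕ → ℝ → ℝ) (k : ℕ) (x : ℝ) : perf F k (x+1) = perf F k x := by
  unfold perf; rw [Int.fract_add_one]

/-- support strictly inside the unit interval -/
structure Supp (F : ℕ → ℝ → ℝ) (d : ℝ) : Prop where
  pos : 0 < d
  le : d ≤ 1/2
  left : ∀ k x, x ≤ d → F k x = 0
  right : ∀ k x, 1 - d ≤ x → F k x = 0

lemma perf_eq_near {F : ℕ → ℝ → ℝ} {d : ℝ} (hs : Supp F d) (k : ℕ) (n : ℤ) (y : ℝ)
    (h1 : (n:ℝ) - d < y) (h2 : y < n + 1 + d) : perf F k y = F k (y - n) := by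
  have hd := hs.pos
  have hd2 := hs.le
  unfold perf
  rcases lt_or_ge y n with h | h
  · have hf : Int.floor y = n - 1 := by
      rw [Int.floor_eq_iff]; push_cast; constructor <;> linarith
    rw [Int.fract, hf, hs.right k (y - ((n-1:ℤ):ℝ)) (by push_cast; linarith),
      hs.left k (y - n) (by linarith)]
  · rcases lt_or_ge y (n+1) with h3 | h3
    · have hf : Int.floor y = n := by
        rw [Int.floor_eq_iff]; constructor <;> linarith
      rw [Int.fract, hf]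
    · have hf : Int.floor y = n + 1 := by
        rw [Int.floor_eq_iff]; push_cast; constructor <;> linarith
      rw [Int.fract, hf, hs.left k (y - ((n+1:ℤ):ℝ)) (by push_cast; linarith),
        hs.right k (y - n) (by linarith)]

lemma perf_isTw {F : ℕ → ℝ → ℝ} {d : ℝ} (hF : IsTw F) (hs : Supp F d) : IsTw (perf F) := by
  intro k x
  have hd := hs.pos
  have h1 : perf F k =ᶠ[𝓝 x] fun y => F k (y - (⌊x⌋ : ℝ)) := by
    have h2 : Set.Ioo ((⌊x⌋ : ℝ) - d) (⌊x⌋ + 1 + d) ∈ 𝓝 x := by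
      apply Ioo_mem_nhds
      · linarith [Int.floor_le x]
      · linarith [Int.lt_floor_add_one x]
    filter_upwards [h2] with y hy
    exact perf_eq_near hs k ⌊x⌋ y hy.1 hy.2
  have h3 : HasDerivAt (fun y => F k (y - (⌊x⌋ : ℝ))) (F (k+1) (x - ⌊x⌋)) x :=
    (hF k (x - ⌊x⌋)).comp_sub_const x _
  exact h3.congr_of_eventuallyEq h1

def qfract (q : QCode) : QCode := ((q.1 + q.2.1 * q.2.2) % (q.2.2 + 1), 0, q.2.2)

lemma rat_qfract (q : QCode) : rat (qfract q) = Int.fract (rat q) := by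
  obtain ⟨a, b, c⟩ := q
  simp only [qfract, rat]
  have hc : (0:ℝ) < (c:ℝ) + 1 := by positivity
  symm
  rw [Int.fract_eq_iff]
  refine ⟨by rw [Nat.cast_zero, sub_zero]; positivity, ?_, ?_⟩
  · rw [div_lt_one hc, Nat.cast_zero, sub_zero]
    have : (a + b*c) % (c+1) < c + 1 := Nat.mod_lt _ (by omega)
    exact_mod_cast this
  · refine ⟨(((a + b*c)/(c+1) : ℕ) : ℤ) - b, ?_⟩
    have h2 : (c+1) * ((a + b*c)/(c+1)) + (a + b*c) % (c+1) = a + b*c := Nat.div_add_mod _ _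
    have h3 : ((c:ℝ)+1) * (((a + b*c)/(c+1) : ℕ) : ℝ) + (((a + b*c) % (c+1) : ℕ) : ℝ) = a + b*c := by
      exact_mod_cast h2
    generalize (a + b*c)/(c+1) = D at *
    generalize (a + b*c) % (c+1) = E at *
    push_cast
    field_simp
    linarith

lemma qfract_computable : Computable qfract := by
  have one : Computable (fun _ : QCode => 1) := Computable.const 1
  have h1 : Computable (fun q : QCode => q.1) := Computable.fst
  have h2 : Computable (fun q : QCode => q.2.1) := Computable.fst.comp Computable.snd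
  have h3 : Computable (fun q : QCode => q.2.2) := Computable.snd.comp Computable.snd
  exact (cmod (cadd h1 (cmul h2 h3)) (cadd h3 one)).pair ((Computable.const 0).pair h3)

lemma perf_crt {F : ℕ → ℝ → ℝ} (hF : CRT F) : CRT (perf F) := by
  have h := hF.comp (α := ℕ × QCode) (k := fun p => p.1) (q := fun p => qfract p.2)
    Computable.fst (qfract_computable.comp Computable.snd)
  refine h.of_eq ?_
  intro p
  rw [rat_qfract]
  rfl

/-! ### shifts and differences -/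

noncomputable def shf (s : ℚ) (F : ℕ → ℝ → ℝ) (k : ℕ) (x : ℝ) : ℝ := F k (x + s)

lemma shf_isTw {F : ℕ → ℝ → ℝ} (hF : IsTw F) (s : ℚ) : IsTw (shf s F) := fun k x =>
  (hF k (x + s)).comp_add_const x _

/-- a code of a rational number -/
def qc (q : ℚ) : QCode := (q.num.toNat, (-q.num).toNat, q.den - 1)

lemma rat_qc (q : ℚ) : rat (qc q) = q := by
  have hd : ((q.den - 1 : ℕ) : ℝ) + 1 = q.den := by
    have : q.den - 1 + 1 = q.den := Nat.sub_add_cancel q.den_pos
    exact_mod_cast this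
  have hn : ((q.num.toNat : ℕ) : ℝ) - ((-q.num).toNat : ℕ) = q.num := by
    have : ((q.num.toNat : ℕ) : ℤ) - ((-q.num).toNat : ℕ) = q.num := by omega
    exact_mod_cast this
  simp only [rat, qc]
  rw [hd, hn]
  exact_mod_cast Rat.num_div_den q

lemma shf_crt {F : ℕ → ℝ → ℝ} (hF : CRT F) (s : ℚ) : CRT (shf s F) := by
  have h := hF.comp (α := ℕ × QCode) (k := fun p => p.1) (q := fun p => qadd p.2 (qc s))
    Computable.fst (cqadd Computable.snd (Computable.const _))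
  refine h.of_eq ?_
  intro p
  rw [rat_qadd, rat_qc]
  rfl

noncomputable def subTw (F G : ℕ → ℝ → ℝ) (k : ℕ) (x : ℝ) : ℝ := F k x - G k x

lemma subTw_isTw {F G : ℕ → ℝ → ℝ} (hF : IsTw F) (hG : IsTw G) : IsTw (subTw F G) :=
  fun k x => (hF k x).sub (hG k x)

lemma subTw_crt {F G : ℕ → ℝ → ℝ} (hF : CRT F) (hG : CRT G) : CRT (subTw F G) := CR.sub hF hG

/-- first derivative tower -/
noncomputable def dTw (F : ℕ → ℝ → ℝ) (k : ℕ) (x : ℝ) : ℝ := F (k+1) x

lemma dTw_isTw {F : ℕ → ℝ → ℝ} (hF : IsTw F) : IsTw (dTw F) := fun k x => hF (k+1) x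

lemma dTw_crt {F : ℕ → ℝ → ℝ} (hF : CRT F) : CRT (dTw F) :=
  hF.comp (α := ℕ × QCode) (k := fun p => p.1 + 1) (q := fun p => p.2)
    (cadd Computable.fst (Computable.const 1)) Computable.snd

/-! ### bumps -/

/-- `α x + β` on `[p, q]`, zero outside `(p - 1/N, q + 1/N)` -/
def bump (N : ℕ) (p q α β : ℚ) : List Atom :=
  [(α/N, 0, N, 1 - N*p), (-(α/N), 0, N, -(N*q)), (β + α*p - α/(2*N), 1, N, 1 - N*p),
    (-(α*(q-p+1/N) + (β + α*p - α/(2*N))), 1, N, -(N*q))]

lemma ev_bump (N : ℕ) (p q α β : ℚ) (k : ℕ) (x : ℝ) : ev (bump N p q α β) k x =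
    (N:ℝ)^k * ((α:ℝ)/N * (WD k (N*x + (1 - N*p)) - WD k (N*x - N*q))
      + (β + α*p - α/(2*N)) * WD (1+k) (N*x + (1 - N*p))
      - (α*(q-p+1/N) + (β + α*p - α/(2*N))) * WD (1+k) (N*x - N*q)) := by
  unfold ev bump at1
  simp only [List.map_cons, List.map_nil, List.sum_cons, List.sum_nil]
  push_cast
  simp only [zero_add, sub_eq_add_neg]
  ring

lemma bump_mid {N : ℕ} (hN : 0 < N) {p q α β : ℚ} {x : ℝ} (h1 : (p:ℝ) ≤ x) (h2 : x ≤ q) :
    ev (bump N p q α β) 0 x = α * x + β := by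
  have hN' : (0:ℝ) < N := by exact_mod_cast hN
  rw [ev_bump]
  have e1 : (1:ℝ) ≤ N*x + (1 - N*p) := by nlinarith
  have e2 : (N:ℝ)*x - N*q ≤ 0 := by nlinarith
  rw [WD_nonpos 0 e2, WD_nonpos (1+0) e2]
  rw [WD_zero_ge e1, add_zero, WD_one_ge e1]
  field_simp
  ring

lemma bump_left {N : ℕ} (hN : 0 < N) {p q α β : ℚ} (hpq : p ≤ q) {x : ℝ} (h1 : x ≤ p - 1/N)
    (k : ℕ) : ev (bump N p q α β) k x = 0 := by
  have hN' : (0:ℝ) < N := by exact_mod_cast hN
  have hpq' : (p:ℝ) ≤ q := by exact_mod_cast hpq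
  rw [ev_bump]
  have h2 : (N:ℝ)*x ≤ N*p - 1 := by
    have := mul_le_mul_of_nonneg_left h1 hN'.le
    have h3 : (N:ℝ) * (p - 1/N) = N*p - 1 := by field_simp
    linarith
  have e1 : (N:ℝ)*x + (1 - N*p) ≤ 0 := by linarith
  have e2 : (N:ℝ)*x - N*q ≤ 0 := by nlinarith
  rw [WD_nonpos k e2, WD_nonpos (1+k) e2, WD_nonpos k e1, WD_nonpos (1+k) e1]
  ring

lemma bump_right {N : ℕ} (hN : 0 < N) {p q α β : ℚ} (hpq : p ≤ q) {x : ℝ} (h1 : q + 1/N ≤ x)
    (k : ℕ) : ev (bump N p q α β) k x = 0 := by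
  have hN' : (0:ℝ) < N := by exact_mod_cast hN
  have hpq' : (p:ℝ) ≤ q := by exact_mod_cast hpq
  rw [ev_bump]
  have h2 : (N:ℝ)*q + 1 ≤ N*x := by
    have := mul_le_mul_of_nonneg_left h1 hN'.le
    have h3 : (N:ℝ) * (q + 1/N) = N*q + 1 := by field_simp
    linarith
  have e1 : (1:ℝ) ≤ (N:ℝ)*x + (1 - N*p) := by nlinarith
  have e2 : (1:ℝ) ≤ (N:ℝ)*x - N*q := by linarith
  rcases k with _ | _ | k
  · rw [WD_zero_ge e1, WD_zero_ge e2, add_zero, WD_one_ge e1, WD_one_ge e2]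
    field_simp
    ring
  · rw [WD_one_ge e1, WD_one_ge e2]
    have e3 := WD_ge 0 e1
    have e4 := WD_ge 0 e2
    have : 1 + (0+1) = 0 + 2 := rfl
    rw [this, e3, e4]
    ring
  · have e3 := WD_ge k e1
    have e4 := WD_ge k e2
    have e5 := WD_ge (k+1) e1
    have e6 := WD_ge (k+1) e2
    have h3 : 1 + (k+1+1) = k + 1 + 2 := by ring
    rw [h3, e3, e4, e5, e6]
    ring

end Vale.Agent.P113
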