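import Vale.Agent.P113.Cycle

/-!
The trajectory follows the computation.
-/

open Turing

namespace Vale.Agent.P113

variable {m : Mach}

lemma dsp_of (c : Pt) (k : ℕ) (x : Pt) (j : Fin 9) (h9 : 9 ≤ k) (hj : k % 9 = j) :
    dsp m.S c k x = Pi.single (m.S j).dir ((m.S j).val x) := by
  have h : (⟨k % 9, Nat.mod_lt _ (by norm_num)⟩ : Fin 9) = j := Fin.ext hj
  unfold dsp
  rw [if_neg (by omega), if_neg (by omega), h]

lemma pnt_z (s s' : List ℕ) (z v : ℝ) : pnt m s s' z + Pi.single 2 v = pnt m s s' (z + v) := by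
  funext i
  fin_cases i <;> simp [pnt]

lemma pnt_x (s s' s1 : List ℕ) (z : ℝ) (h : z = (pt m.B s1 : ℝ) - pt m.B s) :
    pnt m s s' z + Pi.single 0 z = pnt m s1 s' z := by
  funext i
  fin_cases i
  · simp only [pnt, h]; simp
  · simp [pnt]
  · simp [pnt]

lemma pnt_y (s s' s1 : List ℕ) (z : ℝ) (h : z = (pt m.B s1 : ℝ) - pt m.B s') :
    pnt m s s' z + Pi.single 1 z = pnt m s s1 z := by
  funext i
  fin_cases i
  · simp [pnt]
  · simp only [pnt, h]; simp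
  · simp [pnt]

lemma pnt_two (s s' : List ℕ) (z : ℝ) : pnt m s s' z 2 = z := rfl

lemma diff_bound {s s' : List ℕ} (hs : Valid m.B s) (hs' : Valid m.B s') :
    -(1/4) ≤ (pt m.B s : ℝ) - pt m.B s' ∧ (pt m.B s : ℝ) - pt m.B s' ≤ 1/4 := by
  have h1 := pt_bounds hs
  have h2 := pt_bounds hs'
  constructor <;> linarith [h1.1, h1.2, h2.1, h2.2]

/-- `x`-moving gadget: three windows -/
lemma gad_x (c : Pt) (k : ℕ) (j0 j1 j2 : Fin 9) (h9 : 9 ≤ k) (h0 : k % 9 = j0)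
    (h1 : (k+1) % 9 = j1) (h2 : (k+2) % 9 = j2) {P Q : m.Rr → List Atom × List Atom}
    (e0 : m.S j0 = zsh P) (e1 : m.S j1 = hsh 0) (e2 : m.S j2 = zsh Q)
    {s s' t : List ℕ} (hs : Valid m.B s) (ht : Valid m.B t)
    (hY : Yp m.S c k = pnt m s s' 0)
    (v0 : (zsh P).val (pnt m s s' 0) = (pt m.B t : ℝ) - pt m.B s)
    (v2 : ∀ z, (zsh Q).val (pnt m t s' z) = (pt m.B s : ℝ) - pt m.B t) :
    (Yp m.S c (k+1) = pnt m s s' ((pt m.B t : ℝ) - pt m.B s)) ∧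
    (Yp m.S c (k+2) = pnt m t s' ((pt m.B t : ℝ) - pt m.B s)) ∧
    (Yp m.S c (k+3) = pnt m t s' 0) := by
  have hb := diff_bound ht hs
  have y1 : Yp m.S c (k+1) = pnt m s s' ((pt m.B t : ℝ) - pt m.B s) := by
    show Yp m.S c k + dsp m.S c k (Yp m.S c k) = _
    rw [dsp_of c k _ j0 h9 h0, e0, hY, v0]
    show _ + Pi.single 2 _ = _
    rw [pnt_z, zero_add]
  have y2 : Yp m.S c (k+2) = pnt m t s' ((pt m.B t : ℝ) - pt m.B s) := by
    show Yp m.S c (k+1) + dsp m.S c (k+1) (Yp m.S c (k+1)) = _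
    rw [dsp_of c (k+1) _ j1 (by omega) h1, e1, y1,
      hsh_val 0 _ (by rw [pnt_two]; exact hb.1) (by rw [pnt_two]; exact hb.2), pnt_two]
    show _ + Pi.single 0 _ = _
    exact pnt_x _ _ _ _ rfl
  refine ⟨y1, y2, ?_⟩
  show Yp m.S c (k+2) + dsp m.S c (k+2) (Yp m.S c (k+2)) = _
  rw [dsp_of c (k+2) _ j2 (by omega) h2, e2, y2, v2]
  show _ + Pi.single 2 _ = _
  rw [pnt_z]
  congr 1; ring

lemma gad_y (c : Pt) (k : ℕ) (j0 j1 j2 : Fin 9) (h9 : 9 ≤ k) (h0 : k % 9 = j0)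
    (h1 : (k+1) % 9 = j1) (h2 : (k+2) % 9 = j2) {P Q : m.Rr → List Atom × List Atom}
    (e0 : m.S j0 = zsh P) (e1 : m.S j1 = hsh 1) (e2 : m.S j2 = zsh Q)
    {s s' t : List ℕ} (hs : Valid m.B s') (ht : Valid m.B t)
    (hY : Yp m.S c k = pnt m s s' 0)
    (v0 : (zsh P).val (pnt m s s' 0) = (pt m.B t : ℝ) - pt m.B s')
    (v2 : ∀ z, (zsh Q).val (pnt m s t z) = (pt m.B s' : ℝ) - pt m.B t) :
    (Yp m.S c (k+1) = pnt m s s' ((pt m.B t : ℝ) - pt m.B s')) ∧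
    (Yp m.S c (k+2) = pnt m s t ((pt m.B t : ℝ) - pt m.B s')) ∧
    (Yp m.S c (k+3) = pnt m s t 0) := by
  have hb := diff_bound ht hs
  have y1 : Yp m.S c (k+1) = pnt m s s' ((pt m.B t : ℝ) - pt m.B s') := by
    show Yp m.S c k + dsp m.S c k (Yp m.S c k) = _
    rw [dsp_of c k _ j0 h9 h0, e0, hY, v0]
    show _ + Pi.single 2 _ = _
    rw [pnt_z, zero_add]
  have y2 : Yp m.S c (k+2) = pnt m s t ((pt m.B t : ℝ) - pt m.B s') := by
    show Yp m.S c (k+1) + dsp m.S c (k+1) (Yp m.S c (k+1)) = _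
    rw [dsp_of c (k+1) _ j1 (by omega) h1, e1, y1,
      hsh_val 1 _ (by rw [pnt_two]; exact hb.1) (by rw [pnt_two]; exact hb.2), pnt_two]
    show _ + Pi.single 1 _ = _
    exact pnt_y _ _ _ _ rfl
  refine ⟨y1, y2, ?_⟩
  show Yp m.S c (k+2) + dsp m.S c (k+2) (Yp m.S c (k+2)) = _
  rw [dsp_of c (k+2) _ j2 (by omega) h2, e2, y2, v2]
  show _ + Pi.single 2 _ = _
  rw [pnt_z]
  congr 1; ring

/-- one full cycle -/
lemma cycle (c : Pt) (n : ℕ) (cf : RCfg m.Q m.Γ) {y : _} (hn : m.nx (r0 cf) = some y)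
    (hY : Yp m.S c (9*(n+1)) = pnt m (sx cf) (sy cf) 0) :
    (∀ i ≤ 9, -(1/4) ≤ Yp m.S c (9*(n+1)+i) 2 ∧ Yp m.S c (9*(n+1)+i) 2 ≤ 1/4) ∧
    Yp m.S c (9*(n+1+1)) = pnt m (sx (nc cf y)) (sy (nc cf y)) 0 := by
  obtain ⟨a1, a2, a3⟩ := gad_x c (9*(n+1)) 0 1 2 (by omega) (by simp)
    (by show _ = 1; omega) (by show _ = 2; omega) (P := m.P0) (Q := m.P2) rfl rfl rfl
    (valid_sx cf) (valid_s1 cf) hY (val0 cf hn 0) (val2 cf hn)
  obtain ⟨b1, b2, b3⟩ := gad_y c (9*(n+1)+3) 3 4 5 (by omega) (by show _ = 3; omega)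
    (by show _ = 4; omega) (by show _ = 5; omega) (P := m.P3) (Q := m.P5) rfl rfl rfl
    (valid_sy cf) (valid_sy (nc cf y)) a3 (val3 cf hn 0) (val5 cf hn)
  obtain ⟨c1, c2, c3⟩ := gad_x c (9*(n+1)+3+3) 6 7 8 (by omega) (by show _ = 6; omega)
    (by show _ = 7; omega) (by show _ = 8; omega) (P := m.P6) (Q := m.P8) rfl rfl rfl
    (valid_s1 cf) (valid_sx (nc cf y)) b3 (val6 cf hn 0) (val8 cf hn)
  have d1 := diff_bound (valid_s1 cf) (valid_sx cf)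
  have d2 := diff_bound (valid_sy (nc cf y)) (valid_sy cf)
  have d3 := diff_bound (valid_sx (nc cf y)) (valid_s1 cf)
  have hz : (-(1/4) : ℝ) ≤ 0 ∧ (0:ℝ) ≤ 1/4 := by norm_num
  constructor
  · intro i hi
    interval_cases i
    · rw [add_zero, hY, pnt_two]; exact hz
    · rw [a1, pnt_two]; exact d1
    · rw [a2, pnt_two]; exact d1
    · rw [a3, pnt_two]; exact hz
    · rw [show 9*(n+1)+4 = 9*(n+1)+3+1 by ring, b1, pnt_two]; exact d2
    · rw [show 9*(n+1)+5 = 9*(n+1)+3+2 by ring, b2, pnt_two]; exact d2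
    · rw [show 9*(n+1)+6 = 9*(n+1)+3+3 by ring, b3, pnt_two]; exact hz
    · rw [show 9*(n+1)+7 = 9*(n+1)+3+3+1 by ring, c1, pnt_two]; exact d3
    · rw [show 9*(n+1)+8 = 9*(n+1)+3+3+2 by ring, c2, pnt_two]; exact d3
    · rw [show 9*(n+1)+9 = 9*(n+1)+3+3+3 by ring, c3, pnt_two]; exact hz
  · rw [show 9*(n+1+1) = 9*(n+1)+3+3+3 by ring]
    exact c3

lemma Yp_early (c : Pt) (k : ℕ) (hk : k < 9) : Yp m.S c (k+1) = c := by
  induction k with
  | zero =>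
    show Yp m.S c 0 + dsp m.S c 0 (Yp m.S c 0) = c
    unfold dsp
    rw [if_pos rfl]
    show 0 + c = c
    rw [zero_add]
  | succ k ih =>
    show Yp m.S c (k+1) + dsp m.S c (k+1) (Yp m.S c (k+1)) = c
    rw [ih (by omega)]
    unfold dsp
    rw [if_neg (by omega), if_pos (by omega), add_zero]

/-- initial displacement -/
noncomputable def cinit (cf : RCfg m.Q m.Γ) : Pt := pnt m (sx cf) (sy cf) 0

lemma rnext_nc (cf : RCfg m.Q m.Γ) {y : _} (hy : m.nx (r0 cf) = some y) :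
    rnext m.δ cf = nc cf y := by
  have e := nx_r0 cf
  rw [hy] at e
  unfold rnext
  rw [e]
  rfl

lemma Yp_run (c0 : RCfg m.Q m.Γ) (n : ℕ)
    (h : ∀ i < n, rstep m.δ ((rnext m.δ)^[i] c0) ≠ none) :
    Yp m.S (cinit c0) (9*(n+1)) =
      pnt m (sx ((rnext m.δ)^[n] c0)) (sy ((rnext m.δ)^[n] c0)) 0 := by
  induction n with
  | zero => exact Yp_early _ 8 (by norm_num)
  | succ n ih =>
    have h1 := ih (fun i hi => h i (by omega))
    have h2 := h n (by omega)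
    rcases hy : m.nx (r0 ((rnext m.δ)^[n] c0)) with _ | y
    · exfalso; apply h2; rw [nx_r0, hy]; rfl
    · have h3 := (cycle (cinit c0) n _ hy h1).2
      rw [h3, Function.iterate_succ_apply']
      rw [rnext_nc _ hy]

lemma Yp_bound (c0 : RCfg m.Q m.Γ) (h : ∀ i, rstep m.δ ((rnext m.δ)^[i] c0) ≠ none) (k : ℕ) :
    -(1/4) ≤ Yp m.S (cinit c0) k 2 ∧ Yp m.S (cinit c0) k 2 ≤ 1/4 := by
  have hz : (-(1/4) : ℝ) ≤ 0 ∧ (0:ℝ) ≤ 1/4 := by norm_num
  rcases Nat.lt_or_ge k 10 with hk | hk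
  · rcases k with _ | k
    · exact hz
    · rw [Yp_early _ k (by omega)]; exact hz
  · obtain ⟨n, i, hi, rfl⟩ : ∃ n i, i ≤ 9 ∧ k = 9*(n+1) + i :=
      ⟨k/9 - 1, k % 9, by omega, by omega⟩
    rcases hy : m.nx (r0 ((rnext m.δ)^[n] c0)) with _ | y
    · exfalso; apply h n; rw [nx_r0, hy]; rfl
    · exact (cycle (cinit c0) n _ hy (Yp_run c0 n (fun i _ => h i))).1 i hi

/-- the target set -/
def Oset : Set Pt := {x | Real.cos (2 * Real.pi * x 2) < 0}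

lemma Oset_open : IsOpen Oset := by
  unfold Oset
  exact isOpen_lt (by fun_prop) continuous_const

lemma Oset_periodic (x : Pt) (i : Fin 3) : x + Pi.single i 1 ∈ Oset ↔ x ∈ Oset := by
  unfold Oset
  simp only [Set.mem_ofPred_eq, Pi.add_apply]
  by_cases h : i = 2
  · subst h
    rw [Pi.single_eq_same, mul_add, mul_one, Real.cos_add_two_pi]
  · rw [Pi.single_eq_of_ne (Ne.symm h), add_zero]

lemma not_mem_Oset {x : Pt} (h1 : -(1/4) ≤ x 2) (h2 : x 2 ≤ 1/4) : x ∉ Oset := by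
  unfold Oset
  simp only [Set.mem_ofPred_eq, not_lt]
  apply Real.cos_nonneg_of_neg_pi_div_two_le_of_le
  · have := Real.pi_pos; nlinarith
  · have := Real.pi_pos; nlinarith

theorem hits_iff (c0 : RCfg m.Q m.Γ) :
    (∃ t, 0 ≤ t ∧ Xt m.S (cinit c0) t ∈ Oset) ↔
      ∃ n, rstep m.δ ((rnext m.δ)^[n] c0) = none := by
  classical
  constructor
  · rintro ⟨t, ht, hX⟩
    by_contra hne
    push Not at hne
    have hb1 := Yp_bound c0 hne (win t)
    have hb2 := Yp_bound c0 hne (win t + 1)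
    have hY : Yp m.S (cinit c0) (win t + 1) 2 = Yp m.S (cinit c0) (win t) 2 +
      dsp m.S (cinit c0) (win t) (Yp m.S (cinit c0) (win t)) 2 := rfl
    have hX2 : Xt m.S (cinit c0) t 2 = Yp m.S (cinit c0) (win t) 2 +
      ts (9*t - win t) * dsp m.S (cinit c0) (win t) (Yp m.S (cinit c0) (win t)) 2 := rfl
    have hs0 : 0 ≤ ts (9*t - win t) := WD_one_nonneg _
    have hs1 : ts (9*t - win t) ≤ 1 := WD_one_le _
    refine not_mem_Oset ?_ ?_ hX
    · rw [hX2]; nlinarith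
    · rw [hX2]; nlinarith
  · intro hex
    let n := Nat.find hex
    have hn : rstep m.δ ((rnext m.δ)^[n] c0) = none := Nat.find_spec hex
    have hmin : ∀ i < n, rstep m.δ ((rnext m.δ)^[i] c0) ≠ none := fun i hi => Nat.find_min hex hi
    have h1 := Yp_run c0 n hmin
    have h2 : Yp m.S (cinit c0) (9*(n+1)+1) =
        pnt m (sx ((rnext m.δ)^[n] c0)) (sy ((rnext m.δ)^[n] c0)) (1/2) := by
      show Yp m.S (cinit c0) (9*(n+1)) + dsp m.S (cinit c0) (9*(n+1))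
        (Yp m.S (cinit c0) (9*(n+1))) = _
      rw [dsp_of _ (9*(n+1)) _ 0 (by omega) (by simp), h1]
      have e0 : m.S 0 = zsh m.P0 := rfl
      rw [e0, val0_halt _ hn]
      show _ + Pi.single 2 _ = _
      rw [pnt_z, zero_add]
    refine ⟨((9*(n+1)+1 : ℕ) : ℝ)/9, by positivity, ?_⟩
    have h3 : 9 * (((9*(n+1)+1 : ℕ) : ℝ)/9) = ((9*(n+1)+1 : ℕ) : ℝ) := by field_simp
    rw [Xt_near _ (9*(n+1)+1) (by rw [h3]; linarith) (by rw [h3]; linarith), h3, sub_self,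
      ts_left (by norm_num), zero_smul, add_zero, h2]
    unfold Oset
    simp only [Set.mem_ofPred_eq, pnt_two]
    have : 2 * Real.pi * (1/2) = Real.pi := by ring
    rw [this, Real.cos_pi]
    norm_num

end Vale.Agent.P113
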