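import Vale.Agent.P113.Halting

/-!
A universal finite Post-Turing machine.
-/

open Turing StateTransition

namespace Vale.Agent.P113

/-- effect of an instruction on the tape -/
def act {Γ : Type} [Inhabited Γ] : TM0.Stmt Γ → Tape Γ → Tape Γ
  | TM0.Stmt.move d, T => T.move d
  | TM0.Stmt.write a, T => T.write a

/-- one step of a Post-Turing machine given by a transition function -/
def step0 {Q Γ : Type} [Inhabited Γ] (δ : Q → Γ → Option (Q × TM0.Stmt Γ)) :
    Q × Tape Γ → Option (Q × Tape Γ) :=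
  fun c => (δ c.1 c.2.head).map fun x => (x.1, act x.2 c.2)

/-- restriction of a machine to a supporting set of states -/
lemma finite_machine {Λ Γ : Type} [Inhabited Λ] [Inhabited Γ] (M : TM0.Machine Γ Λ) (S : Finset Λ)
    (ss : TM0.Supports M (↑S : Set Λ)) :
    ∃ (Q : Type) (_ : Finite Q) (δ : Q → Γ → Option (Q × TM0.Stmt Γ)) (q0 : Q),
      ∀ l : List Γ, (StateTransition.eval (step0 δ) (q0, Tape.mk₁ l)).Dom ↔ (TM0.eval M l).Dom := by
  classical
  have ss2 : ∀ {q a q' s}, (q', s) ∈ M q a → q ∈ S → q' ∈ S := ss.2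
  let δ : {q // q ∈ S} → Γ → Option ({q // q ∈ S} × TM0.Stmt Γ) := fun q a =>
    match h : M q.1 a with
    | none => none
    | some x => some (⟨x.1, ss2 (q := q.1) (a := a) (q' := x.1) (s := x.2) (by rw [h]; rfl) q.2⟩, x.2)
  have hδ : ∀ q a, (δ q a).map (fun x => (x.1.1, x.2)) = M q.1 a := by
    intro q a
    simp only [δ]
    split
    · rename_i h; simp [h]
    · rename_i x h; simp [h]
  refine ⟨{q // q ∈ S}, inferInstance, δ, ⟨default, ss.1⟩, fun l => ?_⟩
  have hR : Respects (step0 δ) (TM0.step M)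
      (fun (a : {q // q ∈ S} × Tape Γ) (b : TM0.Cfg Γ Λ) => b = ⟨a.1.1, a.2⟩) := by
    rintro ⟨q, T⟩ b rfl
    have h1 := hδ q T.head
    have h3 : TM0.step M ⟨q.1, T⟩ = (M q.1 T.head).map (fun x => (⟨x.1, match x.2 with
      | TM0.Stmt.move d => T.move d
      | TM0.Stmt.write a => T.write a⟩ : TM0.Cfg Γ Λ)) := rfl
    simp only [step0, h3]
    rcases h2 : δ q T.head with _ | ⟨q', s⟩
    · rw [h2] at h1
      simp only [Option.map_none] at h1 ⊢
      rw [← h1]; rfl
    · rw [h2] at h1
      simp only [Option.map_some] at h1 ⊢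
      refine ⟨_, rfl, Relation.TransGen.single ?_⟩
      simp only [Option.mem_def]
      rw [h3, ← h1]
      cases s <;> rfl
  have h := StateTransition.tr_eval_dom hR (a₁ := (⟨default, ss.1⟩, Tape.mk₁ l))
    (a₂ := TM0.init l) rfl
  exact h.symm

noncomputable section

open PartrecToTM2

instance : Finite K' :=
  Finite.of_surjective (fun i : Fin 4 => ![K'.main, K'.rev, K'.aux, K'.stack] i)
    (fun k => by
      cases k
      · exact ⟨0, rfl⟩
      · exact ⟨1, rfl⟩
      · exact ⟨2, rfl⟩
      · exact ⟨3, rfl⟩)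

/-- the tape alphabet -/
abbrev UΓ := TM2to1.Γ' K' (fun _ => PartrecToTM2.Γ')

instance : Finite UΓ := inferInstanceAs (Finite (Bool × (K' → Option PartrecToTM2.Γ')))

instance : Inhabited UΓ := TM2to1.Γ'.inhabited

/-- the input word for the number `n` -/
def uinput (n : ℕ) : List UΓ := TM2to1.trInit K'.main (trList [n])

theorem universal_TM0 (f : ℕ →. ℕ) (hf : Partrec f) :
    ∃ (Q : Type) (_ : Finite Q) (δ : Q → UΓ → Option (Q × TM0.Stmt UΓ)) (q0 : Q),
      ∀ n : ℕ, (StateTransition.eval (step0 δ) (q0, Tape.mk₁ (uinput n))).Dom ↔ (f n).Dom := by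
  have h1 : Nat.Partrec' (fun v : List.Vector ℕ 1 => f v.head) := Nat.Partrec'.part_iff₁.mpr hf
  obtain ⟨c, hc⟩ := ToPartrec.Code.exists_code h1
  have hc' : ∀ n : ℕ, (c.eval [n]).Dom ↔ (f n).Dom := by
    intro n
    have h2 := hc (n ::ᵥ List.Vector.nil)
    have h3 : c.eval [n] = pure <$> f n := h2
    rw [h3]
    rfl
  let _ : Inhabited PartrecToTM2.Λ' := ⟨trNormal c Cont'.halt⟩
  let M1 := TM2to1.tr (K := K') (Γ := fun _ => PartrecToTM2.Γ') (σ := Option PartrecToTM2.Γ')
    PartrecToTM2.tr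
  have ss2 : TM2.Supports PartrecToTM2.tr (codeSupp c Cont'.halt) :=
    PartrecToTM2.tr_supports c Cont'.halt
  have ss1 := TM2to1.tr_supports PartrecToTM2.tr ss2
  have ss0 := TM1to0.tr_supports M1 ss1
  obtain ⟨Q, hQ, δ, q0, hδ⟩ := finite_machine (TM1to0.tr M1) _ ss0
  refine ⟨Q, hQ, δ, q0, fun n => ?_⟩
  rw [hδ, TM1to0.tr_eval]
  unfold uinput
  refine (TM2to1.tr_eval_dom PartrecToTM2.tr K'.main (trList [n])).trans ?_
  refine Iff.trans ?_ (hc' n)
  have h4 := PartrecToTM2.tr_eval c [n]
  have h5 : (TM2.init K'.main (trList [n]) :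
      TM2.Cfg (fun _ : K' => PartrecToTM2.Γ') PartrecToTM2.Λ' (Option PartrecToTM2.Γ')) =
      PartrecToTM2.init c [n] := by
    unfold TM2.init PartrecToTM2.init
    congr 1
    funext k
    cases k <;> rfl
  unfold TM2.eval
  rw [h5]
  show (StateTransition.eval (TM2.step PartrecToTM2.tr) (PartrecToTM2.init c [n])).Dom ↔ _
  rw [h4]
  rfl

end

/-! ### A reversible two-stack machine simulating a Post-Turing machine: history records are
inserted in the stacks and skipped over. -/

/-- stack symbols: tape symbols and history records -/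
abbrev SS (Q Γ : Type) := Γ ⊕ (Q × Fin 3 × Γ)

/-- control states -/
inductive Ctl (Q : Type)
  | run : Q → Fin 3 → Ctl Q
  | scanR : Q → Ctl Q
  | scanL : Q → Ctl Q

instance {Q : Type} [Finite Q] : Finite (Ctl Q) :=
  Finite.of_injective (β := (Q × Fin 3) ⊕ (Q ⊕ Q)) (fun c => match c with
    | Ctl.run q t => Sum.inl (q, t)
    | Ctl.scanR q => Sum.inr (Sum.inl q)
    | Ctl.scanL q => Sum.inr (Sum.inr q)) (by
      intro a b h
      cases a <;> cases b <;> simp_all)

section
variable {Q Γ : Type} [Inhabited Γ]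

/-- the rules: control, top of the left stack, top of the right stack -/
def nxt (δ : Q → Γ → Option (Q × TM0.Stmt Γ)) :
    Ctl Q → SS Q Γ → SS Q Γ → Option (Ctl Q × List (SS Q Γ) × List (SS Q Γ))
  | Ctl.run q τ, s, Sum.inl a =>
    match δ q a with
    | none => none
    | some (q', TM0.Stmt.write b) =>
      some (Ctl.run q' 0, [s], [Sum.inl b, Sum.inr (q, τ, a)])
    | some (q', TM0.Stmt.move Dir.right) =>
      some (Ctl.scanR q', [Sum.inl a, Sum.inr (q, τ, a), s], [])
    | some (q', TM0.Stmt.move Dir.left) =>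
      some (Ctl.scanL q', [s], [Sum.inl a, Sum.inr (q, τ, a)])
  | Ctl.run _ _, _, Sum.inr _ => none
  | Ctl.scanR q, s, Sum.inl a => some (Ctl.run q 1, [s], [Sum.inl a])
  | Ctl.scanR q, s, Sum.inr g => some (Ctl.scanR q, [Sum.inr g, s], [])
  | Ctl.scanL q, Sum.inl a, t => some (Ctl.run q 2, [], [Sum.inl a, t])
  | Ctl.scanL q, Sum.inr g, t => some (Ctl.scanL q, [], [Sum.inr g, t])

/-- the blank -/
def bk : SS Q Γ := Sum.inl default

abbrev RCfg (Q Γ : Type) := Ctl Q × List (SS Q Γ) × List (SS Q Γ)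

def rstep (δ : Q → Γ → Option (Q × TM0.Stmt Γ)) (c : RCfg Q Γ) : Option (RCfg Q Γ) :=
  (nxt δ c.1 (c.2.1.headD bk) (c.2.2.headD bk)).map
    (fun r => (r.1, r.2.1 ++ c.2.1.tail, r.2.2 ++ c.2.2.tail))

/-- the inverse rules -/
def prv : Ctl Q → List (SS Q Γ) → List (SS Q Γ) → Ctl Q × SS Q Γ × SS Q Γ
  | Ctl.run q 0, X, Y =>
    match Y.tail.headD bk with
    | Sum.inr (q0, τ, a) => (Ctl.run q0 τ, X.headD bk, Sum.inl a)
    | Sum.inl _ => (Ctl.run q 0, bk, bk)
  | Ctl.run q 1, X, Y => (Ctl.scanR q, X.headD bk, Y.headD bk)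
  | Ctl.run q 2, _, Y => (Ctl.scanL q, Y.headD bk, Y.tail.headD bk)
  | Ctl.scanR q, X, _ =>
    match X.headD bk with
    | Sum.inl _ =>
      match X.tail.headD bk with
      | Sum.inr (q0, τ, a) => (Ctl.run q0 τ, X.tail.tail.headD bk, Sum.inl a)
      | Sum.inl _ => (Ctl.run q 0, bk, bk)
    | Sum.inr g => (Ctl.scanR q, X.tail.headD bk, Sum.inr g)
  | Ctl.scanL q, X, Y =>
    match Y.headD bk with
    | Sum.inl _ =>
      match Y.tail.headD bk with
      | Sum.inr (q0, τ, a) => (Ctl.run q0 τ, X.headD bk, Sum.inl a)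
      | Sum.inl _ => (Ctl.run q 0, bk, bk)
    | Sum.inr g => (Ctl.scanL q, Sum.inr g, Y.tail.headD bk)

/-- `u` is the beginning of the stack `s` (padded with blanks) -/
def Top {A : Type} (b : A) : List A → List A → Prop
  | [], _ => True
  | (a :: u), s => s.headD b = a ∧ Top b u s.tail

lemma prv_nxt (δ : Q → Γ → Option (Q × TM0.Stmt Γ)) (c : Ctl Q) (s t : SS Q Γ)
    (c' : Ctl Q) (xw yw X Y : List (SS Q Γ)) (h : nxt δ c s t = some (c', xw, yw))
    (hX : Top bk xw X) (hY : Top bk yw Y) : prv c' X Y = (c, s, t) := by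
  cases c with
  | run q τ =>
    cases t with
    | inl a =>
      simp only [nxt] at h
      split at h
      · exact absurd h (by simp)
      · simp only [Option.some.injEq, Prod.mk.injEq] at h
        obtain ⟨rfl, rfl, rfl⟩ := h
        simp only [Top] at hX hY
        simp only [prv, hY.2.1, hX.1]
      · simp only [Option.some.injEq, Prod.mk.injEq] at h
        obtain ⟨rfl, rfl, rfl⟩ := h
        simp only [Top] at hX hY
        simp only [prv, hX.1, hX.2.1, hX.2.2.1]
      · simp only [Option.some.injEq, Prod.mk.injEq] at h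
        obtain ⟨rfl, rfl, rfl⟩ := h
        simp only [Top] at hX hY
        simp only [prv, hY.1, hY.2.1, hX.1]
    | inr g => simp [nxt] at h
  | scanR q =>
    cases t with
    | inl a =>
      simp only [nxt, Option.some.injEq, Prod.mk.injEq] at h
      obtain ⟨rfl, rfl, rfl⟩ := h
      simp only [Top] at hX hY
      simp only [prv, hX.1, hY.1]
    | inr g =>
      simp only [nxt, Option.some.injEq, Prod.mk.injEq] at h
      obtain ⟨rfl, rfl, rfl⟩ := h
      simp only [Top] at hX hY
      simp only [prv, hX.1, hX.2.1]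
  | scanL q =>
    cases s with
    | inl a =>
      simp only [nxt, Option.some.injEq, Prod.mk.injEq] at h
      obtain ⟨rfl, rfl, rfl⟩ := h
      simp only [Top] at hX hY
      simp only [prv, hY.1, hY.2.1]
    | inr g =>
      simp only [nxt, Option.some.injEq, Prod.mk.injEq] at h
      obtain ⟨rfl, rfl, rfl⟩ := h
      simp only [Top] at hX hY
      simp only [prv, hY.1, hY.2.1]

/-- erase the records -/
def er (X : List (SS Q Γ)) : List Γ := X.filterMap (Sum.elim some (fun _ => none))

def lb (X : List (SS Q Γ)) : ListBlank Γ := ListBlank.mk (er X)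

lemma lb_inl (a : Γ) (X : List (SS Q Γ)) : lb (Sum.inl a :: X) = (lb X).cons a := by
  simp [lb, er, ListBlank.cons_mk]

lemma lb_inr (g : Q × Fin 3 × Γ) (X : List (SS Q Γ)) : lb (Sum.inr g :: X) = lb X := by
  unfold lb er
  rw [List.filterMap_cons]
  rfl

lemma lb_nil_cons : (lb ([] : List (SS Q Γ))).cons default = lb ([] : List (SS Q Γ)) := by
  unfold lb er
  rw [List.filterMap_nil]
  have h := ListBlank.cons_head_tail (ListBlank.mk ([] : List Γ))
  rw [ListBlank.head_mk, ListBlank.tail_mk] at h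
  exact h

lemma lb_top (X : List (SS Q Γ)) : lb (X.headD bk :: X.tail) = lb X := by
  cases X with
  | nil =>
    rw [List.headD_nil, List.tail_nil, bk, lb_inl, lb_nil_cons]
  | cons a X => rfl

/-- simulation relation in running states -/
inductive Rl : Q × Tape Γ → RCfg Q Γ → Prop
  | mk (q : Q) (τ : Fin 3) (T : Tape Γ) (X Y : List (SS Q Γ)) (hX : lb X = T.left)
      (hh : Y.headD bk = Sum.inl T.head) (hY : lb Y.tail = T.right) : Rl (q, T) (Ctl.run q τ, X, Y)

lemma scanR_run (δ : Q → Γ → Option (Q × TM0.Stmt Γ)) (q : Q) (T : Tape Γ) (Y : List (SS Q Γ)) :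
    ∀ X : List (SS Q Γ), lb X = T.left → lb Y = T.right.cons T.head →
    ∃ c, Rl (q, T) c ∧ Reaches (rstep δ) (Ctl.scanR q, X, Y) c := by
  induction Y with
  | nil =>
    intro X hX hY
    refine ⟨(Ctl.run q 1, X.headD bk :: X.tail, [bk]), Rl.mk _ _ _ _ _ ?_ ?_ ?_, ?_⟩
    · rw [lb_top, hX]
    · have h1 : (lb ([] : List (SS Q Γ))).head = T.head := by rw [hY, ListBlank.head_cons]
      rw [← h1, ← lb_nil_cons, ListBlank.head_cons]; rfl
    · have h1 : (lb ([] : List (SS Q Γ))).tail = T.right := by rw [hY, ListBlank.tail_cons]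
      rw [← h1, ← lb_nil_cons, ListBlank.tail_cons]; rfl
    · exact Relation.ReflTransGen.single rfl
  | cons y Y ih =>
    intro X hX hY
    cases y with
    | inl a =>
      rw [lb_inl] at hY
      have h1 : a = T.head := by
        have := congrArg ListBlank.head hY
        rwa [ListBlank.head_cons, ListBlank.head_cons] at this
      have h2 : lb Y = T.right := by
        have := congrArg ListBlank.tail hY
        rwa [ListBlank.tail_cons, ListBlank.tail_cons] at this
      refine ⟨(Ctl.run q 1, X.headD bk :: X.tail, Sum.inl a :: Y),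
        Rl.mk _ _ _ _ _ ?_ ?_ ?_, ?_⟩
      · rw [lb_top, hX]
      · rw [h1]; rfl
      · exact h2
      · exact Relation.ReflTransGen.single rfl
    | inr g =>
      rw [lb_inr] at hY
      obtain ⟨c, hc, hr⟩ := ih (Sum.inr g :: X.headD bk :: X.tail) (by
        rw [lb_inr, lb_top, hX]) hY
      exact ⟨c, hc, Relation.ReflTransGen.head (b := (Ctl.scanR q,
        Sum.inr g :: X.headD bk :: X.tail, Y)) rfl hr⟩

lemma scanL_run (δ : Q → Γ → Option (Q × TM0.Stmt Γ)) (q : Q) (T : Tape Γ) (X : List (SS Q Γ)) :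
    ∀ Y : List (SS Q Γ), lb X = T.left.cons T.head → lb Y = T.right →
    ∃ c, Rl (q, T) c ∧ Reaches (rstep δ) (Ctl.scanL q, X, Y) c := by
  induction X with
  | nil =>
    intro Y hX hY
    refine ⟨(Ctl.run q 2, [], bk :: Y.headD bk :: Y.tail), Rl.mk _ _ _ _ _ ?_ ?_ ?_, ?_⟩
    · have h1 : (lb ([] : List (SS Q Γ))).tail = T.left := by rw [hX, ListBlank.tail_cons]
      rw [← h1, ← lb_nil_cons, ListBlank.tail_cons, lb_nil_cons]
    · have h1 : (lb ([] : List (SS Q Γ))).head = T.head := by rw [hX, ListBlank.head_cons]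
      rw [← h1, ← lb_nil_cons, ListBlank.head_cons]; rfl
    · rw [List.tail_cons, lb_top, hY]
    · exact Relation.ReflTransGen.single rfl
  | cons x X ih =>
    intro Y hX hY
    cases x with
    | inl a =>
      rw [lb_inl] at hX
      have h1 : a = T.head := by
        have := congrArg ListBlank.head hX
        rwa [ListBlank.head_cons, ListBlank.head_cons] at this
      have h2 : lb X = T.left := by
        have := congrArg ListBlank.tail hX
        rwa [ListBlank.tail_cons, ListBlank.tail_cons] at this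
      refine ⟨(Ctl.run q 2, X, Sum.inl a :: Y.headD bk :: Y.tail),
        Rl.mk _ _ _ _ _ h2 ?_ ?_, ?_⟩
      · rw [h1]; rfl
      · rw [List.tail_cons, lb_top, hY]
      · exact Relation.ReflTransGen.single rfl
    | inr g =>
      rw [lb_inr] at hX
      obtain ⟨c, hc, hr⟩ := ih (Sum.inr g :: Y.headD bk :: Y.tail) hX (by
        rw [lb_inr, lb_top, hY])
      exact ⟨c, hc, Relation.ReflTransGen.head (b := (Ctl.scanL q, X,
        Sum.inr g :: Y.headD bk :: Y.tail)) rfl hr⟩

lemma rstep_respects (δ : Q → Γ → Option (Q × TM0.Stmt Γ)) :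
    Respects (step0 δ) (rstep δ) Rl := by
  rintro _ _ ⟨q, τ, T, X, Y, hX, hh, hY⟩
  simp only [step0]
  rcases hδ : δ q T.head with _ | ⟨q', st⟩
  · simp only [Option.map_none]
    simp only [rstep, nxt, hh, hδ, Option.map_none]
  · simp only [Option.map_some]
    cases st with
    | write b =>
      refine ⟨(Ctl.run q' 0, X.headD bk :: X.tail, Sum.inl b :: Sum.inr (q, τ, T.head) :: Y.tail),
        Rl.mk _ _ _ _ _ ?_ ?_ ?_, Relation.TransGen.single ?_⟩
      · rw [lb_top, hX]; rfl
      · rfl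
      · rw [List.tail_cons, lb_inr, hY]; rfl
      · simp only [Option.mem_def, rstep, nxt, hh, hδ, Option.map_some]; rfl
    | move d =>
      obtain ⟨a, L, R⟩ := T
      simp only at hX hh hY hδ
      cases d with
      | right =>
        obtain ⟨c, hc, hr⟩ := scanR_run δ q' (Tape.move Dir.right ⟨a, L, R⟩) Y.tail
          (Sum.inl a :: Sum.inr (q, τ, a) :: X.headD bk :: X.tail) (by
            rw [lb_inl, lb_inr, lb_top, hX]; rfl) (by
            rw [hY]; simp only [Tape.move]; rw [ListBlank.cons_head_tail])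
        refine ⟨c, hc, Relation.TransGen.head' (b := (Ctl.scanR q',
          Sum.inl a :: Sum.inr (q, τ, a) :: X.headD bk :: X.tail, Y.tail)) ?_ hr⟩
        simp only [Option.mem_def, rstep, nxt, hh, hδ, Option.map_some]; rfl
      | left =>
        obtain ⟨c, hc, hr⟩ := scanL_run δ q' (Tape.move Dir.left ⟨a, L, R⟩)
          (X.headD bk :: X.tail) (Sum.inl a :: Sum.inr (q, τ, a) :: Y.tail) (by
            rw [lb_top, hX]; simp only [Tape.move]; rw [ListBlank.cons_head_tail]) (by
            rw [lb_inl, lb_inr, hY]; rfl)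
        refine ⟨c, hc, Relation.TransGen.head' (b := (Ctl.scanL q', X.headD bk :: X.tail,
          Sum.inl a :: Sum.inr (q, τ, a) :: Y.tail)) ?_ hr⟩
        simp only [Option.mem_def, rstep, nxt, hh, hδ, Option.map_some]; rfl

/-- initial configuration -/
def rinit (q0 : Q) (l : List Γ) : RCfg Q Γ := (Ctl.run q0 0, [], l.map Sum.inl)

lemma rinit_rel (q0 : Q) (l : List Γ) : Rl (q0, Tape.mk₁ l) (rinit q0 l) := by
  refine Rl.mk _ _ _ _ _ ?_ ?_ ?_
  · rfl
  · cases l <;> rfl
  · cases l with
    | nil => rfl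
    | cons a l =>
      simp only [List.map_cons, List.tail_cons, Tape.mk₁, Tape.mk₂, Tape.mk'_right,
        ListBlank.tail_mk]
      unfold lb er
      congr 1
      induction l with
      | nil => rfl
      | cons b l ih => simp only [List.map_cons, List.filterMap_cons, Sum.elim_inl, ih]

def rnext (δ : Q → Γ → Option (Q × TM0.Stmt Γ)) (c : RCfg Q Γ) : RCfg Q Γ := (rstep δ c).getD c

lemma rstep_halts (δ : Q → Γ → Option (Q × TM0.Stmt Γ)) (q0 : Q) (l : List Γ) :
    (∃ n, rstep δ ((rnext δ)^[n] (rinit q0 l)) = none) ↔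
      (StateTransition.eval (step0 δ) (q0, Tape.mk₁ l)).Dom := by
  rw [← StateTransition.tr_eval_dom (rstep_respects δ) (rinit_rel q0 l)]
  generalize rinit q0 l = c0
  rw [Part.dom_iff_mem]
  constructor
  · rintro ⟨n, hn⟩
    refine ⟨_, StateTransition.mem_eval.mpr ⟨?_, hn⟩⟩
    clear hn
    induction n with
    | zero => exact Relation.ReflTransGen.refl
    | succ n ih =>
      rw [Function.iterate_succ_apply']
      unfold rnext at ih ⊢
      rcases h : rstep δ ((fun c => (rstep δ c).getD c)^[n] c0) with _ | c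
      · simpa using ih
      · exact ih.tail h
  · rintro ⟨c, hc⟩
    obtain ⟨h1, h2⟩ := StateTransition.mem_eval.mp hc
    have h3 : ∃ n, (rnext δ)^[n] c0 = c := by
      clear h2 hc
      induction h1 with
      | refl => exact ⟨0, rfl⟩
      | tail _ h ih =>
        obtain ⟨n, hn⟩ := ih
        refine ⟨n+1, ?_⟩
        rw [Function.iterate_succ_apply', hn]
        unfold rnext
        rw [Option.mem_def.mp h]
        rfl
    obtain ⟨n, hn⟩ := h3
    exact ⟨n, by rw [hn]; exact h2⟩

end

end Vale.Agent.P113
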